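import Vale.Agent.P141.H530.CplxC

/-!
# P141, exponents `r < 1`: the final theorem
-/

namespace Vale.Agent.P141.H530

open MeasureTheory Filter Topology
open scoped ENNReal NNReal SchwartzMap
open Vale.Agent.P141 (truncTHT IsHolderTuple)
open Vale.Agent.P141.PL.H620 (LL LL_ge)

noncomputable section

/-- the bound in terms of the norms -/
theorem eL_main {q r p1 p2 p3 : ℝ} (hq : 2 ≤ q) (h1 : q < p1) (h2 : q < p2) (h3 : q < p3)
    (hr0 : 0 < r) (hr1 : r ≤ 1) (hr : r / p1 + r / p2 + r / p3 = 1) :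
    ∃ C : ℝ, 0 ≤ C ∧ ∀ (n : ℕ) (P : ℝ), 0 ≤ P → RootS q (n + 1) P →
      ∀ f₁ f₂ f₃ : ℝ → ℂ, Continuous f₁ → Continuous f₂ → Continuous f₃ →
      ∀ ε R : ℝ, 0 < ε → ε < R → 2 ^ n * ε ≤ R → R ≤ 2 * (2 ^ n * ε) →
      eLpNorm (truncTHT f₁ f₂ f₃ ε R) (ENNReal.ofReal r) volume ≤ ENNReal.ofReal (C * (1 + P)) *
        eLpNorm f₁ (ENNReal.ofReal p1) volume * eLpNorm f₂ (ENNReal.ofReal p2) volume *
          eLpNorm f₃ (ENNReal.ofReal p3) volume := by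
  obtain ⟨C, hC, H⟩ := cplx_main hq h1 h2 h3 hr0 hr1 hr
  refine ⟨(C ^ (1 / r)).toReal, ENNReal.toReal_nonneg, ?_⟩
  intro n P hP hRS f₁ f₂ f₃ c1 c2 c3 ε R hε hεR hR1 hR2
  have h4 := H n P hP hRS f₁ f₂ f₃ c1 c2 c3 ε R hε hεR hR1 hR2
  rw [eLpNorm_eq_lintegral_rpow_enorm_toReal (by simpa using hr0) ENNReal.ofReal_ne_top,
    ENNReal.toReal_ofReal hr0.le]
  have h5 := ENNReal.rpow_le_rpow h4 (by positivity : 0 ≤ 1 / r)
  refine h5.trans (le_of_eq ?_)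
  have e : ∀ a : ℝ≥0∞, (a ^ r) ^ (1 / r) = a := fun a => by
    rw [← ENNReal.rpow_mul, mul_one_div_cancel hr0.ne', ENNReal.rpow_one]
  have hC' : C ^ (1 / r) ≠ ∞ := ENNReal.rpow_ne_top_of_nonneg (by positivity) hC
  have hr' : 0 ≤ 1 / r := by positivity
  rw [ENNReal.mul_rpow_of_nonneg _ _ hr', ENNReal.mul_rpow_of_nonneg _ _ hr',
    ENNReal.mul_rpow_of_nonneg _ _ hr', ENNReal.mul_rpow_of_nonneg _ _ hr', e, e, e,
    ← ENNReal.ofReal_rpow_of_nonneg (by linarith : 0 ≤ 1 + P) hr0.le, e,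
    ENNReal.ofReal_mul ENNReal.toReal_nonneg, ENNReal.ofReal_toReal hC']
  ring

theorem scales' {ε R : ℝ} (hε : 0 < ε) (hR : ε < R) : ∃ n : ℕ, 2 ^ n * ε ≤ R ∧
    R ≤ 2 * (2 ^ n * ε) ∧ 1 + Real.log (1 + ((n + 1 : ℕ) : ℝ)) ≤ 2 * LL ε R := by
  have hpos : 0 < R / ε := div_pos (hε.trans hR) hε
  have h1 : 1 ≤ R / ε := (one_le_div hε).2 hR.le
  obtain ⟨n, hn1, hn2⟩ := exists_nat_pow_near h1 (one_lt_two : (1 : ℝ) < 2)
  refine ⟨n, ?_, ?_, ?_⟩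
  · rwa [le_div_iff₀ hε] at hn1
  · rw [div_lt_iff₀ hε, pow_succ] at hn2
    linarith
  · have h2 : 0 ≤ Real.log (R / ε) := Real.log_nonneg h1
    have h3 : (n : ℝ) * Real.log 2 ≤ Real.log (R / ε) := by
      rw [← Real.log_pow]
      exact Real.log_le_log (by positivity) hn1
    have h4 : 1 / 2 < Real.log 2 := by linarith [Real.log_two_gt_d9]
    have h5 : Real.log 2 < 1 := by linarith [Real.log_two_lt_d9]
    have h6 : (n : ℝ) ≤ 2 * Real.log (R / ε) := by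
      have : (n : ℝ) * (1 / 2) ≤ n * Real.log 2 := mul_le_mul_of_nonneg_left h4.le (by positivity)
      linarith
    have h7 : Real.log (1 + ((n + 1 : ℕ) : ℝ)) ≤ Real.log (2 * (2 + Real.log (R / ε))) := by
      refine Real.log_le_log (by positivity) ?_
      push_cast
      linarith
    rw [Real.log_mul (by norm_num) (by positivity)] at h7
    have h8 : 0 ≤ Real.log (2 + Real.log (R / ε)) := Real.log_nonneg (by linarith)
    unfold LL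
    linarith

theorem final_le_one {m : ℕ} (H : ∀ q : ℝ, 2 < q → ∃ C : ℝ, 0 ≤ C ∧ ∀ n : ℕ, 1 ≤ n →
      RootS q n (C * (1 + Real.log (1 + n)) ^ m)) {p₁ p₂ p₃ r : ℝ≥0∞} (h : IsHolderTuple p₁ p₂ p₃ r)
    (h1 : 2 < p₁) (h2 : 2 < p₂) (h3 : 2 < p₃) (hr : r ≤ 1) :
    ∃ C : ℝ, ∀ f₁ f₂ f₃ : 𝓢(ℝ, ℂ), ∀ ε R : ℝ, 0 < ε → ε < R →
      eLpNorm (truncTHT f₁ f₂ f₃ ε R) r volume ≤
        ENNReal.ofReal (C * (1 + Real.log (2 + Real.log (R / ε))) ^ m) *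
          eLpNorm f₁ p₁ volume * eLpNorm f₂ p₂ volume * eLpNorm f₃ p₃ volume := by
  have i1 := Vale.Agent.P141.PL.H620.inv_lt_half h1
  have i2 := Vale.Agent.P141.PL.H620.inv_lt_half h2
  have i3 := Vale.Agent.P141.PL.H620.inv_lt_half h3
  have n1 : p₁⁻¹ ≠ ∞ := ENNReal.inv_ne_top.2 (zero_lt_two.trans h1).ne'
  have n2 : p₂⁻¹ ≠ ∞ := ENNReal.inv_ne_top.2 (zero_lt_two.trans h2).ne'
  have n3 : p₃⁻¹ ≠ ∞ := ENNReal.inv_ne_top.2 (zero_lt_two.trans h3).ne'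
  have hsum : (r⁻¹).toReal = (p₁⁻¹).toReal + (p₂⁻¹).toReal + (p₃⁻¹).toReal := by
    rw [h.holder, ENNReal.toReal_add (ENNReal.add_ne_top.2 ⟨n1, n2⟩) n3, ENNReal.toReal_add n1 n2]
  have hr1 : 1 ≤ (r⁻¹).toReal := by
    have h4 : (1 : ℝ≥0∞) ≤ r⁻¹ := by simpa using ENNReal.inv_le_inv.2 hr
    have h5 := ENNReal.toReal_mono (ENNReal.inv_ne_top.2 h.r_pos.ne') h4
    simpa using h5
  have t1 : p₁ ≠ ∞ := by
    rintro rfl
    simp only [ENNReal.inv_top, ENNReal.toReal_zero] at hsum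
    linarith
  have t2 : p₂ ≠ ∞ := by
    rintro rfl
    simp only [ENNReal.inv_top, ENNReal.toReal_zero] at hsum
    linarith
  have t3 : p₃ ≠ ∞ := by
    rintro rfl
    simp only [ENNReal.inv_top, ENNReal.toReal_zero] at hsum
    linarith
  have g1 : 2 < p₁.toReal := by
    have := (ENNReal.toReal_lt_toReal (by simp) t1).2 h1
    simpa using this
  have g2 : 2 < p₂.toReal := by
    have := (ENNReal.toReal_lt_toReal (by simp) t2).2 h2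
    simpa using this
  have g3 : 2 < p₃.toReal := by
    have := (ENNReal.toReal_lt_toReal (by simp) t3).2 h3
    simpa using this
  have hrt : r ≠ ∞ := h.r_lt_top.ne
  have hr0' : 0 < r.toReal := ENNReal.toReal_pos h.r_pos.ne' hrt
  have hr1' : r.toReal ≤ 1 := by
    have := ENNReal.toReal_mono ENNReal.one_ne_top hr
    simpa using this
  have hs : r.toReal / p₁.toReal + r.toReal / p₂.toReal + r.toReal / p₃.toReal = 1 := by
    rw [ENNReal.toReal_inv, ENNReal.toReal_inv, ENNReal.toReal_inv, ENNReal.toReal_inv] at hsum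
    rw [div_eq_mul_inv, div_eq_mul_inv, div_eq_mul_inv, ← mul_add, ← mul_add, ← hsum]
    exact mul_inv_cancel₀ hr0'.ne'
  obtain ⟨q, hq2, hqm⟩ := exists_between (lt_min (lt_min g1 g2) g3)
  have q1 : q < p₁.toReal := hqm.trans_le ((min_le_left _ _).trans (min_le_left _ _))
  have q2 : q < p₂.toReal := hqm.trans_le ((min_le_left _ _).trans (min_le_right _ _))
  have q3 : q < p₃.toReal := hqm.trans_le (min_le_right _ _)
  obtain ⟨C₀, hC₀, HR⟩ := H q hq2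
  obtain ⟨C, hC, HM⟩ := eL_main hq2.le q1 q2 q3 hr0' hr1' hs
  refine ⟨C * (1 + C₀ * 2 ^ m), ?_⟩
  intro f₁ f₂ f₃ ε R hε hR
  obtain ⟨n, hn1, hn2, hn3⟩ := scales' hε hR
  have hlog : 0 ≤ Real.log (1 + ((n + 1 : ℕ) : ℝ)) := Real.log_nonneg (by push_cast; linarith [n.cast_nonneg (α := ℝ)])
  set P : ℝ := C₀ * (1 + Real.log (1 + ((n + 1 : ℕ) : ℝ))) ^ m with hP
  have hP0 : 0 ≤ P := by positivity
  have h6 := HM n P hP0 (HR (n + 1) (by omega)) f₁ f₂ f₃ f₁.continuous f₂.continuous f₃.continuous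
    ε R hε hR hn1 hn2
  rw [ENNReal.ofReal_toReal hrt, ENNReal.ofReal_toReal t1, ENNReal.ofReal_toReal t2,
    ENNReal.ofReal_toReal t3] at h6
  refine h6.trans ?_
  refine mul_le_mul_left (mul_le_mul_left (mul_le_mul_left (ENNReal.ofReal_le_ofReal ?_) _) _) _
  have hLL := LL_ge hε hR
  have h7 : P ≤ C₀ * 2 ^ m * LL ε R ^ m := by
    rw [hP, mul_assoc, ← mul_pow]
    exact mul_le_mul_of_nonneg_left (pow_le_pow_left₀ (by positivity) hn3 m) hC₀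
  have h8 : 1 ≤ LL ε R ^ m := one_le_pow₀ hLL
  show C * (1 + P) ≤ C * (1 + C₀ * 2 ^ m) * LL ε R ^ m
  rw [mul_assoc]
  refine mul_le_mul_of_nonneg_left ?_ hC
  have h9 : 0 ≤ C₀ * 2 ^ m := by positivity
  nlinarith

/-- **double logarithm for `r ≤ 1`** -/
theorem double_log_le_one : ∃ m : ℕ, ∀ p₁ p₂ p₃ r : ℝ≥0∞, IsHolderTuple p₁ p₂ p₃ r →
    2 < p₁ → 2 < p₂ → 2 < p₃ → r ≤ 1 →
    ∃ C : ℝ, ∀ f₁ f₂ f₃ : 𝓢(ℝ, ℂ), ∀ ε R : ℝ, 0 < ε → ε < R →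
      eLpNorm (truncTHT f₁ f₂ f₃ ε R) r volume ≤
        ENNReal.ofReal (C * (1 + Real.log (2 + Real.log (R / ε))) ^ m) *
          eLpNorm f₁ p₁ volume * eLpNorm f₂ p₂ volume * eLpNorm f₃ p₃ volume := by
  obtain ⟨m, H⟩ := rootS
  exact ⟨m, fun p₁ p₂ p₃ r h h1 h2 h3 hr => final_le_one H h h1 h2 h3 hr⟩

end

end Vale.Agent.P141.H530
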