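import Vale.Agent.P141.PL.H620.Cal

/-!
# P141, exponents `r < 1`: the Calderón formula at one point, errors in single scale averages
-/

namespace Vale.Agent.P141.H530

open MeasureTheory Filter Topology
open Vale.Agent.P141.PL.H620

noncomputable section

/-- the integral of `|w|` over `[-ρ, ρ]` -/
def II (w : ℝ → ℝ) (ρ : ℝ) : ℝ := ∫ u in (-ρ)..ρ, |w u|

theorem II_nonneg (w : ℝ → ℝ) {ρ : ℝ} (hρ : 0 ≤ ρ) : 0 ≤ II w ρ :=
  intervalIntegral.integral_nonneg (by linarith) fun _ _ => abs_nonneg _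

theorem II_mono {w : ℝ → ℝ} (hw : Continuous w) {ρ σ : ℝ} (h0 : 0 ≤ ρ) (h : ρ ≤ σ) :
    II w ρ ≤ II w σ := by
  unfold II
  have hi : ∀ a b : ℝ, IntervalIntegrable (fun u => |w u|) volume a b := fun a b =>
    (hw.abs).intervalIntegrable _ _
  refine intervalIntegral.integral_mono_interval (by linarith) (by linarith) h
    (ae_of_all _ fun _ => abs_nonneg _) (hi _ _)

theorem prim_boundI {f : ℝ → ℝ} {c ρ : ℝ} {n : ℕ} {y : ℝ} (hy : 0 ≤ y) (hyρ : y ≤ ρ)
    (h : ∀ x, 0 ≤ x → x ≤ ρ → |f x| ≤ c * x ^ n) : |prim f y| ≤ c / (n + 1) * y ^ (n + 1) := by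
  have h1 : ‖∫ x in (0 : ℝ)..y, f x‖ ≤ ∫ x in (0 : ℝ)..y, c * x ^ n := by
    refine intervalIntegral.norm_integral_le_of_norm_le hy ?_
      ((by fun_prop : Continuous fun x : ℝ => c * x ^ n).intervalIntegrable _ _)
    exact ae_of_all _ fun x hx => h x hx.1.le (hx.2.trans hyρ)
  rw [intervalIntegral.integral_const_mul, integral_pow] at h1
  rw [Real.norm_eq_abs] at h1
  refine h1.trans (le_of_eq ?_)
  rw [zero_pow (Nat.succ_ne_zero n)]
  ring

section
variable {w : ℝ → ℝ} (hw : Continuous w) {ρ : ℝ}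
include hw

theorem U1I {y : ℝ} (hy : 0 ≤ y) (hyρ : y ≤ ρ) : |prim (od w) y| ≤ II w ρ := by
  have hi : ∀ a b : ℝ, IntervalIntegrable (fun u => |w u|) volume a b := fun a b =>
    (hw.abs).intervalIntegrable _ _
  have hi2 : ∀ a b : ℝ, IntervalIntegrable (fun u => |w (-u)|) volume a b := fun a b =>
    ((by fun_prop : Continuous fun u => |w (-u)|)).intervalIntegrable _ _
  have h1 : |∫ x in (0 : ℝ)..y, od w x| ≤ ∫ x in (0 : ℝ)..y, (|w x| + |w (-x)|) := by
    refine (intervalIntegral.abs_integral_le_integral_abs hy).trans ?_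
    refine intervalIntegral.integral_mono_on hy ((od_cont hw).abs.intervalIntegrable _ _)
      ((hi _ _).add (hi2 _ _)) fun x _ => ?_
    unfold od
    exact abs_sub _ _
  rw [intervalIntegral.integral_add (hi _ _) (hi2 _ _),
    intervalIntegral.integral_comp_neg (fun u => |w u|), neg_zero] at h1
  have h2 := intervalIntegral.integral_add_adjacent_intervals (hi (-y) 0) (hi 0 y)
  have h3 := II_mono hw hy hyρ
  unfold prim
  unfold II at h3 ⊢
  linarith

theorem U2I {y : ℝ} (hy : 0 ≤ y) (hyρ : y ≤ ρ) : |prim (prim (od w)) y| ≤ II w ρ * y := by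
  have := prim_boundI (f := prim (od w)) (c := II w ρ) (n := 0) hy hyρ (fun x hx hx2 => by
    simpa using U1I hw hx hx2)
  simpa using this

theorem U3I {y : ℝ} (hy : 0 ≤ y) (hyρ : y ≤ ρ) :
    |prim (prim (prim (od w))) y| ≤ II w ρ / 2 * y ^ 2 := by
  have := prim_boundI (f := prim (prim (od w))) (c := II w ρ) (n := 1) hy hyρ (fun x hx hx2 => by
    simpa using U2I hw hx hx2)
  refine this.trans (le_of_eq ?_)
  norm_num

theorem U4I {y : ℝ} (hy : 0 ≤ y) (hyρ : y ≤ ρ) : |U4 w y| ≤ II w ρ / 6 * y ^ 3 := by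
  have := prim_boundI (f := prim (prim (prim (od w)))) (c := II w ρ / 2) (n := 2) hy hyρ
    (fun x hx hx2 => by simpa using U3I hw hx hx2)
  refine this.trans (le_of_eq ?_)
  push_cast
  ring

theorem shortI {a b : ℝ} (ha : 0 < a) (hab : a ≤ b) (hbρ : b ≤ ρ) :
    |∫ y in a..b, U4 w y / y ^ 5| ≤ II w ρ / 6 / a ^ 2 * (b - a) := by
  have hI := II_nonneg w (by linarith : 0 ≤ ρ)
  have := intervalIntegral.norm_integral_le_of_norm_le_const (a := a) (b := b)
    (f := fun y => U4 w y / y ^ 5) (C := II w ρ / 6 / a ^ 2) (fun y hy => by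
      rw [Set.uIoc_of_le hab] at hy
      have hy0 : 0 < y := ha.trans hy.1
      rw [Real.norm_eq_abs, abs_div, abs_of_pos (by positivity : 0 < y ^ 5),
        div_le_div_iff₀ (by positivity) (by positivity)]
      have := U4I hw hy0.le (hy.2.trans hbρ)
      have h2 : a ^ 2 ≤ y ^ 2 := pow_le_pow_left₀ ha.le hy.1.le 2
      calc |U4 w y| * a ^ 2 ≤ (II w ρ / 6 * y ^ 3) * a ^ 2 :=
            mul_le_mul_of_nonneg_right this (by positivity)
        _ ≤ (II w ρ / 6 * y ^ 3) * y ^ 2 := mul_le_mul_of_nonneg_left h2 (by positivity)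
        _ = II w ρ / 6 * y ^ 5 := by ring)
  rw [Real.norm_eq_abs, abs_of_nonneg (sub_nonneg.2 hab)] at this
  exact this

/-- **the Calderón formula at one point** -/
theorem cal_pt {ε R : ℝ} (hε : 0 < ε) (hR : 0 < R) :
    |(∫ u in ε..R, (w u - w (-u)) / u) + 24 * ((∫ t in ε..R, Ac 1 (V4 w) t / t) -
      ∫ t in ε..R, Ac (-1) (V4 w) t / t)| ≤ 30000 * (II w (3 * ε) / ε + II w (3 * R) / R) := by
  have hIε := II_nonneg w (by linarith : 0 ≤ 3 * ε)
  have hIR := II_nonneg w (by linarith : 0 ≤ 3 * R)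
  set Jε := II w (3 * ε) / ε with hJε
  set JR := II w (3 * R) / R with hJR
  have hJε0 : 0 ≤ Jε := by positivity
  have hJR0 : 0 ≤ JR := by positivity
  have hU := U4_cont hw
  have ii : ∀ {a b : ℝ}, 0 < a → 0 < b → IntervalIntegrable (fun y => U4 w y / y ^ 5) volume a b :=
    fun ha hb => ii_div hU 5 ha hb
  have sh : ∀ {a : ℝ}, 0 < a → ∀ c : ℝ, 1 ≤ c → c ≤ 3 →
      |∫ y in a..(c * a), U4 w y / y ^ 5| ≤ II w (3 * a) / a := by
    intro a ha c hc1 hc3
    have b1 := shortI hw (ρ := 3 * a) ha (show a ≤ c * a by nlinarith) (by nlinarith)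
    have hI := II_nonneg w (by linarith : 0 ≤ 3 * a)
    refine b1.trans ?_
    have e : II w (3 * a) / 6 / a ^ 2 * (c * a - a) = II w (3 * a) / a * ((c - 1) / 6) := by
      field_simp
    rw [e]
    have h2 : 0 ≤ II w (3 * a) / a := by positivity
    nlinarith
  have sh2 : ∀ {a : ℝ}, 0 < a →
      |∫ y in (1 / 2 * a)..a, U4 w y / y ^ 5| ≤ II w (3 * a) / a := by
    intro a ha
    have b1 := shortI hw (ρ := 3 * a) (show 0 < 1 / 2 * a by positivity)
      (show 1 / 2 * a ≤ a by linarith) (show a ≤ 3 * a by linarith)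
    have hI := II_nonneg w (by linarith : 0 ≤ 3 * a)
    refine b1.trans ?_
    have e : II w (3 * a) / 6 / (1 / 2 * a) ^ 2 * (a - 1 / 2 * a) = II w (3 * a) / a * (1 / 3) := by
      field_simp
      ring
    rw [e]
    have h2 : 0 ≤ II w (3 * a) / a := by positivity
    nlinarith
  -- dilated integrals
  have big : ∀ c : ℝ, 1 ≤ c → c ≤ 3 → |(∫ y in (c * ε)..(c * R), U4 w y / y ^ 5)
      - ∫ y in ε..R, U4 w y / y ^ 5| ≤ Jε + JR := by
    intro c hc1 hc3
    have a1 := intervalIntegral.integral_add_adjacent_intervals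
      (ii hε (show 0 < c * ε by positivity))
      (ii (show 0 < c * ε by positivity) (show 0 < c * R by positivity))
    have a2 := intervalIntegral.integral_add_adjacent_intervals
      (ii hε hR) (ii hR (show 0 < c * R by positivity))
    have b1 := sh hε c hc1 hc3
    have b2 := sh hR c hc1 hc3
    rw [abs_le] at *
    constructor <;> linarith [b1.1, b1.2, b2.1, b2.2]
  have e2 : |(∫ y in (1 / 2 * ε)..(1 / 2 * R), U4 w y / y ^ 5)
      - ∫ y in ε..R, U4 w y / y ^ 5| ≤ Jε + JR := by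
    have a1 := intervalIntegral.integral_add_adjacent_intervals
      (ii (show 0 < 1 / 2 * ε by positivity) (show 0 < 1 / 2 * R by positivity))
      (ii (show 0 < 1 / 2 * R by positivity) hR)
    have a2 := intervalIntegral.integral_add_adjacent_intervals
      (ii (show 0 < 1 / 2 * ε by positivity) hε) (ii hε hR)
    have b1 := sh2 hε
    have b2 := sh2 hR
    rw [abs_le] at *
    constructor <;> linarith [b1.1, b1.2, b2.1, b2.2]
  have e3 := big (3 / 2) (by norm_num) (by norm_num)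
  have e4 := big 2 (by norm_num) (by norm_num)
  have e5 := big (5 / 2) (by norm_num) (by norm_num)
  have e6 := big 3 (by norm_num) (by norm_num)
  have hp := parts hw hε hR
  have hi := int_diff hw hε hR
  have hsub : (∫ t in ε..R, (Ac 1 (V4 w) t - Ac (-1) (V4 w) t) / t)
      = (∫ t in ε..R, Ac 1 (V4 w) t / t) - ∫ t in ε..R, Ac (-1) (V4 w) t / t := by
    rw [← intervalIntegral.integral_sub (Ac_cont hw 1 hε hR) (Ac_cont hw (-1) hε hR)]
    refine intervalIntegral.integral_congr fun t _ => ?_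
    show (Ac 1 (V4 w) t - Ac (-1) (V4 w) t) / t = Ac 1 (V4 w) t / t - Ac (-1) (V4 w) t / t
    ring
  rw [hsub] at hi
  have q : ∀ y : ℝ, 0 < y → |6 * U4 w y / y ^ 4 + 2 * prim (prim (prim (od w))) y / y ^ 3
      + prim (prim (od w)) y / y ^ 2 + prim (od w) y / y| ≤ 4 * (II w (3 * y) / y) := by
    intro y hy
    have hI := II_nonneg w (by linarith : 0 ≤ 3 * y)
    have hy3 : y ≤ 3 * y := by linarith
    have k0 : |6 * U4 w y / y ^ 4| ≤ II w (3 * y) / y := by
      rw [abs_div, abs_mul, abs_of_pos (by positivity : 0 < y ^ 4), div_le_div_iff₀ (by positivity)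
        hy, abs_of_pos (by norm_num : (0 : ℝ) < 6)]
      have := mul_le_mul_of_nonneg_right (U4I hw hy.le hy3) hy.le
      calc 6 * |U4 w y| * y = 6 * (|U4 w y| * y) := by ring
        _ ≤ 6 * (II w (3 * y) / 6 * y ^ 3 * y) := by linarith
        _ = II w (3 * y) * y ^ 4 := by ring
    have k1 : |2 * prim (prim (prim (od w))) y / y ^ 3| ≤ II w (3 * y) / y := by
      rw [abs_div, abs_mul, abs_of_pos (by positivity : 0 < y ^ 3), div_le_div_iff₀ (by positivity)
        hy, abs_of_pos (by norm_num : (0 : ℝ) < 2)]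
      have := mul_le_mul_of_nonneg_right (U3I hw hy.le hy3) hy.le
      calc 2 * |prim (prim (prim (od w))) y| * y = 2 * (|prim (prim (prim (od w))) y| * y) := by ring
        _ ≤ 2 * (II w (3 * y) / 2 * y ^ 2 * y) := by linarith
        _ = II w (3 * y) * y ^ 3 := by ring
    have k2 : |prim (prim (od w)) y / y ^ 2| ≤ II w (3 * y) / y := by
      rw [abs_div, abs_of_pos (by positivity : 0 < y ^ 2), div_le_div_iff₀ (by positivity) hy]
      have := mul_le_mul_of_nonneg_right (U2I hw hy.le hy3) hy.le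
      calc |prim (prim (od w)) y| * y ≤ II w (3 * y) * y * y := this
        _ = II w (3 * y) * y ^ 2 := by ring
    have k3 : |prim (od w) y / y| ≤ II w (3 * y) / y := by
      rw [abs_div, abs_of_pos hy]
      exact div_le_div_of_nonneg_right (U1I hw hy.le hy3) hy.le
    rw [abs_le] at *
    constructor <;> linarith [k0.1, k0.2, k1.1, k1.2, k2.1, k2.2, k3.1, k3.2]
  have q1 := q R hR
  have q2 := q ε hε
  rw [← hJR] at q1
  rw [← hJε] at q2
  have e0 : (∫ u in ε..R, (w u - w (-u)) / u) = ∫ y in ε..R, od w y / y := rfl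
  rw [e0]
  rw [abs_le] at *
  constructor <;> linarith [e2.1, e2.2, e3.1, e3.2, e4.1, e4.2,
    e5.1, e5.2, e6.1, e6.2, q1.1, q1.2, q2.1, q2.2]

end

end

end Vale.Agent.P141.H530
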