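import Vale.Agent.P141.H337.RootQ

/-!
# P141, exponents `r < 1`: the root estimate for `L^q` windows from the one with heights, `q > 2`
-/

namespace Vale.Agent.P141.H530

open Finset Vale.Agent.P141.PL.H571 Vale.Agent.P141.PL.H620
open Vale.Agent.P141.H337 (RootQ)

theorem rootQ_of_th {q : ℝ} (hq : 2 < q) {n : ℕ} {H P : ℝ} (hH : 0 < H)
    (hroot : RootTh n H P) : RootQ q n (P + 2 ^ 12 * n * H ^ (-(q - 2) / 2)) := by
  classical
  have hq0 : 0 < q := by linarith
  intro g hf o ho K hK V 𝒩' hmem hcl hgq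
  set s : Fin 4 → ℤ → ℝ := fun j x => if |g j x| ≤ H then g j x else 0 with hs
  set b : Fin 4 → ℤ → ℝ := fun j x => if |g j x| ≤ H then 0 else g j x with hb
  have hgsb : ∀ j x, g j x = s j x + b j x := by
    intro j x
    simp only [hs, hb]
    split_ifs <;> simp
  have hg2 : ∀ N ∈ 𝒩', ∀ j, ∑ y ∈ W N.1 N.2, |g j y| ^ 2 ≤ 2 ^ (N.1 + 5) := by
    intro N hN j
    have h1 : ∑ y ∈ W N.1 N.2, |g j y| ^ 2 ≤
        ∑ y ∈ W N.1 N.2, ((1 - 2 / q) + 2 / q * |g j y| ^ q) :=
      sum_le_sum fun y _ => sq_le_young hq (abs_nonneg _)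
    refine h1.trans ?_
    rw [sum_add_distrib, sum_const, card_W, ← mul_sum, nsmul_eq_mul]
    have h2 := mul_le_mul_of_nonneg_left (hgq N hN j) (by positivity : 0 ≤ 2 / q)
    push_cast
    nlinarith
  have hs2 : ∀ N ∈ 𝒩', ∀ j, ∑ y ∈ W N.1 N.2, |s j y| ^ 2 ≤ 2 ^ (N.1 + 5) := by
    intro N hN j
    refine (sum_le_sum fun y _ => ?_).trans (hg2 N hN j)
    simp only [hs]
    split_ifs
    · exact le_refl _
    · rw [abs_zero, zero_pow two_ne_zero]; exact sq_nonneg _
  have hb2 : ∀ N ∈ 𝒩', ∀ j, ∑ y ∈ W N.1 N.2, |b j y| ^ 2 ≤ 2 ^ (N.1 + 5) * H ^ (2 - q) := by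
    intro N hN j
    have h1 : ∑ y ∈ W N.1 N.2, |b j y| ^ 2 ≤ ∑ y ∈ W N.1 N.2, H ^ (2 - q) * |g j y| ^ q := by
      refine sum_le_sum fun y _ => ?_
      simp only [hb]
      split_ifs with h
      · rw [abs_zero, zero_pow two_ne_zero]
        exact mul_nonneg (Real.rpow_nonneg hH.le (2 - q)) (Real.rpow_nonneg (abs_nonneg _) q)
      · exact trunc_sq hq hH (lt_of_not_ge h)
    refine h1.trans ?_
    rw [← mul_sum, mul_comm]
    exact mul_le_mul_of_nonneg_right (hgq N hN j) (Real.rpow_nonneg hH.le _)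
  -- the error
  have hsq : √(H ^ (2 - q)) = H ^ (-(q - 2) / 2) := by
    rw [Real.sqrt_eq_rpow, ← Real.rpow_mul hH.le]
    congr 1
    ring
  have herr : ∀ N ∈ 𝒩', ((4 : ℝ) ^ N.1)⁻¹ * |loc1 N.1 (nn o N.2 0 0) g| ≤
      ((4 : ℝ) ^ N.1)⁻¹ * |loc1 N.1 (nn o N.2 0 0) s| +
        2 ^ 12 * H ^ (-(q - 2) / 2) * 2 ^ N.1 := by
    intro N hN
    have hG := hg2 N hN
    have hS := hs2 N hN
    have hB := hb2 N hN
    have e0 := single_scale (k := N.1) (v := N.2) ho ![b 0, g 1, g 2, g 3]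
      ![H ^ (2 - q), 1, 1, 1] (by
        intro j; fin_cases j
        · simpa using hB 0
        · simpa using hG 1
        · simpa using hG 2
        · simpa using hG 3)
    have e1 := single_scale (k := N.1) (v := N.2) ho ![s 0, b 1, g 2, g 3]
      ![1, H ^ (2 - q), 1, 1] (by
        intro j; fin_cases j
        · simpa using hS 0
        · simpa using hB 1
        · simpa using hG 2
        · simpa using hG 3)
    have e2 := single_scale (k := N.1) (v := N.2) ho ![s 0, s 1, b 2, g 3]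
      ![1, 1, H ^ (2 - q), 1] (by
        intro j; fin_cases j
        · simpa using hS 0
        · simpa using hS 1
        · simpa using hB 2
        · simpa using hG 3)
    have e3 := single_scale (k := N.1) (v := N.2) ho ![s 0, s 1, s 2, b 3]
      ![1, 1, 1, H ^ (2 - q)] (by
        intro j; fin_cases j
        · simpa using hS 0
        · simpa using hS 1
        · simpa using hS 2
        · simpa using hB 3)
    simp only [Fin.prod_univ_four, Matrix.cons_val_zero, Matrix.cons_val_one, Matrix.cons_val,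
      Real.sqrt_one, mul_one, one_mul, hsq] at e0 e1 e2 e3
    rw [loc1_tele N.1 (nn o N.2 0 0) g s b hgsb]
    set t0 := loc1 N.1 (nn o N.2 0 0) ![b 0, g 1, g 2, g 3]
    set t1 := loc1 N.1 (nn o N.2 0 0) ![s 0, b 1, g 2, g 3]
    set t2 := loc1 N.1 (nn o N.2 0 0) ![s 0, s 1, b 2, g 3]
    set t3 := loc1 N.1 (nn o N.2 0 0) ![s 0, s 1, s 2, b 3]
    have habs : |loc1 N.1 (nn o N.2 0 0) s + (t0 + t1 + t2 + t3)| ≤
        |loc1 N.1 (nn o N.2 0 0) s| + (|t0| + |t1| + |t2| + |t3|) := by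
      refine (abs_add_le _ _).trans (add_le_add le_rfl ?_)
      refine (abs_add_le _ _).trans (add_le_add ?_ le_rfl)
      refine (abs_add_le _ _).trans (add_le_add ?_ le_rfl)
      exact abs_add_le _ _
    refine (mul_le_mul_of_nonneg_left habs (by positivity)).trans ?_
    rw [mul_add, mul_add, mul_add, mul_add]
    nlinarith
  -- sum of the errors
  have hcount : ∑ N ∈ 𝒩', (2 : ℝ) ^ N.1 ≤ n * 2 ^ K := by
    have h1 : ∑ N ∈ 𝒩', (2 : ℝ) ^ N.1 ≤ ∑ N ∈ ((Icc 1 K).biUnion fun k =>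
        (Ico (2 ^ (K - k) * V) (2 ^ (K - k) * (V + 1))).image fun v => (k, v)), (2 : ℝ) ^ N.1 := by
      refine sum_le_sum_of_subset_of_nonneg (fun N hN => ?_) fun _ _ _ => by positivity
      obtain ⟨h1, h2, h3⟩ := hmem N hN
      refine mem_biUnion.2 ⟨N.1, mem_Icc.2 ⟨h1, h2⟩, mem_image.2 ⟨N.2, mem_cell.2 h3, rfl⟩⟩
    refine h1.trans ?_
    rw [sum_biUnion]
    · have h2 : ∀ k ∈ Icc 1 K, ∑ N ∈ (Ico (2 ^ (K - k) * V) (2 ^ (K - k) * (V + 1))).image
          (fun v => ((k, v) : ℕ × ℤ)), (2 : ℝ) ^ N.1 = 2 ^ K := by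
        intro k hk
        rw [mem_Icc] at hk
        rw [sum_image (fun x _ y _ hxy => (Prod.mk.inj hxy).2)]
        simp only
        rw [sum_const, card_cell, nsmul_eq_mul]
        push_cast
        rw [← pow_add]
        congr 1
        omega
      rw [sum_congr rfl h2, sum_const, Nat.card_Icc, nsmul_eq_mul, Nat.add_sub_cancel]
      have : (K : ℝ) ≤ n := by exact_mod_cast hK
      exact mul_le_mul_of_nonneg_right this (by positivity)
    · intro k _ k' _ hkk'
      refine disjoint_left.2 fun N hN hN' => hkk' ?_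
      obtain ⟨_, _, rfl⟩ := mem_image.1 hN
      obtain ⟨_, _, h⟩ := mem_image.1 hN'
      exact (Prod.mk.inj h).1.symm
  -- the main term
  have hmain : ∑ N ∈ 𝒩', ((4 : ℝ) ^ N.1)⁻¹ * |loc1 N.1 (nn o N.2 0 0) s| ≤ P * 2 ^ K := by
    refine hroot s ?_ o ho K hK V 𝒩' hmem hcl ?_ hs2
    · intro j
      refine (hf j).subset fun x hx => ?_
      simp only [Function.mem_support] at hx ⊢
      intro h0
      apply hx
      simp only [hs, h0, ite_self]
    · intro j x
      simp only [hs]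
      split_ifs with h
      · exact h
      · rw [abs_zero]; exact hH.le
  refine (sum_le_sum herr).trans ?_
  rw [sum_add_distrib, ← mul_sum]
  have := mul_le_mul_of_nonneg_left hcount
    (by positivity : 0 ≤ 2 ^ 12 * H ^ (-(q - 2) / 2))
  nlinarith

end Vale.Agent.P141.H530
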