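import Vale.Agent.P141.H530.Tree

/-!
# P141, exponents `r < 1`: sub-sampling of the nodes of scale `> s`
-/

namespace Vale.Agent.P141.H530

open Finset
open Vale.Agent.P141.PL.H571 (W mem_cell card_cell)
open Vale.Agent.P141.PL.H620 (loc1 nn HH sg pts uu mo loc1_nn eight)
open Vale.Agent.P141.PL.H855 (wN)

noncomputable section

/-- the residue seen by the function `j` -/
def cz (z : Fin 4 → ℕ) (j : Fin 4) : ℤ := mo z - ((j : ℕ) : ℤ) * ∑ i : Fin 4, (z i : ℤ)

/-- the sampled functions -/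
def sub (s : ℕ) (z : Fin 4 → ℕ) (g : Fin 4 → ℤ → ℝ) : Fin 4 → ℤ → ℝ :=
  fun j n => g j (2 ^ s * n + cz z j)

theorem wN_eq (o : ℤ) (g : Fin 4 → ℤ → ℝ) (k : ℕ) (v : ℤ) :
    wN o g (k, v) = ((8 : ℝ) ^ k)⁻¹ * HH k o g (2 ^ k * v) := by
  unfold wN
  rw [loc1_nn, eight, mul_inv, mul_assoc]

theorem sg_split {s k a z : ℕ} (hk : 1 ≤ k) (hz : z < 2 ^ s) : sg (s + k) (2 ^ s * a + z) = sg k a := by
  obtain ⟨l, rfl⟩ := Nat.exists_eq_add_of_le' hk
  have h : 2 * (2 ^ s * a + z) < 2 ^ (s + (l + 1)) ↔ 2 * a < 2 ^ (l + 1) := by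
    have e1 : 2 ^ (s + (l + 1)) = 2 * (2 ^ s * 2 ^ l) := by ring
    have e2 : 2 ^ (l + 1) = 2 * 2 ^ l := by ring
    rw [e1, e2]
    constructor
    · intro h1
      have h2 : 2 ^ s * a < 2 ^ s * 2 ^ l := by omega
      have h3 := Nat.lt_of_mul_lt_mul_left h2
      omega
    · intro h1
      have h2 : a + 1 ≤ 2 ^ l := by omega
      have h3 := Nat.mul_le_mul_left (2 ^ s) h2
      rw [mul_add, mul_one] at h3
      omega
  unfold sg
  simp only [h]

theorem sum_pts_split (s k : ℕ) (F : (Fin 4 → ℕ) → ℝ) :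
    ∑ y ∈ pts (s + k), F y = ∑ z ∈ pts s, ∑ a ∈ pts k, F fun i => 2 ^ s * a i + z i := by
  rw [← sum_product']
  have hs : 0 < 2 ^ s := by positivity
  have mem : ∀ (k : ℕ) (y : Fin 4 → ℕ), y ∈ pts k ↔ ∀ i, y i < 2 ^ k := fun k y => by
    unfold pts
    rw [Fintype.mem_piFinset]
    simp only [mem_range]
  refine sum_nbij' (fun y => (fun i => y i % 2 ^ s, fun i => y i / 2 ^ s))
    (fun p => fun i => 2 ^ s * p.2 i + p.1 i) (fun y hy => ?_) (fun p hp => ?_) (fun y hy => ?_)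
    (fun p hp => ?_) (fun y hy => ?_)
  · rw [mem] at hy
    refine mem_product.2 ⟨(mem _ _).2 fun i => Nat.mod_lt _ hs, (mem _ _).2 fun i => ?_⟩
    show y i / 2 ^ s < 2 ^ k
    rw [Nat.div_lt_iff_lt_mul hs, ← pow_add, add_comm k]
    exact hy i
  · obtain ⟨h1, h2⟩ := mem_product.1 hp
    rw [mem] at h1 h2
    rw [mem]
    intro i
    have h3 : p.2 i + 1 ≤ 2 ^ k := h2 i
    have h4 := Nat.mul_le_mul_left (2 ^ s) h3
    have h5 := h1 i
    rw [mul_add, mul_one, ← pow_add] at h4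
    show 2 ^ s * p.2 i + p.1 i < _
    omega
  · funext i
    exact Nat.div_add_mod _ _
  · obtain ⟨h1, h2⟩ := mem_product.1 hp
    rw [mem] at h1
    refine Prod.ext ?_ ?_
    · funext i
      show (2 ^ s * p.2 i + p.1 i) % 2 ^ s = p.1 i
      rw [Nat.mul_add_mod, Nat.mod_eq_of_lt (h1 i)]
    · funext i
      show (2 ^ s * p.2 i + p.1 i) / 2 ^ s = p.2 i
      rw [Nat.mul_add_div hs, Nat.div_eq_of_lt (h1 i), add_zero]
  · congr 1
    funext i
    exact (Nat.div_add_mod _ _).symm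

theorem HH_split {s k : ℕ} (hk : 1 ≤ k) (o : ℤ) (g : Fin 4 → ℤ → ℝ) (X : ℤ) :
    HH (s + k) o g (2 ^ s * X) = ∑ z ∈ pts s, HH k o (sub s z g) X := by
  unfold HH
  rw [sum_pts_split s k]
  refine sum_congr rfl fun z hz => sum_congr rfl fun a _ => ?_
  have hz' : ∀ i, z i < 2 ^ s := fun i => by
    unfold pts at hz
    rw [Fintype.mem_piFinset] at hz
    exact mem_range.1 (hz i)
  congr 1
  · exact prod_congr rfl fun i _ => sg_split hk (hz' i)
  · refine prod_congr rfl fun j _ => ?_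
    unfold sub cz
    congr 1
    have e1 : mo (fun i => 2 ^ s * a i + z i) = 2 ^ s * mo a + mo z := by
      unfold mo
      rw [mul_sum, ← sum_add_distrib]
      refine sum_congr rfl fun i _ => ?_
      push_cast
      ring
    have e2 : uu (s + k) o (fun i => 2 ^ s * a i + z i) = 2 ^ s * uu k o a + ∑ i, (z i : ℤ) := by
      unfold uu
      have e3 : ∑ i : Fin 4, ((2 ^ s * a i + z i : ℕ) : ℤ) =
          2 ^ s * ∑ i : Fin 4, (a i : ℤ) + ∑ i : Fin 4, (z i : ℤ) := by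
        rw [mul_sum, ← sum_add_distrib]
        refine sum_congr rfl fun i _ => ?_
        push_cast
        ring
      rw [e3, pow_add]
      ring
    rw [e1, e2]
    ring

theorem wN_split {s k : ℕ} (hk : 1 ≤ k) (o : ℤ) (g : Fin 4 → ℤ → ℝ) (v : ℤ) :
    wN o g (s + k, v) = ((8 : ℝ) ^ s)⁻¹ * ∑ z ∈ pts s, wN o (sub s z g) (k, v) := by
  rw [wN_eq, pow_add, pow_add, mul_assoc (2 ^ s : ℤ), HH_split hk]
  simp only [wN_eq]
  rw [← mul_sum, mul_inv, mul_assoc]

theorem sub_supp {s : ℕ} {z : Fin 4 → ℕ} {g : Fin 4 → ℤ → ℝ}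
    (hg : ∀ j, (Function.support (g j)).Finite) (j : Fin 4) :
    (Function.support (sub s z g j)).Finite := by
  refine (hg j).preimage (Function.Injective.injOn ?_)
  intro a b hab
  have h1 : (2 : ℤ) ^ s * a + cz z j = 2 ^ s * b + cz z j := hab
  have h2 : (2 : ℤ) ^ s * a = 2 ^ s * b := by linarith
  exact mul_left_cancel₀ (by positivity) h2

/-- the range of the residues -/
def Cs (s : ℕ) : Finset ℤ := Icc (-(6 * 2 ^ s)) (6 * 2 ^ s)

theorem cz_mem {s : ℕ} {z : Fin 4 → ℕ} (hz : z ∈ pts s) (j : Fin 4) : cz z j ∈ Cs s := by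
  have hz' : ∀ i, (z i : ℤ) ≤ 2 ^ s := fun i => by
    unfold pts at hz
    rw [Fintype.mem_piFinset] at hz
    have := (mem_range.1 (hz i)).le
    exact_mod_cast this
  have h0 : ∀ i, (0 : ℤ) ≤ z i := fun i => by positivity
  unfold Cs cz mo
  rw [mem_Icc]
  simp only [Fin.sum_univ_four]
  have a0 := hz' 0
  have a1 := hz' 1
  have a2 := hz' 2
  have a3 := hz' 3
  have b0 := h0 0
  have b1 := h0 1
  have b2 := h0 2
  have b3 := h0 3
  generalize (2 : ℤ) ^ s = t at *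
  fin_cases j <;> simp <;> constructor <;> linarith

end

end Vale.Agent.P141.H530
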