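import Vale.Agent.P141.H530.JN
import Vale.Agent.P141.H530.Samp
import Vale.Agent.P141.H530.RootQth

/-!
# P141, exponents `r < 1`: the root estimate whose constant counts only the scales in use
-/

namespace Vale.Agent.P141.H530

open Finset
open Vale.Agent.P141.PL.H571 (W av av_nonneg card_W mem_cell card_cell stop_abs abs_loc1_le
  sum_pts_le single_scale sq_le_young mem_W)
open Vale.Agent.P141.PL.H620 (loc1 nn HH sg pts uu mo)
open Vale.Agent.P141.PL.H855 (wN Bel ediv_pow_add)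
open Vale.Agent.P141.H337 (RootQ)

noncomputable section

theorem abs_wN (o : ℤ) (f : Fin 4 → ℤ → ℝ) (N : ℕ × ℤ) :
    |wN o f N| = ((4 : ℝ) ^ N.1)⁻¹ * |loc1 N.1 (nn o N.2 0 0) f| := by
  rw [wN, abs_mul, abs_of_nonneg (by positivity : (0 : ℝ) ≤ ((4 : ℝ) ^ N.1)⁻¹)]

/-- **stopping for one sample** -/
theorem stopA {q : ℝ} (hq : 0 < q) {n : ℕ} {P : ℝ} (hP : 0 ≤ P) (hroot : RootQ q n P)
    {h : Fin 4 → ℤ → ℝ} (hs : ∀ j, (Function.support (h j)).Finite) {o : ℤ} (ho : o = 1 ∨ o = -1)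
    {K : ℕ} (hK : K ≤ n) {V : ℤ} {𝒩 : Finset (ℕ × ℤ)}
    (hmem : ∀ N ∈ 𝒩, 1 ≤ N.1 ∧ N.1 ≤ K ∧ N.2 / 2 ^ (K - N.1) = V)
    (hcl : ∀ N ∈ 𝒩, ∀ k', N.1 ≤ k' → k' ≤ K → (k', N.2 / 2 ^ (k' - N.1)) ∈ 𝒩) :
    ∑ N ∈ 𝒩, |wN o h N| ≤ 32 * P * ∑ x ∈ Ico (2 ^ K * V) (2 ^ K * (V + 1)),
      ∏ j, RA q (h j) (fun k v => (k, v) ∈ 𝒩) K 0 x := by
  classical
  set A : ℕ → ℤ → Prop := fun k v => (k, v) ∈ 𝒩 with hA
  set w : ℕ → ℤ → ℝ := fun k v => if (k, v) ∈ 𝒩 then |wN o h (k, v)| else 0 with hw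
  have hav : ∀ j k v, (k, v) ∈ 𝒩 → av q (h j) k v ≤ RA q (h j) A K k v ^ q := by
    intro j k v hN
    have h1 := av_le_RAq q (h j) (A := A) (le_refl k) (hmem _ hN).2.1 v (by simpa [hA] using hN)
    rw [Nat.sub_self, pow_zero, Int.ediv_one] at h1
    refine h1.trans (le_of_eq ?_)
    rw [RA, ← Real.rpow_mul (RAq_nonneg _ _ _ _ _ _), one_div_mul_cancel hq.ne', Real.rpow_one]
  have hw0 : ∀ k v, k ≤ K → (∃ j, RA q (h j) A K k v ≤ 0) → w k v = 0 := by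
    rintro k v hk ⟨j, hj⟩
    simp only [hw]
    split_ifs with hN
    · have h1 := hav j k v hN
      rw [le_antisymm hj (RA_nonneg _ _ _ _ _ _), Real.zero_rpow hq.ne'] at h1
      have h2 : ∑ y ∈ W k v, |h j y| ^ q ≤ 0 := by
        rw [av, div_le_iff₀ (by positivity), zero_mul] at h1
        exact h1
      have h3 : ∀ y ∈ W k v, |h j y| = 0 := by
        intro y hy
        have h4 := (sum_eq_zero_iff_of_nonneg fun z _ => Real.rpow_nonneg (abs_nonneg (h j z)) q).1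
          (le_antisymm h2 (sum_nonneg fun z _ => Real.rpow_nonneg (abs_nonneg _) _)) y hy
        exact (Real.rpow_eq_zero (abs_nonneg _) hq.ne').1 h4
      have h5 : ∑ y ∈ W k v, |h j y| ^ 2 = 0 :=
        sum_eq_zero fun y hy => by rw [h3 y hy]; norm_num
      have h6 := abs_loc1_le (k := k) (v := v) ho h
      rw [prod_eq_zero (mem_univ j) (by rw [h5, Real.sqrt_zero]), mul_zero] at h6
      rw [abs_wN]
      simp only
      rw [le_antisymm h6 (abs_nonneg _), mul_zero]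
    · rfl
  have hR : ∀ K' ≤ K, ∀ V' : ℤ, ∀ a : Fin 4 → ℝ, (∀ j, 0 < a j) → ∀ 𝒩' : Finset (ℕ × ℤ),
      (∀ N ∈ 𝒩', N.1 ≤ K' ∧ N.2 / 2 ^ (K' - N.1) = V' ∧ ∀ j, RA q (h j) A K N.1 N.2 ≤ a j) →
      ∑ N ∈ 𝒩', w N.1 N.2 ≤ P * 2 ^ K' * ∏ j, a j := by
    intro K' hK' V' a ha 𝒩' h𝒩'
    set 𝒞 : Finset (ℕ × ℤ) := 𝒩.filter fun N => N.1 ≤ K' ∧ N.2 / 2 ^ (K' - N.1) = V' ∧
      ∀ j, RA q (h j) A K N.1 N.2 ≤ a j with h𝒞
    set g : Fin 4 → ℤ → ℝ := fun j x => (a j)⁻¹ * h j x with hg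
    have h1 := hroot g (fun j => (hs j).subset fun x hx => by
      intro h0
      exact hx (by simp only [hg, h0, mul_zero])) o ho K' (hK'.trans hK) V' 𝒞
      (fun N hN => by
        obtain ⟨h2, h3, h4, _⟩ := mem_filter.1 hN
        exact ⟨(hmem N h2).1, h3, h4⟩)
      (fun N hN k' h5 h6 => by
        obtain ⟨h2, h3, h4, h7⟩ := mem_filter.1 hN
        refine mem_filter.2 ⟨hcl N h2 k' h5 (h6.trans hK'), h6, ?_, fun j => ?_⟩
        · simp only
          rw [← ediv_pow_add, ← h4]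
          congr 2
          omega
        · exact (RA_mono hq (h j) A h5 N.2).trans (h7 j))
      (fun N hN j => by
        obtain ⟨h2, h3, h4, h7⟩ := mem_filter.1 hN
        have h8 := hav j N.1 N.2 h2
        have h9 : RA q (h j) A K N.1 N.2 ^ q ≤ a j ^ q :=
          Real.rpow_le_rpow (RA_nonneg _ _ _ _ _ _) (h7 j) hq.le
        have h10 := h8.trans h9
        rw [av, div_le_iff₀ (by positivity)] at h10
        have h11 : ∑ y ∈ W N.1 N.2, |g j y| ^ q = ((a j)⁻¹) ^ q * ∑ y ∈ W N.1 N.2, |h j y| ^ q := by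
          rw [mul_sum]
          refine sum_congr rfl fun y _ => ?_
          simp only [hg]
          rw [abs_mul, abs_of_pos (inv_pos.2 (ha j)),
            Real.mul_rpow (inv_pos.2 (ha j)).le (abs_nonneg _)]
        rw [h11]
        refine (mul_le_mul_of_nonneg_left h10 (Real.rpow_nonneg (inv_pos.2 (ha j)).le _)).trans
          (le_of_eq ?_)
        rw [← mul_assoc, ← Real.mul_rpow (inv_pos.2 (ha j)).le (ha j).le,
          inv_mul_cancel₀ (ha j).ne', Real.one_rpow, one_mul])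
    have hfg : ∀ N : ℕ × ℤ, |wN o h N| = (∏ j, a j) *
        (((4 : ℝ) ^ N.1)⁻¹ * |loc1 N.1 (nn o N.2 0 0) g|) := by
      intro N
      rw [← abs_wN, ← abs_of_pos (prod_pos fun j _ => ha j : 0 < ∏ j, a j), ← abs_mul, ← wN_smul]
      congr 2
      funext j x
      simp only [hg]
      rw [mul_inv_cancel_left₀ (ha j).ne']
    have h2 : ∑ N ∈ 𝒩', w N.1 N.2 ≤ ∑ N ∈ 𝒞, |wN o h N| := by
      have h3 : ∑ N ∈ 𝒩', w N.1 N.2 = ∑ N ∈ 𝒩'.filter (fun N => N ∈ 𝒩), |wN o h N| := by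
        rw [sum_filter]
      rw [h3]
      refine sum_le_sum_of_subset_of_nonneg ?_ fun N _ _ => abs_nonneg _
      intro N hN
      rw [mem_filter] at hN
      exact mem_filter.2 ⟨hN.2, h𝒩' N hN.1⟩
    refine h2.trans ?_
    rw [sum_congr rfl fun N _ => hfg N, ← mul_sum, mul_comm]
    exact mul_le_mul_of_nonneg_right h1 (prod_nonneg fun j _ => (ha j).le)
  obtain ⟨X, hX⟩ := stop_abs K (fun j k v => RA q (h j) A K k v)
    (fun j k k' v h1 _ => RA_mono hq (h j) A h1 v) w P hP hw0 hR 𝒩 fun N hN => (hmem N hN).2.1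
  have e1 : ∑ N ∈ 𝒩, |wN o h N| = ∑ N ∈ 𝒩, w N.1 N.2 := by
    refine sum_congr rfl fun N hN => ?_
    simp only [hw]
    rw [if_pos hN]
  rw [e1]
  refine hX.trans ?_
  rw [Fintype.card_fin]
  have h0 : ∀ x, 0 ≤ ∏ j, RA q (h j) A K 0 x := fun x => prod_nonneg fun j _ => RA_nonneg _ _ _ _ _ _
  have h1 : ∑ x ∈ X, ∏ j, RA q (h j) A K 0 x ≤ ∑ x ∈ Ico (2 ^ K * V) (2 ^ K * (V + 1)),
      ∏ j, RA q (h j) A K 0 x := by
    have h2 : ∑ x ∈ X, ∏ j, RA q (h j) A K 0 x =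
        ∑ x ∈ X.filter (fun x => x ∈ Ico (2 ^ K * V) (2 ^ K * (V + 1))),
          ∏ j, RA q (h j) A K 0 x := by
      rw [sum_filter]
      refine sum_congr rfl fun x _ => ?_
      split_ifs with hx
      · rfl
      · refine prod_eq_zero (mem_univ 0) ?_
        have h3 : RAq q (h 0) A K 0 x = 0 := by
          refine le_antisymm (RAq_le le_rfl fun l _ hl hAl => ?_) (RAq_nonneg _ _ _ _ _ _)
          exfalso
          apply hx
          rw [mem_cell]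
          rw [Nat.sub_zero] at hAl
          have h4 := (hmem _ hAl).2.2
          simp only at h4
          rw [← ediv_pow_add] at h4
          rw [← h4]
          congr 2
          omega
        rw [RA, h3, Real.zero_rpow (by positivity)]
    rw [h2]
    exact sum_le_sum_of_subset_of_nonneg (fun x hx => (mem_filter.1 hx).2) fun x _ _ => h0 x
  refine (mul_le_mul_of_nonneg_left h1 (by positivity)).trans (le_of_eq ?_)
  ring

/-- Cauchy-Schwarz over the samples -/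
theorem cs_samples (s : ℕ) {M : Fin 4 → ℤ → ℝ} (hM : ∀ j c, 0 ≤ M j c) :
    ∑ z ∈ pts s, ∏ j, M j (cz z j) ≤ 4 ^ s * ((1 / 4) * ∑ j, (∑ c ∈ Cs s, M j c ^ 2) ^ 2) := by
  have h01 : ∑ z ∈ pts s, (M 0 (cz z 0) * M 1 (cz z 1)) ^ 2 ≤
      4 ^ s * ((∑ c ∈ Cs s, M 0 c ^ 2) * ∑ c ∈ Cs s, M 1 c ^ 2) := by
    simp only [mul_pow]
    refine sum_pts_le s (Cs s) (Cs s) (fun z => cz z 0) (fun z => cz z 1)
      (fun x hx => cz_mem hx 0) (fun x hx => cz_mem hx 1) ?_ (g := fun c => M 0 c ^ 2)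
      (h := fun c => M 1 c ^ 2) (fun _ => sq_nonneg _) (fun _ => sq_nonneg _)
    intro x y e2 e3 ea eb
    simp only [cz, mo, Fin.sum_univ_four] at ea eb
    simp at ea eb
    funext i
    fin_cases i <;> simp <;> omega
  have h23 : ∑ z ∈ pts s, (M 2 (cz z 2) * M 3 (cz z 3)) ^ 2 ≤
      4 ^ s * ((∑ c ∈ Cs s, M 2 c ^ 2) * ∑ c ∈ Cs s, M 3 c ^ 2) := by
    simp only [mul_pow]
    refine sum_pts_le s (Cs s) (Cs s) (fun z => cz z 2) (fun z => cz z 3)
      (fun x hx => cz_mem hx 2) (fun x hx => cz_mem hx 3) ?_ (g := fun c => M 2 c ^ 2)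
      (h := fun c => M 3 c ^ 2) (fun _ => sq_nonneg _) (fun _ => sq_nonneg _)
    intro x y e2 e3 ea eb
    simp only [cz, mo, Fin.sum_univ_four] at ea eb
    simp at ea eb
    funext i
    fin_cases i <;> simp <;> omega
  have h1 : ∀ z ∈ pts s, ∏ j, M j (cz z j) ≤
      (1 / 2) * (M 0 (cz z 0) * M 1 (cz z 1)) ^ 2 + (1 / 2) * (M 2 (cz z 2) * M 3 (cz z 3)) ^ 2 := by
    intro z _
    rw [Fin.prod_univ_four]
    nlinarith [sq_nonneg (M 0 (cz z 0) * M 1 (cz z 1) - M 2 (cz z 2) * M 3 (cz z 3))]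
  refine (sum_le_sum h1).trans ?_
  rw [sum_add_distrib, ← mul_sum, ← mul_sum, Fin.sum_univ_four]
  set a := ∑ c ∈ Cs s, M 0 c ^ 2
  set b := ∑ c ∈ Cs s, M 1 c ^ 2
  set c := ∑ c ∈ Cs s, M 2 c ^ 2
  set d := ∑ c ∈ Cs s, M 3 c ^ 2
  have h4 : (0 : ℝ) < 4 ^ s := by positivity
  have h5 : a * b ≤ (a ^ 2 + b ^ 2) / 2 := by nlinarith [sq_nonneg (a - b)]
  have h6 : c * d ≤ (c ^ 2 + d ^ 2) / 2 := by nlinarith [sq_nonneg (c - d)]
  have h7 := mul_le_mul_of_nonneg_left h5 h4.le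
  have h8 := mul_le_mul_of_nonneg_left h6 h4.le
  nlinarith

/-- the sum over the residues -/
theorem res_sum {G : ℤ → ℝ} (hG : ∀ y, 0 ≤ G y) (s : ℕ) {k : ℕ} (hk : 1 ≤ k) (v : ℤ) :
    ∑ c ∈ Cs s, ∑ y ∈ W k v, G (2 ^ s * y + c) ≤
      14 * ∑ y ∈ Ico (2 ^ (s + k) * (v - 20)) (2 ^ (s + k) * (v + 20)), G y := by
  classical
  have hs : (0 : ℤ) < 2 ^ s := by positivity
  have hk2 : (2 : ℤ) ≤ 2 ^ k := by
    calc (2 : ℤ) = 2 ^ 1 := by norm_num
      _ ≤ 2 ^ k := pow_le_pow_right₀ (by norm_num) hk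
  set I := Ico ((2 : ℤ) ^ (s + k) * (v - 20)) (2 ^ (s + k) * (v + 20)) with hI
  set φ : ℤ × ℤ → ℤ := fun p => 2 ^ s * p.2 + p.1 with hφ
  have h1 : ∀ p ∈ Cs s ×ˢ W k v, φ p ∈ I := by
    intro p hp
    obtain ⟨h2, h3⟩ := mem_product.1 hp
    unfold Cs at h2
    rw [mem_Icc] at h2
    rw [mem_W] at h3
    rw [hI, mem_Ico, pow_add]
    have h4 := mul_le_mul_of_nonneg_left h3.1 hs.le
    have h5 : 2 ^ s * (p.2 + 1) ≤ 2 ^ s * (2 ^ k * (v + 16)) :=
      mul_le_mul_of_nonneg_left (by linarith [h3.2]) hs.le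
    simp only [hφ]
    have h6 : (2 : ℤ) ^ s * 2 ≤ 2 ^ s * 2 ^ k := mul_le_mul_of_nonneg_left hk2 hs.le
    constructor
    · nlinarith
    · nlinarith
  rw [← sum_product' (f := fun c y => G (2 ^ s * y + c))]
  rw [← sum_fiberwise_of_maps_to h1, mul_sum]
  refine sum_le_sum fun y _ => ?_
  have h2 : ∑ p ∈ (Cs s ×ˢ W k v).filter (fun p => φ p = y), G (2 ^ s * p.2 + p.1) =
      ((Cs s ×ˢ W k v).filter (fun p => φ p = y)).card * G y := by
    rw [← nsmul_eq_mul, ← sum_const]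
    refine sum_congr rfl fun p hp => ?_
    have := (mem_filter.1 hp).2
    simp only [hφ] at this
    rw [this]
  rw [h2]
  refine mul_le_mul_of_nonneg_right ?_ (hG y)
  have h3 : ((Cs s ×ˢ W k v).filter (fun p => φ p = y)).card ≤
      (Icc (y / 2 ^ s - 6) (y / 2 ^ s + 7)).card := by
    refine card_le_card_of_injOn (fun p => p.2) (fun p hp => ?_) fun p hp p' hp' h => ?_
    · obtain ⟨h4, h5⟩ := mem_filter.1 hp
      obtain ⟨h6, h7⟩ := mem_product.1 h4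
      unfold Cs at h6
      rw [mem_Icc] at h6
      simp only [hφ] at h5
      have h8 : 2 ^ s * (y / 2 ^ s) ≤ y := Int.mul_ediv_self_le hs.ne'
      have h9 : y < 2 ^ s * (y / 2 ^ s) + 2 ^ s := Int.lt_mul_ediv_self_add hs
      show p.2 ∈ ((Icc (y / 2 ^ s - 6) (y / 2 ^ s + 7) : Finset ℤ) : Set ℤ)
      rw [coe_Icc, Set.mem_Icc]
      constructor
      · have h10 : 2 ^ s * (y / 2 ^ s - 6) ≤ 2 ^ s * p.2 := by linarith [h6.2]
        exact le_of_mul_le_mul_left h10 hs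
      · have h10 : 2 ^ s * p.2 ≤ 2 ^ s * (y / 2 ^ s + 7) := by linarith [h6.1]
        exact le_of_mul_le_mul_left h10 hs
    · have h4 := (mem_filter.1 hp).2
      have h5 := (mem_filter.1 hp').2
      simp only [hφ] at h4 h5
      simp only at h
      rw [h] at h4
      exact Prod.ext (by linarith) h
  rw [Int.card_Icc] at h3
  have h4 : (y / 2 ^ s + 7 + 1 - (y / 2 ^ s - 6)).toNat = 14 := by
    have : y / 2 ^ s + 7 + 1 - (y / 2 ^ s - 6) = 14 := by ring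
    rw [this]; rfl
  rw [h4] at h3
  exact_mod_cast h3

end

end Vale.Agent.P141.H530
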