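import Vale.Agent.P141.H530.CplxR

/-!
# P141, exponents `r < 1`: the bound for complex continuous functions
-/

namespace Vale.Agent.P141.H530

open MeasureTheory Filter Topology
open scoped ENNReal NNReal
open Vale.Agent.P141 (truncTHT)

noncomputable section

theorem trunc_meas {g₁ g₂ g₃ : ℝ → ℂ} (h1 : Continuous g₁) (h2 : Continuous g₂) (h3 : Continuous g₃)
    {ε R : ℝ} (hε : 0 < ε) (hR : ε < R) : Measurable (truncTHT g₁ g₂ g₃ ε R) := by
  have hfn : ∀ s j, Continuous (fn g₁ g₂ g₃ s j) := by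
    intro s j
    fin_cases j
    · exact continuous_const
    · exact pa_cont _ h1
    · exact pa_cont _ h2
    · exact pa_cont _ h3
  have e : truncTHT g₁ g₂ g₃ ε R = fun x =>
      ∑ s : Bool × Bool × Bool, ka s * (TR (fn g₁ g₂ g₃ s) ε R x : ℂ) :=
    funext fun x => trunc_sum h1 h2 h3 hε hR x
  rw [e]
  exact Finset.measurable_sum _ fun s _ =>
    (Complex.measurable_ofReal.comp (TR_meas (hfn s) hR.le)).const_mul _

/-- complex functions with compact support -/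
theorem cplx_compact {q r p1 p2 p3 : ℝ} (hq : 2 ≤ q) (h1 : q < p1) (h2 : q < p2) (h3 : q < p3)
    (hr0 : 0 < r) (hr1 : r ≤ 1) (hr : r / p1 + r / p2 + r / p3 = 1) :
    ∃ C : ℝ≥0∞, C ≠ ∞ ∧ ∀ (n : ℕ) (P : ℝ), 0 ≤ P → RootS q (n + 1) P →
      ∀ g₁ g₂ g₃ : ℝ → ℂ, Continuous g₁ → Continuous g₂ → Continuous g₃ →
      HasCompactSupport g₁ → HasCompactSupport g₂ → HasCompactSupport g₃ →
      ∀ ε R : ℝ, 0 < ε → ε < R → 2 ^ n * ε ≤ R → R ≤ 2 * (2 ^ n * ε) →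
      ∫⁻ x, ‖truncTHT g₁ g₂ g₃ ε R x‖ₑ ^ r ≤ C * ENNReal.ofReal ((1 + P) ^ r) *
        (eLpNorm g₁ (ENNReal.ofReal p1) volume ^ r * eLpNorm g₂ (ENNReal.ofReal p2) volume ^ r *
          eLpNorm g₃ (ENNReal.ofReal p3) volume ^ r) := by
  obtain ⟨C, hC, H⟩ := real_main hq h1 h2 h3 hr0 hr1 hr
  refine ⟨8 * C, ENNReal.mul_ne_top (by norm_num) hC, ?_⟩
  intro n P hP hRS g₁ g₂ g₃ c1 c2 c3 s1 s2 s3 ε R hε hεR hR1 hR2
  have k1 : 0 < p1 := by linarith
  have k2 : 0 < p2 := by linarith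
  have k3 : 0 < p3 := by linarith
  have hfn : ∀ s j, Continuous (fn g₁ g₂ g₃ s j) := by
    intro s j
    fin_cases j
    · exact continuous_const
    · exact pa_cont _ c1
    · exact pa_cont _ c2
    · exact pa_cont _ c3
  have hfs : ∀ s j, HasCompactSupport (fn g₁ g₂ g₃ s j) := by
    intro s j
    fin_cases j
    · exact HasCompactSupport.zero
    · exact pa_supp _ s1
    · exact pa_supp _ s2
    · exact pa_supp _ s3
  set B : ℝ≥0∞ := C * ENNReal.ofReal ((1 + P) ^ r) *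
        (eLpNorm g₁ (ENNReal.ofReal p1) volume ^ r * eLpNorm g₂ (ENNReal.ofReal p2) volume ^ r *
          eLpNorm g₃ (ENNReal.ofReal p3) volume ^ r) with hB
  have hone : ∀ s, ∫⁻ x, ‖TR (fn g₁ g₂ g₃ s) ε R x‖ₑ ^ r ≤ B := by
    intro s
    refine (H n P hP hRS _ (hfn s) (hfs s) ε R hε hR1 hR2).trans ?_
    rw [hB, Nm_eq k1, Nm_eq k2, Nm_eq k3]
    refine mul_le_mul_right (mul_le_mul' (mul_le_mul' ?_ ?_) ?_) _
    · exact ENNReal.rpow_le_rpow (eLpNorm_mono fun x => pa_le s.1 g₁ x) hr0.le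
    · exact ENNReal.rpow_le_rpow (eLpNorm_mono fun x => pa_le s.2.1 g₂ x) hr0.le
    · exact ENNReal.rpow_le_rpow (eLpNorm_mono fun x => pa_le s.2.2 g₃ x) hr0.le
  have hpt : ∀ x, ‖truncTHT g₁ g₂ g₃ ε R x‖ₑ ^ r ≤
      ∑ s : Bool × Bool × Bool, ‖TR (fn g₁ g₂ g₃ s) ε R x‖ₑ ^ r := by
    intro x
    rw [trunc_sum c1 c2 c3 hε hεR]
    refine (ENNReal.rpow_le_rpow (enorm_sum_le _ _) hr0.le).trans ?_
    refine (rpow_sum_le _ _ hr0 hr1).trans (Finset.sum_le_sum fun s _ => ?_)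
    refine ENNReal.rpow_le_rpow (le_of_eq ?_) hr0.le
    rw [enorm_mul, ka, enorm_mul, enorm_mul, norm_cI, norm_cI, norm_cI, one_mul, one_mul, one_mul,
      ← ofReal_norm, ← ofReal_norm, Complex.norm_real]
  refine (lintegral_mono hpt).trans ?_
  rw [lintegral_finsetSum _ fun s _ => (TR_meas (hfn s) hεR.le).enorm.pow_const _]
  refine (Finset.sum_le_sum fun s _ => hone s).trans (le_of_eq ?_)
  rw [Finset.sum_const, Finset.card_univ, nsmul_eq_mul, hB]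
  simp only [Fintype.card_prod, Fintype.card_bool]
  norm_num
  ring

/-- the cut-off -/
def cut (M : ℝ) (x : ℝ) : ℝ := max 0 (min 1 (M + 1 - |x|))

theorem cut_cont (M : ℝ) : Continuous (cut M) := by
  unfold cut
  fun_prop

theorem cut_nonneg (M x : ℝ) : 0 ≤ cut M x := le_max_left _ _

theorem cut_le (M x : ℝ) : cut M x ≤ 1 := max_le zero_le_one (min_le_left _ _)

theorem cut_one {M x : ℝ} (h : |x| ≤ M) : cut M x = 1 := by
  unfold cut
  rw [min_eq_left (by linarith), max_eq_right zero_le_one]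

theorem cut_zero {M x : ℝ} (h : M + 1 ≤ |x|) : cut M x = 0 := by
  unfold cut
  rw [max_eq_left ((min_le_right _ _).trans (by linarith))]

/-- the function cut off -/
def cf (M : ℝ) (f : ℝ → ℂ) (x : ℝ) : ℂ := (cut M x : ℂ) * f x

theorem cf_cont (M : ℝ) {f : ℝ → ℂ} (hf : Continuous f) : Continuous (cf M f) :=
  (Complex.continuous_ofReal.comp (cut_cont M)).mul hf

theorem cf_supp (M : ℝ) (f : ℝ → ℂ) : HasCompactSupport (cf M f) := by
  refine HasCompactSupport.intro (isCompact_Icc (a := -(M + 1)) (b := M + 1)) fun x hx => ?_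
  unfold cf
  rw [cut_zero, Complex.ofReal_zero, zero_mul]
  by_contra h
  exact hx (abs_le.1 (not_le.1 h).le)

theorem cf_le (M : ℝ) (f : ℝ → ℂ) (x : ℝ) : ‖cf M f x‖ ≤ ‖f x‖ := by
  unfold cf
  rw [norm_mul, Complex.norm_real, Real.norm_eq_abs, abs_of_nonneg (cut_nonneg M x)]
  have := cut_le M x
  have h2 := norm_nonneg (f x)
  nlinarith

theorem cf_eq {M : ℝ} (f : ℝ → ℂ) {x : ℝ} (h : |x| ≤ M) : cf M f x = f x := by
  unfold cf
  rw [cut_one h, Complex.ofReal_one, one_mul]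

theorem trunc_cut (f₁ f₂ f₃ : ℝ → ℂ) {ε R x M : ℝ} (hM : |x| + 3 * R ≤ M) :
    truncTHT (cf M f₁) (cf M f₂) (cf M f₃) ε R x = truncTHT f₁ f₂ f₃ ε R x := by
  unfold truncTHT
  have hm : MeasurableSet {t : ℝ | ε < |t| ∧ |t| < R} :=
    (measurableSet_lt measurable_const (measurable_norm (α := ℝ))).inter
      (measurableSet_lt (measurable_norm (α := ℝ)) measurable_const)
  refine setIntegral_congr_fun hm fun t ht => ?_
  have h1 : |x - t| ≤ M := by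
    have := abs_sub x t
    linarith [ht.2, abs_nonneg t]
  have h2 : |x - 2 * t| ≤ M := by
    have := abs_sub x (2 * t)
    rw [abs_mul, abs_of_pos (by norm_num : (0 : ℝ) < 2)] at this
    linarith [ht.2, abs_nonneg t]
  have h3 : |x - 3 * t| ≤ M := by
    have := abs_sub x (3 * t)
    rw [abs_mul, abs_of_pos (by norm_num : (0 : ℝ) < 3)] at this
    linarith [ht.2, abs_nonneg t]
  show cf M f₁ (x - t) * cf M f₂ (x - 2 * t) * cf M f₃ (x - 3 * t) / (t : ℂ) = _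
  rw [cf_eq f₁ h1, cf_eq f₂ h2, cf_eq f₃ h3]

/-- **complex continuous functions** -/
theorem cplx_main {q r p1 p2 p3 : ℝ} (hq : 2 ≤ q) (h1 : q < p1) (h2 : q < p2) (h3 : q < p3)
    (hr0 : 0 < r) (hr1 : r ≤ 1) (hr : r / p1 + r / p2 + r / p3 = 1) :
    ∃ C : ℝ≥0∞, C ≠ ∞ ∧ ∀ (n : ℕ) (P : ℝ), 0 ≤ P → RootS q (n + 1) P →
      ∀ f₁ f₂ f₃ : ℝ → ℂ, Continuous f₁ → Continuous f₂ → Continuous f₃ →
      ∀ ε R : ℝ, 0 < ε → ε < R → 2 ^ n * ε ≤ R → R ≤ 2 * (2 ^ n * ε) →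
      ∫⁻ x, ‖truncTHT f₁ f₂ f₃ ε R x‖ₑ ^ r ≤ C * ENNReal.ofReal ((1 + P) ^ r) *
        (eLpNorm f₁ (ENNReal.ofReal p1) volume ^ r * eLpNorm f₂ (ENNReal.ofReal p2) volume ^ r *
          eLpNorm f₃ (ENNReal.ofReal p3) volume ^ r) := by
  obtain ⟨C, hC, H⟩ := cplx_compact hq h1 h2 h3 hr0 hr1 hr
  refine ⟨C, hC, ?_⟩
  intro n P hP hRS f₁ f₂ f₃ c1 c2 c3 ε R hε hεR hR1 hR2
  set F : ℕ → ℝ → ℝ≥0∞ := fun k x =>
    ‖truncTHT (cf k f₁) (cf k f₂) (cf k f₃) ε R x‖ₑ ^ r with hF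
  have e1 : ∀ x, ‖truncTHT f₁ f₂ f₃ ε R x‖ₑ ^ r = liminf (fun k => F k x) atTop := by
    intro x
    have h4 : Tendsto (fun k => F k x) atTop (𝓝 (‖truncTHT f₁ f₂ f₃ ε R x‖ₑ ^ r)) := by
      refine tendsto_const_nhds.congr' ?_
      obtain ⟨k₀, hk₀⟩ := exists_nat_gt (|x| + 3 * R)
      filter_upwards [eventually_ge_atTop k₀] with k hk
      have h5 : |x| + 3 * R ≤ (k : ℝ) := hk₀.le.trans (by exact_mod_cast hk)
      simp only [hF]
      rw [trunc_cut f₁ f₂ f₃ h5]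
    exact h4.liminf_eq.symm
  simp only [e1]
  refine (lintegral_liminf_le fun k => (trunc_meas (cf_cont _ c1) (cf_cont _ c2) (cf_cont _ c3)
    hε hεR).enorm.pow_const r).trans ?_
  refine liminf_le_of_frequently_le' (Frequently.of_forall fun k => ?_)
  refine (H n P hP hRS _ _ _ (cf_cont _ c1) (cf_cont _ c2) (cf_cont _ c3) (cf_supp _ _) (cf_supp _ _)
    (cf_supp _ _) ε R hε hεR hR1 hR2).trans ?_
  refine mul_le_mul_right (mul_le_mul' (mul_le_mul' ?_ ?_) ?_) _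
  · exact ENNReal.rpow_le_rpow (eLpNorm_mono fun x => cf_le _ f₁ x) hr0.le
  · exact ENNReal.rpow_le_rpow (eLpNorm_mono fun x => cf_le _ f₂ x) hr0.le
  · exact ENNReal.rpow_le_rpow (eLpNorm_mono fun x => cf_le _ f₃ x) hr0.le

end

end Vale.Agent.P141.H530
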