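import Vale.Agent.P141.H530.RealD
import Vale.Agent.P141.PL.H620.Op
import Vale.Agent.P141.Defs

/-!
# P141, exponents `r < 1`: complex functions
-/

namespace Vale.Agent.P141.H530

open MeasureTheory Filter Topology
open scoped ENNReal NNReal
open Vale.Agent.P141 (truncTHT)

noncomputable section

theorem cont_div_int {V : ℝ → ℂ} (hV : Continuous V) {a b : ℝ} (h : 0 < a ∧ 0 < b ∨ a < 0 ∧ b < 0) :
    IntervalIntegrable (fun t : ℝ => V t / (t : ℂ)) volume a b := by
  refine ContinuousOn.intervalIntegrable ?_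
  refine ContinuousOn.div hV.continuousOn Complex.continuous_ofReal.continuousOn fun t ht => ?_
  have h2 : t ≠ 0 := by
    rcases h with ⟨ha, hb⟩ | ⟨ha, hb⟩
    · rcases Set.mem_uIcc.1 ht with h | h
      · exact (ha.trans_le h.1).ne'
      · exact (hb.trans_le h.1).ne'
    · rcases Set.mem_uIcc.1 ht with h | h
      · exact (h.2.trans_lt hb).ne
      · exact (h.2.trans_lt ha).ne
  exact_mod_cast h2

theorem trunc_eq {W : ℝ → ℂ} (hW : Continuous W) {ε R : ℝ} (hε : 0 < ε) (hR : ε < R) :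
    (∫ t in {t : ℝ | ε < |t| ∧ |t| < R}, W t / (t : ℂ)) =
      ∫ u in ε..R, (W u - W (-u)) / (u : ℂ) := by
  have hset : {t : ℝ | ε < |t| ∧ |t| < R} = Set.Ioo ε R ∪ Set.Ioo (-R) (-ε) := by
    ext t
    simp only [Set.mem_ofPred_eq, Set.mem_union, Set.mem_Ioo]
    constructor
    · rintro ⟨h1, h2⟩
      rcases le_total 0 t with h | h
      · rw [abs_of_nonneg h] at h1 h2; left; exact ⟨h1, h2⟩
      · rw [abs_of_nonpos h] at h1 h2; right; constructor <;> linarith
    · rintro (⟨h1, h2⟩ | ⟨h1, h2⟩)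
      · rw [abs_of_pos (hε.trans h1)]; exact ⟨h1, h2⟩
      · rw [abs_of_neg (by linarith)]; constructor <;> linarith
  have hdisj : Disjoint (Set.Ioo ε R) (Set.Ioo (-R) (-ε)) := by
    rw [Set.disjoint_left]
    intro t h1 h2
    linarith [h1.1, h2.2]
  have hR0 : 0 < R := hε.trans hR
  have hci : IntervalIntegrable (fun t : ℝ => W t / (t : ℂ)) volume ε R :=
    cont_div_int hW (Or.inl ⟨hε, hR0⟩)
  have hci2 : IntervalIntegrable (fun t : ℝ => W t / (t : ℂ)) volume (-R) (-ε) :=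
    cont_div_int hW (Or.inr ⟨by linarith, by linarith⟩)
  have hio1 : IntegrableOn (fun t : ℝ => W t / (t : ℂ)) (Set.Ioo ε R) volume := by
    have := (intervalIntegrable_iff_integrableOn_Ioc_of_le hR.le).1 hci
    exact this.mono_set Set.Ioo_subset_Ioc_self
  have hio2 : IntegrableOn (fun t : ℝ => W t / (t : ℂ)) (Set.Ioo (-R) (-ε)) volume := by
    have := (intervalIntegrable_iff_integrableOn_Ioc_of_le (by linarith : -R ≤ -ε)).1 hci2
    exact this.mono_set Set.Ioo_subset_Ioc_self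
  rw [hset, setIntegral_union hdisj measurableSet_Ioo hio1 hio2,
    ← integral_Ioc_eq_integral_Ioo, ← integral_Ioc_eq_integral_Ioo,
    ← intervalIntegral.integral_of_le hR.le, ← intervalIntegral.integral_of_le (by linarith)]
  have e3 : (∫ t in (-R)..(-ε), W t / (t : ℂ)) = ∫ t in ε..R, -(W (-t) / (t : ℂ)) := by
    rw [← intervalIntegral.integral_comp_neg (fun t : ℝ => W t / (t : ℂ))]
    refine intervalIntegral.integral_congr fun t _ => ?_
    show W (-t) / ((-t : ℝ) : ℂ) = -(W (-t) / (t : ℂ))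
    rw [Complex.ofReal_neg, div_neg]
  have hci3 : IntervalIntegrable (fun t : ℝ => -(W (-t) / (t : ℂ))) volume ε R :=
    (cont_div_int (V := fun t => W (-t)) (by fun_prop) (Or.inl ⟨hε, hR0⟩)).neg
  rw [e3, ← intervalIntegral.integral_add hci hci3]
  refine intervalIntegral.integral_congr fun t _ => ?_
  show W t / (t : ℂ) + -(W (-t) / (t : ℂ)) = (W t - W (-t)) / (t : ℂ)
  ring

/-- real and imaginary part -/
def pa (a : Bool) (g : ℝ → ℂ) (x : ℝ) : ℝ := if a then (g x).im else (g x).re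

/-- the constants -/
def cI (a : Bool) : ℂ := if a then Complex.I else 1

theorem norm_cI (a : Bool) : ‖cI a‖ₑ = 1 := by
  unfold cI
  split_ifs <;> simp [← ofReal_norm]

theorem pa_cont (a : Bool) {g : ℝ → ℂ} (hg : Continuous g) : Continuous (pa a g) := by
  unfold pa
  split_ifs
  · exact Complex.continuous_im.comp hg
  · exact Complex.continuous_re.comp hg

theorem pa_supp (a : Bool) {g : ℝ → ℂ} (hg : HasCompactSupport g) : HasCompactSupport (pa a g) := by
  unfold pa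
  split_ifs
  · exact hg.comp_left (g := Complex.im) Complex.zero_im
  · exact hg.comp_left (g := Complex.re) Complex.zero_re

theorem pa_le (a : Bool) (g : ℝ → ℂ) (x : ℝ) : ‖pa a g x‖ ≤ ‖g x‖ := by
  unfold pa
  split_ifs
  · exact Complex.abs_im_le_norm _
  · exact Complex.abs_re_le_norm _

/-- the functions of one term -/
def fn (g₁ g₂ g₃ : ℝ → ℂ) (s : Bool × Bool × Bool) : Fin 4 → ℝ → ℝ :=
  ![fun _ => 0, pa s.1 g₁, pa s.2.1 g₂, pa s.2.2 g₃]

/-- the constant of one term -/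
def ka (s : Bool × Bool × Bool) : ℂ := cI s.1 * cI s.2.1 * cI s.2.2

theorem wx_fn (g₁ g₂ g₃ : ℝ → ℂ) (s : Bool × Bool × Bool) (x u : ℝ) :
    wx (fn g₁ g₂ g₃ s) x u = pa s.1 g₁ (x - u) * pa s.2.1 g₂ (x - 2 * u) * pa s.2.2 g₃ (x - 3 * u) :=
  rfl

theorem pa_add (g : ℝ → ℂ) (y : ℝ) : g y = (pa false g y : ℂ) + (pa true g y : ℂ) * Complex.I := by
  simp only [pa, if_true, Bool.false_eq_true, if_false]
  exact (Complex.re_add_im _).symm

theorem expand (g₁ g₂ g₃ : ℝ → ℂ) (x u : ℝ) : g₁ (x - u) * g₂ (x - 2 * u) * g₃ (x - 3 * u) =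
    ∑ s : Bool × Bool × Bool, ka s * (wx (fn g₁ g₂ g₃ s) x u : ℂ) := by
  rw [pa_add g₁ (x - u), pa_add g₂ (x - 2 * u), pa_add g₃ (x - 3 * u)]
  simp only [wx_fn, Fintype.sum_prod_type, Fintype.sum_bool, ka, cI, if_true, Bool.false_eq_true,
    if_false]
  push_cast
  ring

theorem TR_meas {f : Fin 4 → ℝ → ℝ} (hf : ∀ j, Continuous (f j)) {ε R : ℝ} (hR : ε ≤ R) :
    Measurable (TR f ε R) := by
  have e : TR f ε R = fun x => ∫ u in Set.Ioc ε R, (wx f x u - wx f x (-u)) / u := by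
    funext x
    unfold TR
    rw [intervalIntegral.integral_of_le hR]
  rw [e]
  have hm : Measurable fun p : ℝ × ℝ => (wx f p.1 p.2 - wx f p.1 (-p.2)) / p.2 := by
    unfold wx
    have h1 := hf 1
    have h2 := hf 2
    have h3 := hf 3
    have c1 : Continuous fun p : ℝ × ℝ => f 1 (p.1 - p.2) * f 2 (p.1 - 2 * p.2) * f 3 (p.1 - 3 * p.2) := by
      fun_prop
    have c2 : Continuous fun p : ℝ × ℝ => f 1 (p.1 - -p.2) * f 2 (p.1 - 2 * -p.2) *
        f 3 (p.1 - 3 * -p.2) := by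
      fun_prop
    exact (c1.measurable.sub c2.measurable).div measurable_snd
  exact (hm.stronglyMeasurable.integral_prod_right' (ν := volume.restrict (Set.Ioc ε R))).measurable

theorem trunc_sum {g₁ g₂ g₃ : ℝ → ℂ} (h1 : Continuous g₁) (h2 : Continuous g₂) (h3 : Continuous g₃)
    {ε R : ℝ} (hε : 0 < ε) (hR : ε < R) (x : ℝ) :
    truncTHT g₁ g₂ g₃ ε R x = ∑ s : Bool × Bool × Bool, ka s * (TR (fn g₁ g₂ g₃ s) ε R x : ℂ) := by
  have hR0 : 0 < R := hε.trans hR
  have hfn : ∀ s j, Continuous (fn g₁ g₂ g₃ s j) := by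
    intro s j
    fin_cases j
    · exact continuous_const
    · exact pa_cont _ h1
    · exact pa_cont _ h2
    · exact pa_cont _ h3
  have hwc : ∀ s, Continuous (wx (fn g₁ g₂ g₃ s) x) := fun s => by
    unfold wx
    have h1 := hfn s 1
    have h2 := hfn s 2
    have h3 := hfn s 3
    fun_prop
  unfold truncTHT
  rw [trunc_eq (W := fun u => g₁ (x - u) * g₂ (x - 2 * u) * g₃ (x - 3 * u)) (by fun_prop) hε hR]
  have e1 : ∀ u : ℝ, (g₁ (x - u) * g₂ (x - 2 * u) * g₃ (x - 3 * u) -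
      g₁ (x - -u) * g₂ (x - 2 * -u) * g₃ (x - 3 * -u)) / (u : ℂ) =
      ∑ s : Bool × Bool × Bool, ka s * (((wx (fn g₁ g₂ g₃ s) x u - wx (fn g₁ g₂ g₃ s) x (-u)) / u : ℝ) : ℂ) := by
    intro u
    rw [expand, expand, ← Finset.sum_sub_distrib, Finset.sum_div]
    refine Finset.sum_congr rfl fun s _ => ?_
    push_cast
    ring
  have hre : ∀ s, IntervalIntegrable (fun u : ℝ => ((((wx (fn g₁ g₂ g₃ s) x u -
      wx (fn g₁ g₂ g₃ s) x (-u)) / u : ℝ)) : ℂ)) volume ε R := by
    intro s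
    have hc : Continuous fun u : ℝ => ((wx (fn g₁ g₂ g₃ s) x u - wx (fn g₁ g₂ g₃ s) x (-u) : ℝ) : ℂ) :=
      Complex.continuous_ofReal.comp ((hwc s).sub ((hwc s).comp continuous_neg))
    have := cont_div_int hc (Or.inl ⟨hε, hR0⟩)
    refine this.congr fun u _ => ?_
    push_cast
    ring
  simp only [e1]
  rw [intervalIntegral.integral_finsetSum fun s _ => (hre s).const_mul _]
  refine Finset.sum_congr rfl fun s _ => ?_
  rw [intervalIntegral.integral_const_mul]
  congr 1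
  unfold TR
  exact intervalIntegral.integral_ofReal

end

end Vale.Agent.P141.H530
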