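import Mathlib

/-!
# P141, exponents `r < 1`: the maximal function on the line, weak type
-/

namespace Vale.Agent.P141.H530

open MeasureTheory Set Filter Topology
open scoped ENNReal

noncomputable section

/-- the window average -/
def mv (G : ℝ → ℝ) (t c : ℝ) : ℝ := (32 * t)⁻¹ * ∫ y in (c - 16 * t)..(c + 16 * t), G y

/-- the maximum over the cone above the interval `[X, X + t]` -/
def Bm (G : ℝ → ℝ) (t X : ℝ) : ℝ≥0∞ :=
  ⨆ p : {p : ℝ × ℝ // t ≤ p.1 ∧ |p.2| ≤ p.1 - t}, ENNReal.ofReal (mv G p.1.1 (X + p.1.2))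

/-- the maximal function -/
def MM (G : ℝ → ℝ) (x : ℝ) : ℝ≥0∞ :=
  ⨆ p : {p : ℝ × ℝ // 0 < p.1 ∧ |p.2| ≤ 6 * p.1}, ENNReal.ofReal (mv G p.1.1 (x + p.1.2))

theorem mv_le_Bm (G : ℝ → ℝ) (t X : ℝ) : ENNReal.ofReal (mv G t X) ≤ Bm G t X := by
  have h := le_iSup (fun p : {p : ℝ × ℝ // t ≤ p.1 ∧ |p.2| ≤ p.1 - t} =>
    ENNReal.ofReal (mv G p.1.1 (X + p.1.2))) ⟨(t, 0), by simp⟩
  simpa [Bm] using h

theorem mv_le_MM (G : ℝ → ℝ) {t c x : ℝ} (ht : 0 < t) (h : |c - x| ≤ 6 * t) :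
    ENNReal.ofReal (mv G t c) ≤ MM G x := by
  have h' := le_iSup (fun p : {p : ℝ × ℝ // 0 < p.1 ∧ |p.2| ≤ 6 * p.1} =>
    ENNReal.ofReal (mv G p.1.1 (x + p.1.2))) ⟨(t, c - x), ht, h⟩
  simpa [MM] using h'

theorem Bm_mono (G : ℝ → ℝ) {t t' X X' : ℝ} (h1 : X' ≤ X) (h2 : X + t ≤ X' + t') :
    Bm G t' X' ≤ Bm G t X := by
  refine iSup_le fun p => ?_
  obtain ⟨⟨s, c⟩, hs, hc⟩ := p
  simp only at hs hc ⊢
  have h := le_iSup (fun p : {p : ℝ × ℝ // t ≤ p.1 ∧ |p.2| ≤ p.1 - t} =>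
    ENNReal.ofReal (mv G p.1.1 (X + p.1.2))) ⟨(s, X' - X + c), by
      rw [abs_le] at hc
      refine ⟨by linarith, ?_⟩
      rw [abs_le]
      constructor
      · show -(s - t) ≤ X' - X + c
        linarith [hc.1]
      · show X' - X + c ≤ s - t
        linarith [hc.2]⟩
  refine le_trans (le_of_eq ?_) h
  show _ = ENNReal.ofReal (mv G s (X + (X' - X + c)))
  congr 2
  ring

theorem Bm_le_MM (G : ℝ → ℝ) {t X x : ℝ} (ht : 0 < t) (h1 : X ≤ x) (h2 : x ≤ X + 6 * t) :
    Bm G t X ≤ MM G x := by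
  refine iSup_le fun p => ?_
  obtain ⟨⟨s, c⟩, hs, hc⟩ := p
  simp only at hs hc ⊢
  refine mv_le_MM G (ht.trans_le hs) ?_
  rw [abs_le] at hc ⊢
  constructor <;> linarith [hc.1, hc.2]

section
variable {G : ℝ → ℝ} (hG : Integrable G)
include hG

theorem mv_cont (t : ℝ) : Continuous (mv G t) := by
  have h := intervalIntegral.continuous_primitive (μ := volume) (f := G)
    (fun a b => hG.intervalIntegrable) 0
  have e : mv G t = fun c => (32 * t)⁻¹ * ((∫ y in (0 : ℝ)..(c + 16 * t), G y) -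
      ∫ y in (0 : ℝ)..(c - 16 * t), G y) := by
    funext c
    unfold mv
    rw [intervalIntegral.integral_interval_sub_left hG.intervalIntegrable hG.intervalIntegrable]
  rw [e]
  exact continuous_const.mul ((h.comp (by fun_prop)).sub (h.comp (by fun_prop)))

theorem Bm_meas (t : ℝ) : Measurable (Bm G t) := by
  refine LowerSemicontinuous.measurable (lowerSemicontinuous_iSup fun p => ?_)
  exact (ENNReal.continuous_ofReal.comp ((mv_cont hG _).comp
    (continuous_id.add continuous_const))).lowerSemicontinuous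

theorem MM_lsc : LowerSemicontinuous (MM G) := by
  refine lowerSemicontinuous_iSup fun p => ?_
  exact (ENNReal.continuous_ofReal.comp ((mv_cont hG _).comp
    (continuous_id.add continuous_const))).lowerSemicontinuous

theorem MM_meas : Measurable (MM G) := (MM_lsc hG).measurable

omit hG in
theorem mv_le {b : ℝ} (hb : ∀ x, G x ≤ b) (hG : Integrable G) {t : ℝ} (ht : 0 < t) (c : ℝ) :
    mv G t c ≤ b := by
  unfold mv
  rw [inv_mul_le_iff₀ (by positivity)]
  have h1 : (∫ y in (c - 16 * t)..(c + 16 * t), G y) ≤ ∫ _ in (c - 16 * t)..(c + 16 * t), b :=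
    intervalIntegral.integral_mono_on (by linarith) hG.intervalIntegrable
      intervalIntegrable_const fun x _ => hb x
  rw [intervalIntegral.integral_const, smul_eq_mul] at h1
  linarith

theorem MM_le {b : ℝ} (hb : ∀ x, G x ≤ b) (x : ℝ) : MM G x ≤ ENNReal.ofReal b :=
  iSup_le fun p => ENNReal.ofReal_le_ofReal (mv_le hb hG p.2.1 _)

theorem mv_eq_lintegral (h0 : ∀ x, 0 ≤ G x) {t : ℝ} (ht : 0 < t) (c : ℝ) :
    ENNReal.ofReal (32 * t * mv G t c) =
      ∫⁻ y in Metric.ball c (16 * t), ENNReal.ofReal (G y) := by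
  unfold mv
  rw [mul_inv_cancel_left₀ (by positivity), Real.ball_eq_Ioo,
    intervalIntegral.integral_of_le (by linarith), integral_Ioc_eq_integral_Ioo]
  exact ofReal_integral_eq_lintegral_ofReal hG.integrableOn (ae_of_all _ h0)

/-- **weak type** -/
theorem weak (h0 : ∀ x, 0 ≤ G x) {l : ℝ} (hl : 0 < l) :
    volume {x | ENNReal.ofReal l < MM G x} ≤
      ENNReal.ofReal (4 / l) * ∫⁻ x, ENNReal.ofReal (G x) := by
  classical
  set S : Set ℝ := {x | ENNReal.ofReal l < MM G x} with hS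
  have hex : ∀ x : ℝ, ∃ p : ℝ × ℝ, x ∈ S → 0 < p.1 ∧ |p.2| ≤ 6 * p.1 ∧ l < mv G p.1 (x + p.2) := by
    intro x
    by_cases hx : x ∈ S
    · obtain ⟨p, hp⟩ := lt_iSup_iff.1 (show ENNReal.ofReal l < MM G x from hx)
      refine ⟨p.1, fun _ => ⟨p.2.1, p.2.2, ?_⟩⟩
      exact (ENNReal.ofReal_lt_ofReal_iff_of_nonneg hl.le).1 hp
    · exact ⟨0, fun h => absurd h hx⟩
  choose p hp using hex
  set cc : ℝ → ℝ := fun x => x + (p x).2 with hcc
  set rr : ℝ → ℝ := fun x => 16 * (p x).1 with hrr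
  have hint : ∀ x ∈ S, 2 * rr x * l < ∫ y, G y := by
    intro x hx
    obtain ⟨h1, _, h3⟩ := hp x hx
    have h4 : mv G (p x).1 (x + (p x).2) ≤ (32 * (p x).1)⁻¹ * ∫ y, G y := by
      unfold mv
      refine mul_le_mul_of_nonneg_left ?_ (by positivity)
      rw [intervalIntegral.integral_of_le (by linarith)]
      exact setIntegral_le_integral hG (ae_of_all _ h0)
    have h5 := h3.trans_le h4
    rw [lt_inv_mul_iff₀ (by positivity)] at h5
    simp only [hrr]
    linarith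
  obtain ⟨u, huS, hdis, hcov⟩ := Vitali.exists_disjoint_subfamily_covering_enlargement_ball S cc rr
    ((∫ y, G y) / (2 * l)) (fun x hx => by
      rw [le_div_iff₀ (by positivity)]
      linarith [hint x hx]) 4 (by norm_num)
  have hrpos : ∀ x ∈ S, 0 < rr x := fun x hx => by
    have := (hp x hx).1
    simp only [hrr]; linarith
  have hcount : u.Countable := hdis.countable_of_isOpen (fun _ _ => Metric.isOpen_ball)
    fun x hx => ⟨cc x, Metric.mem_ball_self (hrpos x (huS hx))⟩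
  have hsub : S ⊆ ⋃ b ∈ u, Metric.ball (cc b) (4 * rr b) := by
    intro x hx
    obtain ⟨b, hb, hsb⟩ := hcov x hx
    refine mem_biUnion hb (hsb ?_)
    rw [Metric.mem_ball, Real.dist_eq]
    simp only [hcc, hrr]
    obtain ⟨h1, h2, _⟩ := hp x hx
    have : x - (x + (p x).2) = -(p x).2 := by ring
    rw [this, abs_neg]
    linarith
  have hb : ∀ b : u, volume (Metric.ball (cc b) (4 * rr b)) ≤ ENNReal.ofReal (4 / l) *
      ∫⁻ y in Metric.ball (cc b) (rr b), ENNReal.ofReal (G y) := by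
    intro b
    obtain ⟨h1, _, h3⟩ := hp b (huS b.2)
    have e1 := mv_eq_lintegral hG h0 h1 (cc b)
    rw [← show rr b = 16 * (p b).1 from rfl] at e1
    rw [← e1, Real.volume_ball, ← ENNReal.ofReal_mul (by positivity)]
    refine ENNReal.ofReal_le_ofReal ?_
    simp only [hrr]
    have h5 : l ≤ mv G (p b).1 (cc b) := h3.le
    have h6 : 4 / l * (32 * (p b).1 * mv G (p b).1 (cc b)) =
        128 * (p b).1 * (mv G (p b).1 (cc b) / l) := by
      field_simp
      ring
    rw [h6]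
    have h7 : 1 ≤ mv G (p b).1 (cc b) / l := by rwa [le_div_iff₀ hl, one_mul]
    nlinarith
  calc volume S ≤ volume (⋃ b ∈ u, Metric.ball (cc b) (4 * rr b)) := measure_mono hsub
    _ ≤ ∑' b : u, volume (Metric.ball (cc b) (4 * rr b)) := measure_biUnion_le _ hcount _
    _ ≤ ∑' b : u, ENNReal.ofReal (4 / l) *
        ∫⁻ y in Metric.ball (cc b) (rr b), ENNReal.ofReal (G y) := ENNReal.tsum_le_tsum hb
    _ = ENNReal.ofReal (4 / l) * ∑' b : u, ∫⁻ y in Metric.ball (cc b) (rr b),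
        ENNReal.ofReal (G y) := ENNReal.tsum_mul_left
    _ = ENNReal.ofReal (4 / l) * ∫⁻ y in ⋃ b ∈ u, Metric.ball (cc b) (rr b),
        ENNReal.ofReal (G y) := by
        rw [lintegral_biUnion hcount (fun _ _ => measurableSet_ball) hdis]
    _ ≤ _ := mul_le_mul_right (setLIntegral_le_lintegral _ _) _

end

end

end Vale.Agent.P141.H530
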