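import Vale.Agent.P141.H530.HL

/-!
# P141, exponents `r < 1`: the maximal function on the line, strong type
-/

namespace Vale.Agent.P141.H530

open MeasureTheory Set Filter Topology
open scoped ENNReal

noncomputable section

theorem MM_split {G : ℝ → ℝ} (hG : Integrable G) (hGm : Measurable G) (h0 : ∀ x, 0 ≤ G x)
    {t : ℝ} (ht : 0 ≤ t) (x : ℝ) :
    MM G x ≤ MM ({y | t < G y}.indicator G) x + ENNReal.ofReal t := by
  have hS : MeasurableSet {y | t < G y} := measurableSet_lt measurable_const hGm
  have hG1 : Integrable ({y | t < G y}.indicator G) := hG.indicator hS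
  refine iSup_le fun p => ?_
  obtain ⟨⟨s, c⟩, hs, hc⟩ := p
  simp only at hs hc ⊢
  have h1 : mv G s (x + c) ≤ mv ({y | t < G y}.indicator G) s (x + c) + t := by
    unfold mv
    have h2 : (∫ y in (x + c - 16 * s)..(x + c + 16 * s), G y) ≤
        ∫ y in (x + c - 16 * s)..(x + c + 16 * s), ({y | t < G y}.indicator G y + t) := by
      refine intervalIntegral.integral_mono_on (by linarith) hG.intervalIntegrable
        (hG1.intervalIntegrable.add intervalIntegrable_const) fun y _ => ?_
      by_cases hy : t < G y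
      · rw [indicator_of_mem (show y ∈ {y | t < G y} from hy)]; linarith
      · rw [indicator_of_notMem (show y ∉ {y | t < G y} from hy)]; linarith
    rw [intervalIntegral.integral_add hG1.intervalIntegrable intervalIntegrable_const,
      intervalIntegral.integral_const, smul_eq_mul] at h2
    have h3 : (32 * s)⁻¹ * ((x + c + 16 * s - (x + c - 16 * s)) * t) = t := by
      field_simp
      ring
    have h4 := mul_le_mul_of_nonneg_left h2 (by positivity : 0 ≤ (32 * s)⁻¹)
    rw [mul_add, h3] at h4
    exact h4
  have h5 : 0 ≤ mv ({y | t < G y}.indicator G) s (x + c) := by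
    unfold mv
    refine mul_nonneg (by positivity) (intervalIntegral.integral_nonneg (by linarith) fun y _ => ?_)
    exact indicator_nonneg (fun y _ => h0 y) y
  refine (ENNReal.ofReal_le_ofReal h1).trans ?_
  rw [ENNReal.ofReal_add h5 ht]
  refine add_le_add (mv_le_MM _ hs ?_) le_rfl
  rwa [add_sub_cancel_left]

/-- **Hardy–Littlewood** -/
theorem strong {q : ℝ} (hq : 1 < q) {G : ℝ → ℝ} (hGm : Measurable G) (hG : Integrable G)
    (h0 : ∀ x, 0 ≤ G x) {b : ℝ} (hb : ∀ x, G x ≤ b) :
    ∫⁻ x, MM G x ^ q ≤ ENNReal.ofReal (q * (8 * 2 ^ (q - 1) / (q - 1))) *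
      ∫⁻ x, ENNReal.ofReal (G x ^ q) := by
  have hq0 : 0 < q := by linarith
  have hq1 : 0 < q - 1 := by linarith
  have hfin : ∀ x, MM G x ≠ ∞ := fun x => ((MM_le hG hb x).trans_lt ENNReal.ofReal_lt_top).ne
  set f : ℝ → ℝ := fun x => (MM G x).toReal with hf
  have hfm : Measurable f := (MM_meas hG).ennreal_toReal
  have e1 : ∀ x, MM G x ^ q = ENNReal.ofReal (f x ^ q) := by
    intro x
    rw [hf]
    simp only
    rw [← ENNReal.ofReal_rpow_of_nonneg ENNReal.toReal_nonneg hq0.le, ENNReal.ofReal_toReal (hfin x)]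
  simp only [e1]
  rw [lintegral_rpow_eq_lintegral_meas_lt_mul volume (ae_of_all _ fun x => ENNReal.toReal_nonneg)
    hfm.aemeasurable hq0]
  rw [ENNReal.ofReal_mul hq0.le, mul_assoc]
  refine mul_le_mul_right ?_ _
  -- the inner function
  set Φ : ℝ → ℝ → ℝ≥0∞ := fun t x => if t < 2 * G x then ENNReal.ofReal (8 * t ^ (q - 2) * G x)
    else 0 with hΦ
  have hΦm : Measurable (Function.uncurry Φ) := by
    rw [hΦ]
    unfold Function.uncurry
    refine Measurable.ite (measurableSet_lt measurable_fst
      ((hGm.comp measurable_snd).const_mul 2)) ?_ measurable_const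
    exact (((measurable_fst.pow_const (q - 2)).const_mul 8).mul
      (hGm.comp measurable_snd)).ennreal_ofReal
  have h1 : ∀ t ∈ Ioi (0 : ℝ), volume {a | t < f a} * ENNReal.ofReal (t ^ (q - 1)) ≤
      ∫⁻ x, Φ t x := by
    intro t ht
    have ht0 : 0 < t := ht
    set G1 : ℝ → ℝ := {y | t / 2 < G y}.indicator G with hG1
    have hS : MeasurableSet {y | t / 2 < G y} := measurableSet_lt measurable_const hGm
    have hsub : {a | t < f a} ⊆ {x | ENNReal.ofReal (t / 2) < MM G1 x} := by
      intro x hx
      have h2 : ENNReal.ofReal t < MM G x :=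
        (ENNReal.ofReal_lt_iff_lt_toReal ht0.le (hfin x)).2 hx
      show ENNReal.ofReal (t / 2) < MM G1 x
      by_contra hcon
      push Not at hcon
      have h3 := (MM_split hG hGm h0 (by linarith : 0 ≤ t / 2) x).trans
        (add_le_add hcon le_rfl)
      rw [← ENNReal.ofReal_add (by linarith) (by linarith), add_halves] at h3
      exact absurd h2 (not_lt.2 h3)
    have hw := weak (hG.indicator hS) (fun x => indicator_nonneg (fun y _ => h0 y) x)
      (show 0 < t / 2 by linarith)
    have h2 := (measure_mono hsub).trans hw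
    refine (mul_le_mul_left h2 _).trans (le_of_eq ?_)
    rw [mul_right_comm, ← ENNReal.ofReal_mul (by positivity), ← lintegral_const_mul _
      (hGm.indicator hS).ennreal_ofReal]
    refine lintegral_congr fun x => ?_
    simp only [hΦ]
    by_cases hx : t < 2 * G x
    · rw [if_pos hx, indicator_of_mem (show x ∈ {y | t / 2 < G y} from by
        show t / 2 < G x; linarith), ← ENNReal.ofReal_mul (by positivity)]
      congr 1
      have e2 : t ^ (q - 1) = t ^ (q - 2) * t := by
        rw [← Real.rpow_add_one ht0.ne']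
        congr 1
        ring
      rw [e2]
      field_simp
      ring
    · rw [if_neg hx, indicator_of_notMem (show x ∉ {y | t / 2 < G y} from by
        show ¬ t / 2 < G x; linarith), ENNReal.ofReal_zero, mul_zero]
  refine (setLIntegral_mono' measurableSet_Ioi h1).trans ?_
  rw [lintegral_lintegral_swap hΦm.aemeasurable, ← lintegral_const_mul' _ _ ENNReal.ofReal_ne_top]
  refine lintegral_mono fun x => ?_
  have ha : 0 ≤ 2 * G x := by have := h0 x; linarith
  have e3 : ∫⁻ t in Ioi (0 : ℝ), Φ t x =
      ∫⁻ t in Ioo 0 (2 * G x), ENNReal.ofReal (8 * t ^ (q - 2) * G x) := by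
    rw [← lintegral_indicator measurableSet_Ioi, ← lintegral_indicator measurableSet_Ioo]
    refine lintegral_congr fun t => ?_
    by_cases h2 : 0 < t
    · rw [indicator_of_mem (show t ∈ Ioi (0 : ℝ) from h2)]
      by_cases h3 : t < 2 * G x
      · rw [indicator_of_mem (show t ∈ Ioo 0 (2 * G x) from ⟨h2, h3⟩)]
        simp only [hΦ, if_pos h3]
      · rw [indicator_of_notMem (show t ∉ Ioo 0 (2 * G x) from fun h => h3 h.2)]
        simp only [hΦ, if_neg h3]
    · rw [indicator_of_notMem (show t ∉ Ioi (0 : ℝ) from h2),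
        indicator_of_notMem (show t ∉ Ioo 0 (2 * G x) from fun h => h2 h.1)]
  rw [e3]
  have hii : IntervalIntegrable (fun t : ℝ => 8 * t ^ (q - 2) * G x) volume 0 (2 * G x) :=
    ((intervalIntegral.intervalIntegrable_rpow' (by linarith)).const_mul 8).mul_const _
  have hio : IntegrableOn (fun t : ℝ => 8 * t ^ (q - 2) * G x) (Ioo 0 (2 * G x)) volume :=
    ((intervalIntegrable_iff_integrableOn_Ioc_of_le ha).1 hii).mono_set Ioo_subset_Ioc_self
  rw [← ofReal_integral_eq_lintegral_ofReal hio]
  · rw [← ENNReal.ofReal_mul (by positivity)]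
    refine ENNReal.ofReal_le_ofReal (le_of_eq ?_)
    rw [← integral_Ioc_eq_integral_Ioo, ← intervalIntegral.integral_of_le ha,
      intervalIntegral.integral_mul_const, intervalIntegral.integral_const_mul,
      integral_rpow (Or.inl (by linarith)), Real.zero_rpow (by linarith), sub_zero]
    rw [show q - 2 + 1 = q - 1 by ring, Real.mul_rpow (by norm_num) (h0 x)]
    have e4 : G x ^ q = G x ^ (q - 1) * G x := by
      rcases (h0 x).eq_or_lt with h | h
      · rw [← h, Real.zero_rpow hq0.ne', mul_zero]
      · rw [← Real.rpow_add_one h.ne']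
        congr 1
        ring
    rw [e4]
    ring
  · filter_upwards [ae_restrict_mem measurableSet_Ioo] with t ht
    exact mul_nonneg (mul_nonneg (by norm_num) (Real.rpow_nonneg ht.1.le _)) (h0 x)

end

end Vale.Agent.P141.H530
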