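import Vale.Agent.P141.PL.H620.UnifNode

/-!
# P141, exponents `r < 1`: a John-Nirenberg inequality for sums of running maxima over allowed nodes
-/

namespace Vale.Agent.P141.H530

open Finset Vale.Agent.P141.PL.H571
open Vale.Agent.P141.PL.H620 (hl_unif)

noncomputable section

/-- running maximum over the allowed ancestors -/
def RAq (q : ℝ) (F : ℤ → ℝ) (A : ℕ → ℤ → Prop) (n k : ℕ) (v : ℤ) : ℝ := by
  classical exact ((((Icc k n).filter fun k' => A k' (v / 2 ^ (k' - k))).sup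
    fun k' => Real.toNNReal (av q F k' (v / 2 ^ (k' - k))) : NNReal) : ℝ)

def RA (q : ℝ) (F : ℤ → ℝ) (A : ℕ → ℤ → Prop) (n k : ℕ) (v : ℤ) : ℝ := RAq q F A n k v ^ (1 / q)

theorem RAq_nonneg (q : ℝ) (F : ℤ → ℝ) (A : ℕ → ℤ → Prop) (n k : ℕ) (v : ℤ) :
    0 ≤ RAq q F A n k v := NNReal.coe_nonneg _

theorem RA_nonneg (q : ℝ) (F : ℤ → ℝ) (A : ℕ → ℤ → Prop) (n k : ℕ) (v : ℤ) :
    0 ≤ RA q F A n k v := Real.rpow_nonneg (RAq_nonneg _ _ _ _ _ _) _

theorem av_le_RAq (q : ℝ) (F : ℤ → ℝ) {A : ℕ → ℤ → Prop} {n k k' : ℕ} (h1 : k ≤ k') (h2 : k' ≤ n)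
    (v : ℤ) (hA : A k' (v / 2 ^ (k' - k))) : av q F k' (v / 2 ^ (k' - k)) ≤ RAq q F A n k v := by
  classical
  have h := Finset.le_sup (f := fun k' => Real.toNNReal (av q F k' (v / 2 ^ (k' - k))))
    (mem_filter.2 ⟨mem_Icc.2 ⟨h1, h2⟩, hA⟩ : k' ∈ (Icc k n).filter fun k' => A k' (v / 2 ^ (k' - k)))
  have h3 : ((Real.toNNReal (av q F k' (v / 2 ^ (k' - k))) : NNReal) : ℝ) ≤ RAq q F A n k v := by
    unfold RAq
    exact NNReal.coe_le_coe.2 h
  rwa [Real.coe_toNNReal _ (av_nonneg _ _ _ _)] at h3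

theorem RAq_le {q : ℝ} {F : ℤ → ℝ} {A : ℕ → ℤ → Prop} {n k : ℕ} {v : ℤ} {b : ℝ} (hb : 0 ≤ b)
    (h : ∀ k', k ≤ k' → k' ≤ n → A k' (v / 2 ^ (k' - k)) → av q F k' (v / 2 ^ (k' - k)) ≤ b) :
    RAq q F A n k v ≤ b := by
  classical
  unfold RAq
  rw [← Real.coe_toNNReal b hb, NNReal.coe_le_coe]
  refine Finset.sup_le fun k' hk' => ?_
  obtain ⟨h1, h2⟩ := mem_filter.1 hk'
  exact Real.toNNReal_le_toNNReal (h k' (mem_Icc.1 h1).1 (mem_Icc.1 h1).2 h2)

theorem RAq_mono (q : ℝ) (F : ℤ → ℝ) (A : ℕ → ℤ → Prop) {n k k' : ℕ} (h1 : k ≤ k') (v : ℤ) :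
    RAq q F A n k' (v / 2 ^ (k' - k)) ≤ RAq q F A n k v := by
  refine RAq_le (RAq_nonneg _ _ _ _ _ _) fun l hl1 hl2 hA => ?_
  have e : v / 2 ^ (k' - k) / 2 ^ (l - k') = v / 2 ^ (l - k) := by
    rw [← ediv_pow_add]
    congr 2
    omega
  rw [e] at hA ⊢
  exact av_le_RAq q F (h1.trans hl1) hl2 v hA

theorem RA_mono {q : ℝ} (hq : 0 < q) (F : ℤ → ℝ) (A : ℕ → ℤ → Prop) {n k k' : ℕ} (h1 : k ≤ k')
    (v : ℤ) : RA q F A n k' (v / 2 ^ (k' - k)) ≤ RA q F A n k v :=
  Real.rpow_le_rpow (RAq_nonneg _ _ _ _ _ _) (RAq_mono q F A h1 v) (by positivity)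

theorem W_sub {k k' : ℕ} {v v' : ℤ} (h : k' ≤ k) (hv : v' / 2 ^ (k - k') = v) : W k' v' ⊆ W k v := by
  intro y hy
  unfold W at hy ⊢
  rw [mem_Ico] at hy ⊢
  have hp : (0 : ℤ) < 2 ^ (k - k') := by positivity
  have hq : (0 : ℤ) < 2 ^ k' := by positivity
  have h1 : 2 ^ (k - k') * (v' / 2 ^ (k - k')) ≤ v' := Int.mul_ediv_self_le hp.ne'
  have h2 : v' < 2 ^ (k - k') * (v' / 2 ^ (k - k')) + 2 ^ (k - k') := Int.lt_mul_ediv_self_add hp
  rw [hv] at h1 h2
  have e : (2 : ℤ) ^ k = 2 ^ k' * 2 ^ (k - k') := by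
    rw [← pow_add]; congr 1; omega
  have h3 : (1 : ℤ) ≤ 2 ^ (k - k') := by omega
  rw [e]
  generalize (2 : ℤ) ^ (k - k') = p at *
  generalize (2 : ℤ) ^ k' = r at *
  constructor
  · nlinarith
  · have h4 : v' + 1 ≤ p * v + p := h2
    nlinarith

/-- splitting of the running maximum at an allowed node -/
theorem RA_split {q : ℝ} (hq : 0 < q) (F : ℤ → ℝ) {A : ℕ → ℤ → Prop} {n k : ℕ} (hk : k ≤ n)
    (x : ℤ) : RA q F A n 0 x ^ 2 ≤ RA q F A n (k + 1) (x / 2 ^ (k + 1)) ^ 2 +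
      RM q (fun y => if y ∈ W k (x / 2 ^ k) then F y else 0) k 0 x ^ 2 := by
  set F' : ℤ → ℝ := fun y => if y ∈ W k (x / 2 ^ k) then F y else 0 with hF'
  have h1 : RAq q F A n 0 x ≤ max (RAq q F A n (k + 1) (x / 2 ^ (k + 1))) (RMq q F' k 0 x) := by
    refine RAq_le (le_max_of_le_left (RAq_nonneg _ _ _ _ _ _)) fun l _ hl2 hA => ?_
    rw [Nat.sub_zero] at hA ⊢
    rcases Nat.lt_or_ge k l with h | h
    · refine le_max_of_le_left ?_
      have e : x / 2 ^ l = x / 2 ^ (k + 1) / 2 ^ (l - (k + 1)) := by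
        rw [← ediv_pow_add]
        congr 2
        omega
      rw [e] at hA ⊢
      exact av_le_RAq q F h hl2 _ hA
    · refine le_max_of_le_right ?_
      have h3 := av_le_RMq q F' (Nat.zero_le l) h x
      rw [Nat.sub_zero] at h3
      refine le_trans (le_of_eq ?_) h3
      unfold av
      congr 1
      refine sum_congr rfl fun y hy => ?_
      have h4 : y ∈ W k (x / 2 ^ k) := W_sub h (by
        rw [← ediv_pow_add]
        congr 2
        omega) hy
      simp only [hF', if_pos h4]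
  have h2 : RA q F A n 0 x ≤ max (RA q F A n (k + 1) (x / 2 ^ (k + 1))) (RM q F' k 0 x) := by
    unfold RA RM
    rcases le_max_iff.1 h1 with h | h
    · exact le_max_of_le_left (Real.rpow_le_rpow (RAq_nonneg _ _ _ _ _ _) h (by positivity))
    · exact le_max_of_le_right (Real.rpow_le_rpow (RAq_nonneg _ _ _ _ _ _) h (by positivity))
  have h3 := RA_nonneg q F A n 0 x
  rcases le_max_iff.1 h2 with h | h
  · have h4 := pow_le_pow_left₀ h3 h 2
    have h5 := sq_nonneg (RM q F' k 0 x)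
    linarith
  · have h4 := pow_le_pow_left₀ h3 h 2
    have h5 := sq_nonneg (RA q F A n (k + 1) (x / 2 ^ (k + 1)))
    linarith

theorem sq_le_add {q t : ℝ} (hq : 2 ≤ q) (ht : 0 ≤ t) : t ^ 2 ≤ 1 + t ^ q := by
  rcases le_total t 1 with h | h
  · have h1 : t ^ 2 ≤ 1 := pow_le_one₀ ht h
    have h2 := Real.rpow_nonneg ht q
    linarith
  · have h1 : t ^ (2 : ℝ) ≤ t ^ q := Real.rpow_le_rpow_of_exponent_le h hq
    rw [Real.rpow_two] at h1
    linarith

/-- the sum over a cell in smaller cells -/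
theorem sum_cells {k K : ℕ} (hk : k ≤ K) (V : ℤ) (f : ℤ → ℝ) :
    ∑ x ∈ Ico (2 ^ K * V) (2 ^ K * (V + 1)), f x =
      ∑ v ∈ Ico (2 ^ (K - k) * V) (2 ^ (K - k) * (V + 1)),
        ∑ x ∈ Ico (2 ^ k * v) (2 ^ k * (v + 1)), f x := by
  classical
  have h1 : ∀ x ∈ Ico (2 ^ K * V) (2 ^ K * (V + 1)),
      x / 2 ^ k ∈ Ico (2 ^ (K - k) * V) (2 ^ (K - k) * (V + 1)) := by
    intro x hx
    rw [mem_cell] at hx ⊢
    rw [← ediv_pow_add, ← hx]
    congr 2
    omega
  rw [← sum_fiberwise_of_maps_to h1]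
  refine sum_congr rfl fun v hv => sum_congr ?_ fun _ _ => rfl
  ext x
  rw [mem_filter, mem_cell, mem_cell]
  constructor
  · exact fun h => h.2
  · intro h
    refine ⟨?_, h⟩
    rw [mem_cell] at hv
    rw [← hv, ← h, ← ediv_pow_add]
    congr 2
    omega

/-- **second moment of the sums of the running maxima** -/
theorem jn {q p : ℝ} (hq : 0 < q) (hqp : q < p) (hp : 2 ≤ p) :
    ∃ C : ℝ, 0 < C ∧ ∀ (Cs : Finset ℤ) (F : ℤ → ℤ → ℝ) (A : ℕ → ℤ → Prop) (K : ℕ) (V : ℤ)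
      (E : ℝ), (Cs.card : ℝ) ≤ E →
      (∀ k v, A k v → k ≤ K ∧ v / 2 ^ (K - k) = V) →
      (∀ k v k', A k v → k ≤ k' → k' ≤ K → A k' (v / 2 ^ (k' - k))) →
      (∀ k v, A k v → ∑ c ∈ Cs, ∑ y ∈ W k v, |F c y| ^ p ≤ E * 2 ^ k) →
      ∑ x ∈ Ico (2 ^ K * V) (2 ^ K * (V + 1)), (∑ c ∈ Cs, RA q (F c) A K 0 x ^ 2) ^ 2 ≤
        C * E ^ 2 * 2 ^ K := by
  classical
  have hHL := fun (f : ℤ → ℝ) (hf : f.support.Finite) (n : ℕ) (X : Finset ℤ) =>
    hl_unif hq hqp f hf n X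
  set CH : ℝ := 4 ^ (p / q) * (2 ^ (p / q) * (2 * ((p / q) / (p / q - 1)) ^ (p / q))) with hCH
  have hr1 : 1 < p / q := (one_lt_div hq).2 hqp
  have hCH0 : 0 < CH := by
    have : (0 : ℝ) < ((p / q) / (p / q - 1)) ^ (p / q) :=
      Real.rpow_pos_of_pos (div_pos (by linarith) (by linarith)) _
    positivity
  refine ⟨2 * (1 + CH) ^ 2, by positivity, fun Cs F A K V E hE hA hcl hwin => ?_⟩
  have hE0 : 0 ≤ E := le_trans (by positivity) hE
  set B : ℝ := (1 + CH) * E with hB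
  have hB0 : 0 ≤ B := by positivity
  set u : ℕ → ℤ → ℝ := fun k x => ∑ c ∈ Cs, RA q (F c) A K k (x / 2 ^ k) ^ 2 with hu
  have hu0 : ∀ k x, 0 ≤ u k x := fun k x => sum_nonneg fun _ _ => sq_nonneg _
  have hmono : ∀ k x, u (k + 1) x ≤ u k x := by
    intro k x
    refine sum_le_sum fun c _ => ?_
    refine pow_le_pow_left₀ (RA_nonneg _ _ _ _ _ _) ?_ 2
    have h := RA_mono hq (F c) A (n := K) (Nat.le_succ k) (x / 2 ^ k)
    rw [← ediv_pow_add] at h
    simpa using h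
  have htop : ∀ x, u (K + 1) x = 0 := by
    intro x
    refine sum_eq_zero fun c _ => ?_
    have h1 : RAq q (F c) A K (K + 1) (x / 2 ^ (K + 1)) = 0 := by
      refine le_antisymm (RAq_le le_rfl fun l h1 h2 _ => ?_) (RAq_nonneg _ _ _ _ _ _)
      omega
    unfold RA
    rw [h1, Real.zero_rpow (by positivity)]
    norm_num
  -- the average of the lower part
  have hlow : ∀ k ≤ K, ∀ v : ℤ, ∑ x ∈ Ico (2 ^ k * v) (2 ^ k * (v + 1)), (u 0 x - u (k + 1) x) ≤
      B * 2 ^ k := by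
    intro k hk v
    by_cases hAv : A k v
    · have h1 : ∀ x ∈ Ico (2 ^ k * v) (2 ^ k * (v + 1)), u 0 x - u (k + 1) x ≤
          ∑ c ∈ Cs, (1 + RM q (fun y => if y ∈ W k v then F c y else 0) k 0 x ^ p) := by
        intro x hx
        rw [mem_cell] at hx
        simp only [hu]
        rw [← sum_sub_distrib]
        refine sum_le_sum fun c _ => ?_
        have h2 := RA_split hq (F c) (A := A) hk x
        rw [hx] at h2
        have h3 := sq_le_add hp (RM_nonneg q (fun y => if y ∈ W k v then F c y else 0) k 0 x)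
        simp only [pow_zero, Int.ediv_one]
        linarith
      refine (sum_le_sum h1).trans ?_
      rw [sum_comm]
      have h2 : ∀ c ∈ Cs, ∑ x ∈ Ico (2 ^ k * v) (2 ^ k * (v + 1)),
          (1 + RM q (fun y => if y ∈ W k v then F c y else 0) k 0 x ^ p) ≤
          2 ^ k + CH * ∑ y ∈ W k v, |F c y| ^ p := by
        intro c _
        rw [sum_add_distrib, sum_const, card_cell, nsmul_eq_mul, mul_one]
        have hp0 : p ≠ 0 := by positivity
        have h3 := hHL (fun y => if y ∈ W k v then F c y else 0)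
          ((Finset.finite_toSet (W k v)).subset fun y hy => by
            by_contra hc'
            exact hy (if_neg hc')) k (Ico (2 ^ k * v) (2 ^ k * (v + 1)))
        have h4 : ∑' y, |(if y ∈ W k v then F c y else 0)| ^ p = ∑ y ∈ W k v, |F c y| ^ p := by
          rw [tsum_eq_sum (s := W k v)]
          · exact sum_congr rfl fun y hy => by rw [if_pos hy]
          · intro y hy
            rw [if_neg hy, abs_zero, Real.zero_rpow hp0]
        rw [h4] at h3
        push_cast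
        linarith
      refine (sum_le_sum h2).trans ?_
      rw [sum_add_distrib, sum_const, nsmul_eq_mul, ← mul_sum]
      have h5 := hwin k v hAv
      have h6 : (Cs.card : ℝ) * 2 ^ k ≤ E * 2 ^ k := mul_le_mul_of_nonneg_right hE (by positivity)
      have h7 := mul_le_mul_of_nonneg_left h5 hCH0.le
      rw [hB]
      nlinarith
    · have h1 : ∀ x ∈ Ico (2 ^ k * v) (2 ^ k * (v + 1)), u 0 x - u (k + 1) x = 0 := by
        intro x hx
        rw [mem_cell] at hx
        rw [sub_eq_zero]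
        refine sum_congr rfl fun c _ => ?_
        congr 1
        unfold RA
        congr 1
        refine le_antisymm ?_ ?_
        · refine RAq_le (RAq_nonneg _ _ _ _ _ _) fun l _ hl2 hAl => ?_
          rw [pow_zero, Int.ediv_one, Nat.sub_zero] at hAl ⊢
          rcases Nat.lt_or_ge k l with h | h
          · have e : x / 2 ^ l = x / 2 ^ (k + 1) / 2 ^ (l - (k + 1)) := by
              rw [← ediv_pow_add]
              congr 2
              omega
            rw [e] at hAl ⊢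
            exact av_le_RAq q (F c) h hl2 _ hAl
          · exfalso
            apply hAv
            have h3 := hcl l _ k hAl h hk
            rw [← ediv_pow_add] at h3
            have e : l + (k - l) = k := by omega
            rw [e, hx] at h3
            exact h3
        · have h := RAq_mono q (F c) A (n := K) (Nat.zero_le (k + 1)) (x / 2 ^ 0)
          rw [pow_zero, Int.ediv_one, Nat.sub_zero] at h
          rw [pow_zero, Int.ediv_one]
          exact h
      rw [sum_congr rfl h1, sum_const_zero]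
      positivity
  set I := Ico (2 ^ K * V) (2 ^ K * (V + 1)) with hI
  -- telescoping
  have htel : ∀ x, u 0 x = ∑ k ∈ range (K + 1), (u k x - u (k + 1) x) := by
    intro x
    rw [sum_range_sub', htop, sub_zero]
  have htel2 : ∀ x, ∑ k ∈ range (K + 1), (u k x - u (k + 1) x) * u (k + 1) x ≤ u 0 x ^ 2 / 2 := by
    intro x
    have h1 : u 0 x ^ 2 = ∑ k ∈ range (K + 1), (u k x ^ 2 - u (k + 1) x ^ 2) := by
      rw [sum_range_sub' fun k => u k x ^ 2, htop]
      norm_num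
    rw [h1, sum_div]
    refine sum_le_sum fun k _ => ?_
    have h2 := hmono k x
    nlinarith [sq_nonneg (u k x - u (k + 1) x)]
  have hstep : ∀ k ∈ range (K + 1), ∑ x ∈ I, (u k x - u (k + 1) x) * (u 0 x - u (k + 1) x) ≤
      B * ∑ x ∈ I, (u k x - u (k + 1) x) := by
    intro k hk
    have hkK : k ≤ K := Nat.lt_succ_iff.1 (mem_range.1 hk)
    rw [hI, sum_cells hkK, sum_cells hkK, mul_sum]
    refine sum_le_sum fun v _ => ?_
    have hc : ∀ x ∈ Ico (2 ^ k * v) (2 ^ k * (v + 1)), u k x - u (k + 1) x =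
        ∑ c ∈ Cs, RA q (F c) A K k v ^ 2 - ∑ c ∈ Cs, RA q (F c) A K (k + 1) (v / 2) ^ 2 := by
      intro x hx
      rw [mem_cell] at hx
      have e : x / 2 ^ (k + 1) = v / 2 := by rw [ediv_pow_succ, hx]
      simp only [hu, hx, e]
    rw [sum_congr rfl fun x hx => by rw [hc x hx], ← mul_sum, sum_congr rfl hc, sum_const,
      card_cell, nsmul_eq_mul]
    have h0 : 0 ≤ ∑ c ∈ Cs, RA q (F c) A K k v ^ 2 -
        ∑ c ∈ Cs, RA q (F c) A K (k + 1) (v / 2) ^ 2 := by
      have h1 : (2 : ℤ) ^ k * v ∈ Ico (2 ^ k * v) (2 ^ k * (v + 1)) := by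
        rw [mem_Ico]
        have : (0 : ℤ) < 2 ^ k := by positivity
        constructor
        · exact le_rfl
        · nlinarith
      rw [← hc _ h1]
      linarith [hmono k (2 ^ k * v)]
    have h1 := mul_le_mul_of_nonneg_left (hlow k hkK v) h0
    push_cast
    linarith
  have h1 : ∑ x ∈ I, u 0 x ^ 2 ≤ B * ∑ x ∈ I, u 0 x + ∑ x ∈ I, u 0 x ^ 2 / 2 := by
    have e1 : ∑ x ∈ I, u 0 x ^ 2 = ∑ k ∈ range (K + 1), ∑ x ∈ I,
        (u k x - u (k + 1) x) * (u 0 x - u (k + 1) x) +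
        ∑ x ∈ I, ∑ k ∈ range (K + 1), (u k x - u (k + 1) x) * u (k + 1) x := by
      rw [sum_comm, ← sum_add_distrib]
      refine sum_congr rfl fun x _ => ?_
      rw [← sum_add_distrib]
      have e2 : ∀ k, (u k x - u (k + 1) x) * (u 0 x - u (k + 1) x) +
          (u k x - u (k + 1) x) * u (k + 1) x = (u k x - u (k + 1) x) * u 0 x := fun k => by ring
      simp only [e2]
      rw [← sum_mul, ← htel x, sq]
    rw [e1]
    refine add_le_add ?_ (sum_le_sum fun x _ => htel2 x)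
    refine (sum_le_sum hstep).trans (le_of_eq ?_)
    rw [← mul_sum, sum_comm]
    congr 1
    exact sum_congr rfl fun x _ => (htel x).symm
  have h2 : ∑ x ∈ I, u 0 x ≤ B * 2 ^ K := by
    have h3 := hlow K le_rfl V
    simp only [htop, sub_zero] at h3
    exact h3
  have h3 : ∑ x ∈ I, u 0 x ^ 2 ≤ 2 * B * (B * 2 ^ K) := by
    rw [← sum_div] at h1
    have h4 := mul_le_mul_of_nonneg_left h2 hB0
    linarith
  have h4 : ∀ x, u 0 x = ∑ c ∈ Cs, RA q (F c) A K 0 x ^ 2 := by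
    intro x
    simp only [hu, pow_zero, Int.ediv_one]
  simp only [h4] at h3
  refine h3.trans (le_of_eq ?_)
  rw [hB]
  ring

end

end Vale.Agent.P141.H530
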