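import Mathlib

/-!
# P141, exponents `r < 1`: dyadic sizes, geometric sums, Hoelder for `r ≤ 1`
-/

namespace Vale.Agent.P141.H530

open MeasureTheory Set Filter Topology
open scoped ENNReal

noncomputable section

/-- the dyadic size: `4^(m-1) < b ≤ 4^m` -/
theorem exists_size {b : ℝ} (hb : 0 < b) :
    ∃ m : ℤ, ((2 : ℝ) ^ m) ^ 2 / 4 < b ∧ b ≤ ((2 : ℝ) ^ m) ^ 2 := by
  obtain ⟨n, h1, h2⟩ := exists_mem_Ioc_zpow hb (show (1 : ℝ) < 4 by norm_num)
  have e : ∀ m : ℤ, ((2 : ℝ) ^ m) ^ 2 = 4 ^ m := by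
    intro m
    rw [← zpow_natCast, ← zpow_mul, mul_comm, zpow_mul]
    norm_num
  refine ⟨n + 1, ?_, ?_⟩
  · rw [e, zpow_add_one₀ (by norm_num)]
    linarith
  · rw [e]
    exact h2

theorem size_unique {b : ℝ} {m n : ℤ} (h1 : ((2 : ℝ) ^ m) ^ 2 / 4 < b) (h2 : b ≤ ((2 : ℝ) ^ m) ^ 2)
    (h3 : ((2 : ℝ) ^ n) ^ 2 / 4 < b) (h4 : b ≤ ((2 : ℝ) ^ n) ^ 2) : m = n := by
  have key : ∀ {m n : ℤ}, ((2 : ℝ) ^ m) ^ 2 / 4 < b → b ≤ ((2 : ℝ) ^ n) ^ 2 → m ≤ n := by
    intro m n h1 h2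
    by_contra hc
    push Not at hc
    have h5 : (2 : ℝ) ^ (n + 1) ≤ 2 ^ m := zpow_le_zpow_right₀ (by norm_num) hc
    rw [zpow_add_one₀ (by norm_num)] at h5
    have h6 : (0 : ℝ) < 2 ^ n := by positivity
    nlinarith
  exact le_antisymm (key h1 h4) (key h3 h2)

/-- sum over the dyadic sizes below `M` -/
theorem geo {r : ℝ} (hr : 0 < r) (M : ℝ≥0∞) :
    ∑' m : ℤ, (if ENNReal.ofReal (((2 : ℝ) ^ m) ^ 2 / 4) < M then
      ENNReal.ofReal (((2 : ℝ) ^ m) ^ r) else 0) ≤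
      ENNReal.ofReal (2 ^ r / (1 - (2 : ℝ) ^ (-r))) * M ^ (r / 2) := by
  have h2r : (2 : ℝ) ^ (-r) < 1 := Real.rpow_lt_one_of_one_lt_of_neg (by norm_num) (by linarith)
  have hC : 0 < 2 ^ r / (1 - (2 : ℝ) ^ (-r)) := div_pos (by positivity) (by linarith)
  rcases eq_or_ne M ∞ with rfl | hM
  · rw [ENNReal.top_rpow_of_pos (by positivity), ENNReal.mul_top (by simpa using hC)]
    exact le_top
  rcases eq_or_ne M 0 with rfl | hM0
  · simp only [not_lt_zero, if_false, tsum_zero, zero_le]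
  obtain ⟨b, hb, rfl⟩ : ∃ b : ℝ, 0 < b ∧ M = ENNReal.ofReal b :=
    ⟨M.toReal, ENNReal.toReal_pos hM0 hM, (ENNReal.ofReal_toReal hM).symm⟩
  obtain ⟨m0, h1, h2⟩ := exists_size hb
  have hcond : ∀ m : ℤ, ENNReal.ofReal (((2 : ℝ) ^ m) ^ 2 / 4) < ENNReal.ofReal b ↔ m ≤ m0 := by
    intro m
    rw [ENNReal.ofReal_lt_ofReal_iff hb]
    constructor
    · intro h3
      by_contra hc
      push Not at hc
      have h5 : (2 : ℝ) ^ (m0 + 1) ≤ 2 ^ m := zpow_le_zpow_right₀ (by norm_num) hc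
      rw [zpow_add_one₀ (by norm_num)] at h5
      have h6 : (0 : ℝ) < 2 ^ m0 := by positivity
      nlinarith
    · intro h3
      have h5 : (2 : ℝ) ^ m ≤ 2 ^ m0 := zpow_le_zpow_right₀ (by norm_num) h3
      have h6 : (0 : ℝ) < 2 ^ m := by positivity
      nlinarith
  simp only [hcond]
  -- reindex
  set φ : ℤ → ℝ≥0∞ := fun m => if m ≤ m0 then ENNReal.ofReal (((2 : ℝ) ^ m) ^ r) else 0 with hφ
  have hinj : Function.Injective fun i : ℕ => m0 - (i : ℤ) := by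
    intro i j hij
    have : (i : ℤ) = j := by
      simp only at hij
      linarith
    exact_mod_cast this
  have hsup : Function.support φ ⊆ range fun i : ℕ => m0 - (i : ℤ) := by
    intro m hm
    have : m ≤ m0 := by
      by_contra hc
      exact hm (by simp only [hφ, if_neg hc])
    exact ⟨(m0 - m).toNat, by
      simp only
      rw [Int.toNat_of_nonneg (by omega)]
      ring⟩
  rw [← hinj.tsum_eq hsup]
  have h3 : ∀ i : ℕ, φ (m0 - (i : ℤ)) =
      ENNReal.ofReal (((2 : ℝ) ^ m0) ^ r) * ENNReal.ofReal ((2 : ℝ) ^ (-r)) ^ i := by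
    intro i
    simp only [hφ, if_pos (show m0 - (i : ℤ) ≤ m0 by omega)]
    rw [← ENNReal.ofReal_pow (by positivity), ← ENNReal.ofReal_mul (by positivity)]
    congr 1
    rw [zpow_sub₀ (by norm_num), Real.div_rpow (by positivity) (by positivity), zpow_natCast,
      div_eq_mul_inv]
    congr 1
    rw [← Real.rpow_natCast 2 i, ← Real.rpow_mul (by norm_num), ← Real.rpow_neg (by norm_num),
      ← Real.rpow_natCast _ i, ← Real.rpow_mul (by norm_num)]
    congr 1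
    ring
  simp only [h3]
  rw [ENNReal.tsum_mul_left, ENNReal.tsum_geometric]
  have h4 : (1 - ENNReal.ofReal ((2 : ℝ) ^ (-r)))⁻¹ =
      ENNReal.ofReal ((1 - (2 : ℝ) ^ (-r))⁻¹) := by
    rw [ENNReal.ofReal_inv_of_pos (by linarith), ENNReal.ofReal_sub _ (by positivity),
      ENNReal.ofReal_one]
  rw [h4, ENNReal.ofReal_rpow_of_pos hb, ← ENNReal.ofReal_mul (by positivity),
    ← ENNReal.ofReal_mul hC.le]
  refine ENNReal.ofReal_le_ofReal ?_
  have h5 : ((2 : ℝ) ^ m0) ^ r ≤ 2 ^ r * b ^ (r / 2) := by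
    have h6 : (2 : ℝ) ^ m0 ≤ 2 * b ^ ((1 : ℝ) / 2) := by
      have h7 : (2 : ℝ) ^ m0 / 2 ≤ Real.sqrt b := by
        refine Real.le_sqrt_of_sq_le ?_
        rw [div_pow]
        norm_num
        linarith
      rw [← Real.sqrt_eq_rpow]
      linarith
    refine (Real.rpow_le_rpow (by positivity) h6 hr.le).trans (le_of_eq ?_)
    rw [Real.mul_rpow (by norm_num) (by positivity), ← Real.rpow_mul hb.le]
    congr 2
    ring
  calc ((2 : ℝ) ^ m0) ^ r * (1 - (2 : ℝ) ^ (-r))⁻¹ ≤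
      (2 ^ r * b ^ (r / 2)) * (1 - (2 : ℝ) ^ (-r))⁻¹ :=
        mul_le_mul_of_nonneg_right h5 (inv_nonneg.2 (by linarith))
    _ = _ := by rw [div_eq_mul_inv]; ring

/-- Hoelder for `r ≤ 1` on a set -/
theorem hold_set {r : ℝ} (hr0 : 0 ≤ r) (hr1 : r ≤ 1) {φ : ℝ → ℝ≥0∞} (hφ : Measurable φ) (D : Set ℝ) :
    ∫⁻ x in D, φ x ^ r ≤ (∫⁻ x in D, φ x) ^ r * volume D ^ (1 - r) := by
  have h := ENNReal.lintegral_prod_norm_pow_le (μ := volume.restrict D)
    (Finset.univ : Finset (Fin 2)) (f := ![φ, fun _ => 1]) (p := ![r, 1 - r])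
    (fun i _ => by fin_cases i <;> simp [hφ.aemeasurable]) (by simp)
    (fun i _ => by fin_cases i <;> simp [hr0, hr1])
  simp only [Fin.prod_univ_two, Matrix.cons_val_zero, Matrix.cons_val_one, ENNReal.one_rpow,
    mul_one] at h
  simpa using h

/-- subadditivity of the power `r ≤ 1` -/
theorem rpow_sum_le {ι : Type*} (s : Finset ι) (a : ι → ℝ≥0∞) {r : ℝ} (hr0 : 0 < r) (hr1 : r ≤ 1) :
    (∑ i ∈ s, a i) ^ r ≤ ∑ i ∈ s, a i ^ r := by
  classical
  induction s using Finset.induction_on with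
  | empty => simp [ENNReal.zero_rpow_of_pos hr0]
  | insert i s hi ih =>
    rw [Finset.sum_insert hi, Finset.sum_insert hi]
    exact (ENNReal.rpow_add_le_add_rpow _ _ hr0.le hr1).trans (add_le_add le_rfl ih)

end

end Vale.Agent.P141.H530
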