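import Vale.Agent.P141.H530.Lem

/-!
# P141, exponents `r < 1`: dyadic sizes and geometric sums, exponent `q`
-/

namespace Vale.Agent.P141.H530

open MeasureTheory Set Filter Topology
open scoped ENNReal

noncomputable section

theorem zq (q : ℝ) (m : ℤ) : ((2 : ℝ) ^ m) ^ q = ((2 : ℝ) ^ q) ^ m := by
  rw [← Real.rpow_intCast, ← Real.rpow_mul (by norm_num), ← Real.rpow_intCast,
    ← Real.rpow_mul (by norm_num), mul_comm]

theorem one_lt_two_rpow {q : ℝ} (hq : 0 < q) : (1 : ℝ) < 2 ^ q :=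
  Real.one_lt_rpow (by norm_num) hq

theorem size_iff {q : ℝ} (hq : 0 < q) {m n : ℤ} : ((2 : ℝ) ^ m) ^ q / 2 ^ q < ((2 : ℝ) ^ n) ^ q ↔
    m ≤ n := by
  rw [zq, zq, div_eq_mul_inv, ← zpow_sub_one₀ (by positivity)]
  rw [zpow_lt_zpow_iff_right₀ (one_lt_two_rpow hq)]
  omega

/-- the dyadic size -/
theorem exists_sizeQ {q : ℝ} (hq : 0 < q) {b : ℝ} (hb : 0 < b) :
    ∃ m : ℤ, ((2 : ℝ) ^ m) ^ q / 2 ^ q < b ∧ b ≤ ((2 : ℝ) ^ m) ^ q := by
  obtain ⟨n, h1, h2⟩ := exists_mem_Ioc_zpow hb (one_lt_two_rpow hq)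
  refine ⟨n + 1, ?_, ?_⟩
  · rw [zq, zpow_add_one₀ (by positivity), mul_div_cancel_right₀ _ (by positivity)]
    exact h1
  · rw [zq]
    exact h2

theorem size_uniqueQ {q : ℝ} (hq : 0 < q) {b : ℝ} {m n : ℤ}
    (h1 : ((2 : ℝ) ^ m) ^ q / 2 ^ q < b) (h2 : b ≤ ((2 : ℝ) ^ m) ^ q)
    (h3 : ((2 : ℝ) ^ n) ^ q / 2 ^ q < b) (h4 : b ≤ ((2 : ℝ) ^ n) ^ q) : m = n :=
  le_antisymm ((size_iff hq).1 (h1.trans_le h4)) ((size_iff hq).1 (h3.trans_le h2))

/-- sum over the dyadic sizes below `M` -/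
theorem geoQ {q r : ℝ} (hq : 0 < q) (hr : 0 < r) (M : ℝ≥0∞) :
    ∑' m : ℤ, (if ENNReal.ofReal (((2 : ℝ) ^ m) ^ q / 2 ^ q) < M then
      ENNReal.ofReal (((2 : ℝ) ^ m) ^ r) else 0) ≤
      ENNReal.ofReal (2 ^ r / (1 - (2 : ℝ) ^ (-r))) * M ^ (r / q) := by
  have h2r : (2 : ℝ) ^ (-r) < 1 := Real.rpow_lt_one_of_one_lt_of_neg (by norm_num) (by linarith)
  have hC : 0 < 2 ^ r / (1 - (2 : ℝ) ^ (-r)) := div_pos (by positivity) (by linarith)
  rcases eq_or_ne M ∞ with rfl | hM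
  · rw [ENNReal.top_rpow_of_pos (by positivity), ENNReal.mul_top (by simpa using hC)]
    exact le_top
  rcases eq_or_ne M 0 with rfl | hM0
  · simp only [not_lt_zero, if_false, tsum_zero, zero_le]
  obtain ⟨b, hb, rfl⟩ : ∃ b : ℝ, 0 < b ∧ M = ENNReal.ofReal b :=
    ⟨M.toReal, ENNReal.toReal_pos hM0 hM, (ENNReal.ofReal_toReal hM).symm⟩
  obtain ⟨m0, h1, h2⟩ := exists_sizeQ hq hb
  have hcond : ∀ m : ℤ, ENNReal.ofReal (((2 : ℝ) ^ m) ^ q / 2 ^ q) < ENNReal.ofReal b ↔ m ≤ m0 := by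
    intro m
    rw [ENNReal.ofReal_lt_ofReal_iff hb]
    constructor
    · intro h3
      exact (size_iff hq).1 (h3.trans_le h2)
    · intro h3
      refine lt_of_le_of_lt ?_ h1
      refine div_le_div_of_nonneg_right ?_ (by positivity)
      refine Real.rpow_le_rpow (by positivity) ?_ hq.le
      exact zpow_le_zpow_right₀ (by norm_num) h3
  simp only [hcond]
  -- reindex
  set φ : ℤ → ℝ≥0∞ := fun m => if m ≤ m0 then ENNReal.ofReal (((2 : ℝ) ^ m) ^ r) else 0 with hφ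
  have hinj : Function.Injective fun i : ℕ => m0 - (i : ℤ) := by
    intro i j hij
    have : (i : ℤ) = j := by
      simp only at hij
      linarith
    exact_mod_cast this
  have hsup : Function.support φ ⊆ range fun i : ℕ => m0 - (i : ℤ) := by
    intro m hm
    have : m ≤ m0 := by
      by_contra hc
      exact hm (by simp only [hφ, if_neg hc])
    exact ⟨(m0 - m).toNat, by
      simp only
      rw [Int.toNat_of_nonneg (by omega)]
      ring⟩
  rw [← hinj.tsum_eq hsup]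
  have h3 : ∀ i : ℕ, φ (m0 - (i : ℤ)) =
      ENNReal.ofReal (((2 : ℝ) ^ m0) ^ r) * ENNReal.ofReal ((2 : ℝ) ^ (-r)) ^ i := by
    intro i
    simp only [hφ, if_pos (show m0 - (i : ℤ) ≤ m0 by omega)]
    rw [← ENNReal.ofReal_pow (by positivity), ← ENNReal.ofReal_mul (by positivity)]
    congr 1
    rw [zpow_sub₀ (by norm_num), Real.div_rpow (by positivity) (by positivity), zpow_natCast,
      div_eq_mul_inv]
    congr 1
    rw [← Real.rpow_natCast 2 i, ← Real.rpow_mul (by norm_num), ← Real.rpow_neg (by norm_num),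
      ← Real.rpow_natCast _ i, ← Real.rpow_mul (by norm_num)]
    congr 1
    ring
  simp only [h3]
  rw [ENNReal.tsum_mul_left, ENNReal.tsum_geometric]
  have h4 : (1 - ENNReal.ofReal ((2 : ℝ) ^ (-r)))⁻¹ =
      ENNReal.ofReal ((1 - (2 : ℝ) ^ (-r))⁻¹) := by
    rw [ENNReal.ofReal_inv_of_pos (by linarith), ENNReal.ofReal_sub _ (by positivity),
      ENNReal.ofReal_one]
  rw [h4, ENNReal.ofReal_rpow_of_pos hb, ← ENNReal.ofReal_mul (by positivity),
    ← ENNReal.ofReal_mul hC.le]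
  refine ENNReal.ofReal_le_ofReal ?_
  have h5 : ((2 : ℝ) ^ m0) ^ r ≤ 2 ^ r * b ^ (r / q) := by
    have h6 : (2 : ℝ) ^ m0 ≤ 2 * b ^ ((1 : ℝ) / q) := by
      have h7 : ((2 : ℝ) ^ m0 / 2) ^ q ≤ b := by
        rw [Real.div_rpow (by positivity) (by norm_num)]
        exact h1.le
      have h8 := Real.rpow_le_rpow (by positivity) h7 (by positivity : 0 ≤ 1 / q)
      rw [← Real.rpow_mul (by positivity), mul_one_div_cancel hq.ne', Real.rpow_one] at h8
      linarith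
    refine (Real.rpow_le_rpow (by positivity) h6 hr.le).trans (le_of_eq ?_)
    rw [Real.mul_rpow (by norm_num) (by positivity), ← Real.rpow_mul hb.le]
    congr 2
    ring
  calc ((2 : ℝ) ^ m0) ^ r * (1 - (2 : ℝ) ^ (-r))⁻¹ ≤
      (2 ^ r * b ^ (r / q)) * (1 - (2 : ℝ) ^ (-r))⁻¹ :=
        mul_le_mul_of_nonneg_right h5 (inv_nonneg.2 (by linarith))
    _ = _ := by rw [div_eq_mul_inv]; ring

end

end Vale.Agent.P141.H530
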