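import Vale.Agent.P141.H530.Sum
import Vale.Agent.P141.PL.H620.Real

/-!
# P141, exponents `r < 1`: the limit of the mesh
-/

namespace Vale.Agent.P141.H530

open Finset MeasureTheory Filter Topology
open scoped ENNReal
open Vale.Agent.P141.PL.H620
open Vale.Agent.P141.H347 (Root2)

noncomputable section

theorem df_mvt {G g : ℝ → ℝ} (h : ∀ y, HasDerivAt G (g y) y) (s : ℝ) :
    ∃ ξ, s ≤ ξ ∧ ξ ≤ s + 1 ∧ df G s = g ξ := by
  obtain ⟨c, hc, h1⟩ := exists_hasDerivAt_eq_slope G g (show s < s + 1 by linarith)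
    (fun x _ => (h x).continuousAt.continuousWithinAt) fun x _ => h x
  refine ⟨c, hc.1.le, hc.2.le, ?_⟩
  rw [h1, df, add_sub_cancel_left, div_one]

theorem df4 {w : ℝ → ℝ} (hw : Continuous w) (s : ℝ) :
    ∃ ξ, s ≤ ξ ∧ ξ ≤ s + 4 ∧ df (df (df (df (V4 w)))) s = w ξ := by
  have c1 := prim_cont hw
  have c2 := prim_cont c1
  have c3 := prim_cont c2
  have d1 := fun y => prim_hasDeriv hw y
  have d2 := fun y => prim_hasDeriv c1 y
  have d3 := fun y => prim_hasDeriv c2 y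
  have d4 : ∀ y, HasDerivAt (V4 w) (prim (prim (prim w)) y) y := fun y => prim_hasDeriv c3 y
  obtain ⟨a, a1, a2, a3⟩ := df_mvt (df_deriv (df_deriv (df_deriv d4))) s
  obtain ⟨b, b1, b2, b3⟩ := df_mvt (df_deriv (df_deriv d3)) a
  obtain ⟨c, e1, e2, e3⟩ := df_mvt (df_deriv d2) b
  obtain ⟨d, g1, g2, g3⟩ := df_mvt d1 c
  exact ⟨d, by linarith, by linarith, by rw [a3, b3, e3, g3]⟩

theorem card_pts (k : ℕ) : (pts k).card = 16 ^ k := by
  unfold pts
  rw [Fintype.card_piFinset]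
  simp only [card_range, prod_const, card_univ, Fintype.card_fin]
  rw [← pow_mul, mul_comm, pow_mul]
  norm_num

theorem abs_sg (k i : ℕ) : |sg k i| = 1 := by
  unfold sg; split_ifs <;> simp

/-- the sampled single scale form is close to the exact one -/
theorem Sk_near {f : Fin 4 → ℝ → ℝ} {x : ℝ} (hw : Continuous (wx f x)) (o : ℤ) {h : ℝ} (hh : 0 < h)
    {k : ℕ} (hk : 1 ≤ k) {δ : ℝ} (hδ : ∀ a b, |a - b| ≤ 4 * h → |wx f x a - wx f x b| ≤ δ)
    [∀ X, Decidable ((fun _ : ℝ => True) X)] :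
    |Sk f o h k (fun _ => True) x - Ac o (V4 (wx f x)) (h * 2 ^ k)| ≤ δ := by
  set w := wx f x with hwdef
  set ω : ℝ → ℝ := fun s => 1 * w (h * s) with hω
  have hωc : Continuous ω := by
    simp only [hω]; fun_prop
  have e1 : Ac o (V4 w) (h * 2 ^ k) = ((16 : ℝ) ^ k)⁻¹ * ∑ y ∈ pts k, (∏ i, sg k (y i)) *
      df (df (df (df (V4 ω)))) (2 ^ k * ((o : ℝ) - 2) + ∑ i, (y i : ℝ)) := by
    rw [box_sum hk, d2_four, hω, V4_scale w 1 hh.ne', Ac_scale _ _ _ hh.ne' (by positivity), one_mul,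
      mul_comm h]
  have e2 : Sk f o h k (fun _ => True) x = ((16 : ℝ) ^ k)⁻¹ * ∑ y ∈ pts k, (∏ i, sg k (y i)) *
      ω (2 ^ k * ((o : ℝ) - 2) + ∑ i, (y i : ℝ)) := by
    unfold Sk
    congr 1
    refine sum_congr rfl fun y _ => ?_
    rw [if_pos trivial]
    simp only [hω, one_mul, uu]
    push_cast
    rfl
  rw [e1, e2, ← mul_sub, ← sum_sub_distrib, abs_mul, abs_of_pos (by positivity)]
  have h1 : ∀ y ∈ pts k, |(∏ i, sg k (y i)) * ω (2 ^ k * ((o : ℝ) - 2) + ∑ i, (y i : ℝ)) -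
      (∏ i, sg k (y i)) * df (df (df (df (V4 ω)))) (2 ^ k * ((o : ℝ) - 2) + ∑ i, (y i : ℝ))| ≤
      δ := by
    intro y _
    rw [← mul_sub, abs_mul, abs_prod]
    simp only [abs_sg, prod_const_one, one_mul]
    obtain ⟨ξ, h1, h2, h3⟩ := df4 hωc (2 ^ k * ((o : ℝ) - 2) + ∑ i, (y i : ℝ))
    rw [h3]
    simp only [hω, one_mul]
    refine hδ _ _ ?_
    rw [← mul_sub, abs_mul, abs_of_pos hh, mul_comm 4 h]
    refine mul_le_mul_of_nonneg_left ?_ hh.le
    rw [abs_le]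
    constructor <;> linarith
  have h2 := (abs_sum_le_sum_abs _ _).trans (sum_le_sum h1)
  rw [sum_const, card_pts, nsmul_eq_mul] at h2
  push_cast at h2
  rw [inv_mul_le_iff₀ (by positivity)]
  exact h2

/-- Riemann sums -/
theorem riemann {ψ : ℝ → ℝ} (hψ : ContinuousOn ψ (Set.Icc 1 2)) :
    Tendsto (fun M : ℕ => ∑ i ∈ range (M + 1), ((M : ℝ) + 1)⁻¹ * ψ (1 + i / (M + 1))) atTop
      (𝓝 (∫ t in (1 : ℝ)..2, ψ t)) := by
  rw [Metric.tendsto_atTop]
  intro δ hδ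
  have huc := isCompact_Icc.uniformContinuousOn_of_continuous hψ
  obtain ⟨η, hη, hη2⟩ := Metric.uniformContinuousOn_iff.1 huc (δ / 2) (by linarith)
  obtain ⟨M0, hM0⟩ := exists_nat_gt (1 / η)
  refine ⟨M0, fun M hM => ?_⟩
  have hMp : (0 : ℝ) < (M : ℝ) + 1 := by positivity
  have hMη : ((M : ℝ) + 1)⁻¹ < η := by
    rw [inv_lt_comm₀ hMp hη, ← one_div]
    have : (M0 : ℝ) ≤ M := by exact_mod_cast hM
    linarith
  have hpt : ∀ i : ℕ, i ≤ M + 1 → (1 : ℝ) + i / (M + 1) ∈ Set.Icc (1 : ℝ) 2 := by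
    intro i hi
    have h1 : (i : ℝ) ≤ M + 1 := by exact_mod_cast hi
    have h2 : (i : ℝ) / (M + 1) ≤ 1 := (div_le_one hMp).2 h1
    constructor
    · have : 0 ≤ (i : ℝ) / (M + 1) := by positivity
      linarith
    · linarith
  have hint : ∀ i < M + 1, IntervalIntegrable ψ volume (1 + (i : ℝ) / (M + 1))
      (1 + ((i + 1 : ℕ) : ℝ) / (M + 1)) := by
    intro i hi
    refine (hψ.mono ?_).intervalIntegrable
    exact Set.uIcc_subset_Icc (hpt i hi.le) (hpt (i + 1) hi)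
  have h1 := intervalIntegral.sum_integral_adjacent_intervals (μ := volume) (f := ψ)
    (a := fun i : ℕ => 1 + (i : ℝ) / (M + 1)) (n := M + 1) hint
  have e0 : (1 : ℝ) + ((0 : ℕ) : ℝ) / (M + 1) = 1 := by simp
  have e1 : (1 : ℝ) + ((M + 1 : ℕ) : ℝ) / (M + 1) = 2 := by
    push_cast
    rw [div_self hMp.ne']
    norm_num
  simp only [e0, e1] at h1
  rw [Real.dist_eq, ← h1, ← sum_sub_distrib]
  have h2 : ∀ i ∈ range (M + 1), |((M : ℝ) + 1)⁻¹ * ψ (1 + i / (M + 1)) -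
      ∫ t in (1 + (i : ℝ) / (M + 1))..(1 + ((i + 1 : ℕ) : ℝ) / (M + 1)), ψ t| ≤
      δ / 2 * ((M : ℝ) + 1)⁻¹ := by
    intro i hi
    have hi' := mem_range.1 hi
    have e2 : (1 + ((i + 1 : ℕ) : ℝ) / (M + 1)) - (1 + (i : ℝ) / (M + 1)) = ((M : ℝ) + 1)⁻¹ := by
      push_cast
      field_simp
      ring
    have e3 : ((M : ℝ) + 1)⁻¹ * ψ (1 + i / (M + 1)) =
        ∫ _ in (1 + (i : ℝ) / (M + 1))..(1 + ((i + 1 : ℕ) : ℝ) / (M + 1)),
          ψ (1 + i / (M + 1)) := by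
      rw [intervalIntegral.integral_const, e2, smul_eq_mul]
    rw [e3, ← intervalIntegral.integral_sub intervalIntegrable_const (hint i hi')]
    have hle : (1 + (i : ℝ) / (M + 1)) ≤ (1 + ((i + 1 : ℕ) : ℝ) / (M + 1)) := by
      have : 0 < ((M : ℝ) + 1)⁻¹ := by positivity
      linarith
    have h3 := intervalIntegral.norm_integral_le_of_norm_le_const
      (a := 1 + (i : ℝ) / (M + 1)) (b := 1 + ((i + 1 : ℕ) : ℝ) / (M + 1))
      (f := fun t => ψ (1 + i / (M + 1)) - ψ t) (C := δ / 2) (fun t ht => by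
        rw [Set.uIoc_of_le hle] at ht
        have ht1 : t ∈ Set.Icc (1 : ℝ) 2 := ⟨(hpt i hi'.le).1.trans ht.1.le,
          ht.2.trans (hpt (i + 1) hi').2⟩
        have h4 := hη2 _ (hpt i hi'.le) t ht1 (by
          rw [Real.dist_eq, abs_sub_comm, abs_of_nonneg (by linarith [ht.1])]
          linarith [ht.2])
        rw [← dist_eq_norm]
        exact h4.le)
    rw [e2, abs_of_pos (by positivity : 0 < ((M : ℝ) + 1)⁻¹)] at h3
    exact h3
  have h3 := (abs_sum_le_sum_abs _ _).trans (sum_le_sum h2)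
  rw [sum_const, card_range, nsmul_eq_mul] at h3
  have e4 : ((M + 1 : ℕ) : ℝ) * (δ / 2 * ((M : ℝ) + 1)⁻¹) = δ / 2 := by
    push_cast
    field_simp
  rw [e4] at h3
  linarith

end

end Vale.Agent.P141.H530
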