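import Vale.Agent.P141.H530.SumQ
import Vale.Agent.P141.H530.Lim

/-!
# P141, exponents `r < 1`: the limit of the mesh, `lim_bound`
-/

namespace Vale.Agent.P141.H530

open Finset MeasureTheory Filter Topology
open scoped ENNReal
open Vale.Agent.P141.PL.H620

noncomputable section

/-- Fatou for the quasi-norm -/
theorem fatou_bound {F : ℕ → ℝ → ℝ} {G : ℝ → ℝ} {r : ℝ} {B : ℝ≥0∞} (hr : 0 < r)
    (hF : ∀ m, Measurable (F m)) (hlim : ∀ x, Tendsto (fun m => F m x) atTop (𝓝 (G x)))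
    (hB : ∀ᶠ m in atTop, ∫⁻ x, ‖F m x‖ₑ ^ r ≤ B) : Measurable G ∧ ∫⁻ x, ‖G x‖ₑ ^ r ≤ B := by
  refine ⟨measurable_of_tendsto_metrizable hF (tendsto_pi_nhds.2 hlim), ?_⟩
  have h1 : ∀ x, ‖G x‖ₑ ^ r = liminf (fun m => ‖F m x‖ₑ ^ r) atTop := by
    intro x
    have h2 : Tendsto (fun m => ‖F m x‖ₑ ^ r) atTop (𝓝 (‖G x‖ₑ ^ r)) :=
      ((ENNReal.continuous_rpow_const (y := r)).tendsto _).comp
        ((continuous_enorm.tendsto _).comp (hlim x))
    exact h2.liminf_eq.symm
  simp only [h1]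
  refine (lintegral_liminf_le fun m => (hF m).enorm.pow_const r).trans ?_
  refine (liminf_le_of_frequently_le' (hB.frequently))

/-- the average over the scales `ε < t < 2^n ε` -/
def AvT (o : ℤ) (f : Fin 4 → ℝ → ℝ) (ε : ℝ) (n : ℕ) (x : ℝ) : ℝ :=
  ∫ t in ε..(2 ^ n * ε), Ac o (V4 (wx f x)) t / t

theorem Ac_contOn {w : ℝ → ℝ} (hw : Continuous w) (o : ℝ) {a : ℝ} (ha : 0 < a) :
    ContinuousOn (fun τ => Ac o (V4 w) (a * τ) / τ) (Set.Icc 1 2) := by
  have hV := V4_cont hw
  have h : ContinuousOn (fun τ => (V4 w ((a * τ) * (o - 2)) - 8 * V4 w ((a * τ) * (o - 3 / 2))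
      + 28 * V4 w ((a * τ) * (o - 1)) - 56 * V4 w ((a * τ) * (o - 1 / 2))
      + 70 * V4 w ((a * τ) * o) - 56 * V4 w ((a * τ) * (o + 1 / 2)) + 28 * V4 w ((a * τ) * (o + 1))
      - 8 * V4 w ((a * τ) * (o + 3 / 2)) + V4 w ((a * τ) * (o + 2))) / (a * τ) ^ 4 / τ)
      (Set.Icc 1 2) := by
    refine ContinuousOn.div (ContinuousOn.div ?_ ?_ fun τ hτ => ?_) continuousOn_id fun τ hτ => ?_
    · exact Continuous.continuousOn (by fun_prop)
    · exact Continuous.continuousOn (by fun_prop)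
    · have : 0 < τ := by linarith [hτ.1]
      positivity
    · have : 0 < τ := by linarith [hτ.1]
      exact this.ne'
  exact h

/-- the average over the scales as an integral over `[1, 2]` -/
theorem AvT_eq {f : Fin 4 → ℝ → ℝ} {x : ℝ} (hw : Continuous (wx f x)) (o : ℤ) {ε : ℝ} (hε : 0 < ε)
    (n : ℕ) : AvT o f ε n x =
      ∫ τ in (1 : ℝ)..2, ∑ k ∈ range n, Ac o (V4 (wx f x)) (2 ^ k * ε * τ) / τ := by
  set w := wx f x with hwdef
  have hi : ∀ {a b : ℝ}, 0 < a → 0 < b →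
      IntervalIntegrable (fun t => Ac o (V4 w) t / t) volume a b := fun ha hb =>
    Ac_cont hw o ha hb
  have h3 : AvT o f ε n x = ∑ j ∈ range n,
      ∫ t in (2 ^ j * ε)..(2 ^ (j + 1) * ε), Ac o (V4 w) t / t := by
    unfold AvT
    rw [intervalIntegral.sum_integral_adjacent_intervals (a := fun j => (2 : ℝ) ^ j * ε)
      (fun k _ => hi (by positivity) (by positivity))]
    norm_num
    rfl
  have h4 : ∀ j : ℕ, (∫ t in (2 ^ j * ε)..(2 ^ (j + 1) * ε), Ac o (V4 w) t / t)
      = ∫ τ in (1 : ℝ)..2, Ac o (V4 w) (2 ^ j * ε * τ) / τ := by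
    intro j
    have hc : (0 : ℝ) < 2 ^ j * ε := by positivity
    have h := intervalIntegral.integral_comp_mul_left (a := 1) (b := 2)
      (fun t => Ac o (V4 w) t / t) hc.ne'
    have e : (∫ τ in (1 : ℝ)..2, Ac o (V4 w) (2 ^ j * ε * τ) / τ)
        = ∫ τ in (1 : ℝ)..2, (2 ^ j * ε) * (Ac o (V4 w) (2 ^ j * ε * τ) / (2 ^ j * ε * τ)) := by
      refine intervalIntegral.integral_congr fun t ht => ?_
      rw [Set.uIcc_of_le (by norm_num)] at ht
      have ht0 : 0 < t := by linarith [ht.1]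
      show Ac o (V4 w) (2 ^ j * ε * t) / t = _
      field_simp
    rw [e, intervalIntegral.integral_const_mul, h, smul_eq_mul, ← mul_assoc,
      mul_inv_cancel₀ hc.ne', one_mul, mul_one]
    congr 1
    ring
  rw [h3, sum_congr rfl fun j _ => h4 j]
  rw [intervalIntegral.integral_finsetSum]
  intro j _
  refine (ContinuousOn.intervalIntegrable ?_)
  rw [Set.uIcc_of_le (by norm_num)]
  exact Ac_contOn hw o (by positivity)

/-- **the bound for the averages over the scales** -/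
theorem lim_bound {q : ℝ} (hq : 0 < q) {f G : Fin 4 → ℝ → ℝ} {H₀ : ℝ} (hH₀ : 0 < H₀)
    (hd : DomQ q f G H₀) (hf : ∀ j, Continuous (f j)) {n : ℕ} {P : ℝ} (hP : 0 ≤ P)
    (H : RootS q (n + 1) P) {o : ℤ} (ho : o = 1 ∨ o = -1) {ε : ℝ} (hε : 0 < ε)
    {r : ℝ} (hr0 : 0 < r) (hr1 : r ≤ 1) :
    Measurable (AvT o f ε n) ∧ ∫⁻ x, ‖AvT o f ε n x‖ₑ ^ r ≤ ENNReal.ofReal (P ^ r) *
      (ENNReal.ofReal (2 ^ r / (1 - (2 : ℝ) ^ (-r))) ^ 3 *
      ∫⁻ x, MM (G 1) x ^ (r / q) * MM (G 2) x ^ (r / q) * MM (G 3) x ^ (r / q)) := by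
  have hwc : ∀ x, Continuous (wx f x) := fun x => by
    unfold wx
    have h1 := hf 1
    have h2 := hf 2
    have h3 := hf 3
    fun_prop
  set B : ℝ≥0∞ := ENNReal.ofReal (P ^ r) *
      (ENNReal.ofReal (2 ^ r / (1 - (2 : ℝ) ^ (-r))) ^ 3 *
      ∫⁻ x, MM (G 1) x ^ (r / q) * MM (G 2) x ^ (r / q) * MM (G 3) x ^ (r / q)) with hB
  -- uniform continuity of the product
  have huc : ∀ x, UniformContinuous (wx f x) := by
    intro x
    obtain ⟨M, hM⟩ := hd.fs 1
    have hs : HasCompactSupport (wx f x) := by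
      refine HasCompactSupport.intro (isCompact_Icc (a := x - |M|) (b := x + |M|)) fun u hu => ?_
      unfold wx
      rw [hM (x - u), zero_mul, zero_mul]
      rw [Set.mem_Icc, not_and_or, not_le, not_le] at hu
      have h1 := le_abs_self M
      rw [lt_abs]
      rcases hu with h | h
      · left; linarith
      · right; linarith
    exact hs.uniformContinuous_of_continuous (hwc x)
  -- the meshes
  set τ : ℕ → ℕ → ℝ := fun M i => 1 + i / (M + 1) with hτ
  have hτ1 : ∀ M i, 1 ≤ τ M i := fun M i => by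
    simp only [hτ]
    have : (0 : ℝ) ≤ i / ((M : ℝ) + 1) := by positivity
    linarith
  set c : ℕ → ℕ → ℝ := fun M i => ((M : ℝ) + 1)⁻¹ * (τ M i)⁻¹ with hc
  have hτ0 : ∀ M i, 0 < τ M i := fun M i => by linarith [hτ1 M i]
  have hc0 : ∀ M i, 0 ≤ c M i := fun M i => by
    have := hτ0 M i
    simp only [hc]
    positivity
  have hcs : ∀ M, ∑ i ∈ range (M + 1), |c M i| ≤ 1 := by
    intro M
    have h1 : ∀ i ∈ range (M + 1), |c M i| ≤ ((M : ℝ) + 1)⁻¹ := by
      intro i _
      rw [abs_of_nonneg (hc0 M i)]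
      simp only [hc]
      have h2 : (τ M i)⁻¹ ≤ 1 := inv_le_one_of_one_le₀ (hτ1 M i)
      have h3 : (0 : ℝ) ≤ ((M : ℝ) + 1)⁻¹ := by positivity
      nlinarith
    refine (sum_le_sum h1).trans (le_of_eq ?_)
    rw [sum_const, card_range, nsmul_eq_mul]
    push_cast
    exact mul_inv_cancel₀ (by positivity)
  set hm : ℕ → ℕ → ℕ → ℝ := fun M m i => ε * τ M i / 2 ^ (m + 1) with hhm
  have hm0 : ∀ M m i, 0 < hm M m i := fun M m i => by
    have := hτ0 M i
    simp only [hhm]
    positivity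
  set Fm : ℕ → ℕ → ℝ → ℝ := fun M m => FF f o (range (M + 1)) (c M) (hm M m) (m + 1) (m + n)
    (fun _ _ _ => True) with hFm
  set gM : ℕ → ℝ → ℝ := fun M x => ∑ i ∈ range (M + 1), ((M : ℝ) + 1)⁻¹ *
    ∑ k ∈ range n, Ac o (V4 (wx f x)) (2 ^ k * ε * (1 + i / (M + 1))) / (1 + i / (M + 1)) with hgM
  -- first limit
  have hlim1 : ∀ M x, Tendsto (fun m => Fm M m x) atTop (𝓝 (gM M x)) := by
    intro M x
    have e1 : ∀ m, Fm M m x = ∑ i ∈ range (M + 1), c M i * ∑ k ∈ range n,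
        Sk f o (hm M m i) (m + 1 + k) (fun _ => True) x := by
      intro m
      simp only [hFm, FF, Fop]
      refine sum_congr rfl fun i _ => ?_
      congr 1
      have e2 : Icc (m + 1) (m + n) = (range n).image fun k => m + 1 + k := by
        ext k
        simp only [mem_Icc, mem_image, mem_range]
        constructor
        · rintro ⟨h1, h2⟩
          exact ⟨k - (m + 1), by omega, by omega⟩
        · rintro ⟨k', h1, rfl⟩
          omega
      rw [e2, sum_image fun a _ b _ hab => by simpa using hab]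
      refine sum_congr rfl fun k _ => ?_
      congr
    simp only [e1]
    have e3 : gM M x = ∑ i ∈ range (M + 1), c M i * ∑ k ∈ range n,
        Ac o (V4 (wx f x)) (2 ^ k * ε * τ M i) := by
      simp only [hgM, hc, hτ]
      refine sum_congr rfl fun i _ => ?_
      rw [mul_assoc, ← sum_div, div_eq_inv_mul]
    rw [e3]
    refine tendsto_finsetSum _ fun i _ => Tendsto.const_mul _ (tendsto_finsetSum _ fun k _ => ?_)
    rw [Metric.tendsto_atTop]
    intro δ hδ
    obtain ⟨η, hη, hη2⟩ := Metric.uniformContinuous_iff.1 (huc x) (δ / 2) (by linarith)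
    obtain ⟨m0, hm0'⟩ := exists_nat_gt (4 * (ε * τ M i) / η)
    refine ⟨m0, fun m hmm => ?_⟩
    have hτi := hτ0 M i
    have h1 : 4 * hm M m i < η := by
      simp only [hhm]
      rw [← mul_div_assoc, div_lt_iff₀ (by positivity)]
      rw [div_lt_iff₀ hη] at hm0'
      have h2 : (m0 : ℝ) ≤ 2 ^ (m + 1) := by
        have h3 : m0 ≤ 2 ^ (m + 1) := by
          have h4 : m + 1 < 2 ^ (m + 1) := Nat.lt_two_pow_self
          omega
        exact_mod_cast h3
      nlinarith
    have h2 := Sk_near (f := f) (x := x) (hwc x) o (hm0 M m i) (k := m + 1 + k) (by omega)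
      (δ := δ / 2) (fun a b hab => by
        have h3 := hη2 (a := a) (b := b) (by
          rw [Real.dist_eq]
          exact hab.trans_lt h1)
        rw [Real.dist_eq] at h3
        exact h3.le)
    have e4 : hm M m i * 2 ^ (m + 1 + k) = 2 ^ k * ε * τ M i := by
      simp only [hhm]
      have e5 : (2 : ℝ) ^ (m + 1 + k) = 2 ^ (m + 1) * 2 ^ k := pow_add _ _ _
      have e6 : (2 : ℝ) ^ (m + 1) ≠ 0 := by positivity
      rw [e5]
      generalize (2 : ℝ) ^ (m + 1) = t at *
      field_simp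
    rw [e4] at h2
    rw [Real.dist_eq]
    refine lt_of_le_of_lt ?_ (by linarith : δ / 2 < δ)
    convert h2
  -- the bound for the meshes
  have hFmm : ∀ M m, Measurable (Fm M m) := fun M m =>
    FF_meas hd.fm o _ _ _ _ _ fun i _ k => by simp
  have hbd : ∀ M, ∀ᶠ m in atTop, ∫⁻ x, ‖Fm M m x‖ₑ ^ r ≤ B := by
    intro M
    obtain ⟨m0, hm0'⟩ := exists_nat_gt (2 * ε / H₀)
    filter_upwards [eventually_ge_atTop m0] with m hmm
    have hle : ∀ i ∈ range (M + 1), hm M m i ≤ H₀ := by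
      intro i hi
      have hi' : (i : ℝ) ≤ M + 1 := by
        have := (mem_range.1 hi).le
        exact_mod_cast this
      have h1 : τ M i ≤ 2 := by
        simp only [hτ]
        have : (i : ℝ) / (M + 1) ≤ 1 := (div_le_one (by positivity)).2 hi'
        linarith
      simp only [hhm]
      rw [div_le_iff₀ (by positivity)]
      rw [div_lt_iff₀ hH₀] at hm0'
      have h2 : (m0 : ℝ) ≤ 2 ^ (m + 1) := by
        have h3 : m0 ≤ 2 ^ (m + 1) := by
          have h4 : m + 1 < 2 ^ (m + 1) := Nat.lt_two_pow_self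
          omega
        exact_mod_cast h3
      have h3 := mul_le_mul_of_nonneg_left h1 hε.le
      have h4 := mul_le_mul_of_nonneg_left h2 hH₀.le
      linarith
    have h1 := level_sumQ hq hd hP H ho (range (M + 1)) (c M) (hm M m) (fun i _ => hm0 M m i) hle
      (k0 := m + 1) (by omega) (m + n) (by omega) hr0 hr1
    refine h1.trans ?_
    rw [hB]
    refine mul_le_mul_left (ENNReal.ofReal_le_ofReal ?_) _
    refine Real.rpow_le_rpow (mul_nonneg (sum_nonneg fun _ _ => abs_nonneg _) hP) ?_ hr0.le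
    have := mul_le_mul_of_nonneg_right (hcs M) hP
    linarith
  have hg : ∀ M, Measurable (gM M) ∧ ∫⁻ x, ‖gM M x‖ₑ ^ r ≤ B := fun M =>
    fatou_bound hr0 (hFmm M) (hlim1 M) (hbd M)
  -- second limit
  refine fatou_bound hr0 (fun M => (hg M).1) (fun x => ?_) (Eventually.of_forall fun M => (hg M).2)
  rw [AvT_eq (hwc x) o hε n]
  have hψ : ContinuousOn (fun τ => ∑ k ∈ range n, Ac o (V4 (wx f x)) (2 ^ k * ε * τ) / τ)
      (Set.Icc 1 2) :=
    continuousOn_finsetSum _ fun k _ => Ac_contOn (hwc x) o (by positivity)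
  exact riemann hψ

end

end Vale.Agent.P141.H530
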