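import Vale.Agent.P141.H530.Single
import Vale.Agent.P141.H530.Lim2
import Vale.Agent.P141.H530.HLs

/-!
# P141, exponents `r < 1`: the bound for real continuous functions with compact support
-/

namespace Vale.Agent.P141.H530

open MeasureTheory Filter Topology
open scoped ENNReal
open Vale.Agent.P141.PL.H620

noncomputable section

/-- the dominating function -/
def Gd (q δ : ℝ) (f : ℝ → ℝ) (x : ℝ) : ℝ := (|f x| + δ * (1 + x ^ 2)⁻¹) ^ q

section
variable {f : ℝ → ℝ} (hf : Continuous f) (hs : HasCompactSupport f) {q δ : ℝ} (hq : 1 ≤ q)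
  (hδ : 0 < δ)
include hf hs hq hδ

omit hf hs hq in
theorem base_pos (x : ℝ) : 0 < |f x| + δ * (1 + x ^ 2)⁻¹ := by positivity

omit hs hδ in
theorem Gd_cont : Continuous (Gd q δ f) := by
  unfold Gd
  refine Continuous.rpow_const ?_ fun x => Or.inr (by linarith)
  refine (hf.abs).add (continuous_const.mul (Continuous.inv₀ (by fun_prop) fun x => ?_))
  positivity

omit hq in
theorem base_bd : ∃ B : ℝ, 0 < B ∧ ∀ x, |f x| + δ * (1 + x ^ 2)⁻¹ ≤ B := by
  obtain ⟨C, hC⟩ := hs.exists_bound_of_continuous hf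
  refine ⟨|C| + δ, by positivity, fun x => ?_⟩
  have h1 := hC x
  rw [Real.norm_eq_abs] at h1
  have h2 : (1 + x ^ 2)⁻¹ ≤ 1 := inv_le_one_of_one_le₀ (by nlinarith [sq_nonneg x])
  have h3 := le_abs_self C
  nlinarith

theorem Gd_bd : ∃ b : ℝ, ∀ x, Gd q δ f x ≤ b := by
  obtain ⟨B, hB, h⟩ := base_bd hf hs hδ
  exact ⟨B ^ q, fun x => Real.rpow_le_rpow (base_pos hδ x).le (h x) (by linarith)⟩

theorem Gd_int : Integrable (Gd q δ f) := by
  obtain ⟨B, hB, h⟩ := base_bd hf hs hδ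
  have h1 : Integrable fun x => |f x| + δ * (1 + x ^ 2)⁻¹ :=
    (hf.integrable_of_hasCompactSupport hs).abs.add (integrable_inv_one_add_sq.const_mul δ)
  refine (h1.const_mul (B ^ (q - 1))).mono' (Gd_cont hf hq).aestronglyMeasurable
    (ae_of_all _ fun x => ?_)
  unfold Gd
  have h2 := base_pos (f := f) hδ x
  rw [Real.norm_eq_abs, abs_of_nonneg (Real.rpow_nonneg h2.le _)]
  have h3 : (|f x| + δ * (1 + x ^ 2)⁻¹) ^ q =
      (|f x| + δ * (1 + x ^ 2)⁻¹) ^ (q - 1) * (|f x| + δ * (1 + x ^ 2)⁻¹) := by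
    rw [← Real.rpow_add_one h2.ne', sub_add_cancel]
  rw [h3]
  exact mul_le_mul_of_nonneg_right (Real.rpow_le_rpow h2.le (h x) (by linarith)) h2.le

theorem Gd_bm (t X : ℝ) (ht : 0 < t) : 0 < Bm (Gd q δ f) t X := by
  refine lt_of_lt_of_le ?_ (mv_le_Bm (Gd q δ f) t X)
  rw [ENNReal.ofReal_pos]
  unfold mv
  refine mul_pos (by positivity) ?_
  refine intervalIntegral.intervalIntegral_pos_of_pos
    (Gd_int hf hs hq hδ).intervalIntegrable (fun x => ?_) (by linarith)
  exact Real.rpow_pos_of_pos (base_pos hδ x) q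

omit hq in
/-- the domination at a small scale -/
theorem dom_H (hq : 0 < q) : ∃ H : ℝ, 0 < H ∧ ∀ H' : ℝ, H' ≤ H → ∀ x y : ℝ, |y - x| ≤ H' →
    |f x| ^ q ≤ Gd q δ f y := by
  obtain ⟨M, hM⟩ := (hs.isCompact).isBounded.subset_closedBall (0 : ℝ)
  have hM' : ∀ x, f x ≠ 0 → |x| ≤ |M| := by
    intro x hx
    have h1 : x ∈ tsupport f := subset_tsupport _ hx
    have h2 := hM h1
    rw [Metric.mem_closedBall, Real.dist_eq, sub_zero] at h2
    exact h2.trans (le_abs_self M)
  have huc := hs.uniformContinuous_of_continuous hf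
  set η : ℝ := δ * (1 + (|M| + 1) ^ 2)⁻¹ with hη
  have hη0 : 0 < η := by positivity
  obtain ⟨H, hH, hH2⟩ := Metric.uniformContinuous_iff.1 huc η hη0
  refine ⟨min 1 (H / 2), by positivity, fun H' hH' x y hxy => ?_⟩
  unfold Gd
  by_cases hx : f x = 0
  · rw [hx, abs_zero, Real.zero_rpow hq.ne']
    exact Real.rpow_nonneg (base_pos hδ y).le _
  refine Real.rpow_le_rpow (abs_nonneg _) ?_ hq.le
  have h1 : |y - x| ≤ 1 := (hxy.trans hH').trans (min_le_left _ _)
  have h2 : |y - x| < H := by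
    have := (hxy.trans hH').trans (min_le_right _ _)
    linarith
  have h3 := hH2 (a := y) (b := x) (by rwa [Real.dist_eq])
  rw [Real.dist_eq] at h3
  have h4 : |y| ≤ |M| + 1 := by
    have h5 := hM' x hx
    have h6 := abs_add_le (y - x) x
    rw [sub_add_cancel] at h6
    linarith
  have h5 : η ≤ δ * (1 + y ^ 2)⁻¹ := by
    rw [hη]
    refine mul_le_mul_of_nonneg_left ?_ hδ.le
    refine inv_anti₀ (by positivity) ?_
    have : y ^ 2 ≤ (|M| + 1) ^ 2 := by
      rw [← sq_abs y]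
      exact pow_le_pow_left₀ (abs_nonneg _) h4 2
    linarith
  have h6 := abs_sub_abs_le_abs_sub (f x) (f y)
  rw [abs_sub_comm] at h6
  linarith

end

theorem domQ_of {f : Fin 4 → ℝ → ℝ} (hf : ∀ j, Continuous (f j)) (hs : ∀ j, HasCompactSupport (f j))
    {q δ : ℝ} (hq : 1 ≤ q) (hδ : 0 < δ) :
    ∃ H : ℝ, 0 < H ∧ DomQ q f (fun j => Gd q δ (f j)) H := by
  have h1 : ∀ j, ∃ H : ℝ, 0 < H ∧ ∀ H' : ℝ, H' ≤ H → ∀ x y : ℝ, |y - x| ≤ H' →
    |f j x| ^ q ≤ Gd q δ (f j) y := fun j => dom_H (hf j) (hs j) hδ (by linarith)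
  choose H hH hH2 using h1
  set H₀ : ℝ := min (min (H 0) (H 1)) (min (H 2) (H 3)) with hH₀
  have hle : ∀ j, H₀ ≤ H j := by
    intro j
    fin_cases j
    · exact (min_le_left _ _).trans (min_le_left _ _)
    · exact (min_le_left _ _).trans (min_le_right _ _)
    · exact (min_le_right _ _).trans (min_le_left _ _)
    · exact (min_le_right _ _).trans (min_le_right _ _)
  refine ⟨H₀, ?_, ?_⟩
  · exact lt_min (lt_min (hH 0) (hH 1)) (lt_min (hH 2) (hH 3))
  have hb : ∀ j, ∃ b : ℝ, ∀ x, Gd q δ (f j) x ≤ b := fun j => Gd_bd (hf j) (hs j) hq hδ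
  choose b hb using hb
  exact
    { fm := fun j => (hf j).measurable
      fs := fun j => by
        obtain ⟨M, hM⟩ := (hs j).isCompact.isBounded.subset_closedBall (0 : ℝ)
        refine ⟨M, fun x hx => ?_⟩
        by_contra h
        have h1 := hM (subset_tsupport _ h)
        rw [Metric.mem_closedBall, Real.dist_eq, sub_zero] at h1
        linarith
      gm := fun j => (Gd_cont (hf j) hq).measurable
      gi := fun j => Gd_int (hf j) (hs j) hq hδ
      g0 := fun j x => Real.rpow_nonneg (base_pos hδ x).le _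
      gb := ⟨∑ j, |b j|, fun j x => (hb j x).trans ((le_abs_self _).trans
        (Finset.single_le_sum (f := fun j => |b j|) (fun i _ => abs_nonneg _) (Finset.mem_univ j)))⟩
      gp := fun j t X ht => Gd_bm (hf j) (hs j) hq hδ t X ht
      dom := fun j x y hxy => hH2 j H₀ (hle j) x y hxy }

end

end Vale.Agent.P141.H530
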