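import Vale.Agent.P141.H530.RealB

/-!
# P141, exponents `r < 1`: the truncated integral against the maximal functions
-/

namespace Vale.Agent.P141.H530

open MeasureTheory Filter Topology
open scoped ENNReal
open Vale.Agent.P141.PL.H620

noncomputable section

/-- the truncated integral -/
def TR (f : Fin 4 → ℝ → ℝ) (ε R : ℝ) (x : ℝ) : ℝ :=
  ∫ u in ε..R, (wx f x u - wx f x (-u)) / u

theorem TR_pt {f : Fin 4 → ℝ → ℝ} {x : ℝ} (hw : Continuous (wx f x)) {ε R : ℝ} (hε : 0 < ε) {n : ℕ}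
    (h1 : 2 ^ n * ε ≤ R) (h2 : R ≤ 2 * (2 ^ n * ε)) :
    |TR f ε R x| ≤ 24 * |AvT 1 f ε n x| + 24 * |AvT (-1) f ε n x| +
      90000 * (II (wx f x) (3 * ε) / (3 * ε)) +
      90003 * (II (wx f x) (3 * (2 ^ n * ε)) / (3 * (2 ^ n * ε))) := by
  set w := wx f x with hwdef
  set R' : ℝ := 2 ^ n * ε with hR'
  have hR'0 : 0 < R' := by positivity
  have hc := cal_pt hw hε hR'0
  have hi : ∀ {a b : ℝ}, 0 < a → 0 < b →
      IntervalIntegrable (fun u => (w u - w (-u)) / u) volume a b := by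
    intro a b ha hb
    refine ContinuousOn.intervalIntegrable ?_
    refine ContinuousOn.div (Continuous.continuousOn (by fun_prop)) continuousOn_id fun u hu => ?_
    have := (Set.mem_uIcc.1 hu)
    rcases this with h | h
    · exact (ha.trans_le h.1).ne'
    · exact (hb.trans_le h.1).ne'
  have hsplit := intervalIntegral.integral_add_adjacent_intervals (hi hε hR'0) (hi hR'0 (hR'0.trans_le h1))
  have hII := II_nonneg w (by positivity : 0 ≤ 3 * R')
  -- the last piece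
  have hlast : |∫ u in R'..R, (w u - w (-u)) / u| ≤ II w (3 * R') / R' := by
    have hia : ∀ a b : ℝ, IntervalIntegrable (fun u => |w u|) volume a b := fun a b =>
      (hw.abs).intervalIntegrable _ _
    have hia2 : ∀ a b : ℝ, IntervalIntegrable (fun u => |w (-u)|) volume a b := fun a b =>
      ((by fun_prop : Continuous fun u => |w (-u)|)).intervalIntegrable _ _
    have e1 : ‖∫ u in R'..R, (w u - w (-u)) / u‖ ≤ ∫ u in R'..R, (|w u| + |w (-u)|) / R' := by
      refine intervalIntegral.norm_integral_le_of_norm_le h1 ?_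
        (((hia _ _).add (hia2 _ _)).div_const _)
      refine ae_of_all _ fun u hu => ?_
      have hu0 : 0 < u := hR'0.trans hu.1
      rw [Real.norm_eq_abs, abs_div, abs_of_pos hu0]
      have h3 : |w u - w (-u)| ≤ |w u| + |w (-u)| := abs_sub _ _
      exact div_le_div₀ (by positivity) h3 hR'0 hu.1.le
    rw [Real.norm_eq_abs, intervalIntegral.integral_div,
      intervalIntegral.integral_add (hia _ _) (hia2 _ _),
      intervalIntegral.integral_comp_neg (fun u => |w u|)] at e1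
    refine e1.trans ?_
    refine div_le_div_of_nonneg_right ?_ hR'0.le
    unfold II
    have e2 := intervalIntegral.integral_add_adjacent_intervals (hia (-(3 * R')) (-R))
      (hia (-R) (-R'))
    have e3 := intervalIntegral.integral_add_adjacent_intervals (hia (-(3 * R')) (-R'))
      (hia (-R') R')
    have e4 := intervalIntegral.integral_add_adjacent_intervals (hia (-(3 * R')) R')
      (hia R' R)
    have e5 := intervalIntegral.integral_add_adjacent_intervals (hia (-(3 * R')) R)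
      (hia R (3 * R'))
    have k1 : 0 ≤ ∫ u in (-(3 * R'))..(-R), |w u| :=
      intervalIntegral.integral_nonneg (by linarith) fun _ _ => abs_nonneg _
    have k2 : 0 ≤ ∫ u in (-R')..R', |w u| :=
      intervalIntegral.integral_nonneg (by linarith) fun _ _ => abs_nonneg _
    have k3 : 0 ≤ ∫ u in R..(3 * R'), |w u| :=
      intervalIntegral.integral_nonneg (by linarith) fun _ _ => abs_nonneg _
    linarith
  have eA : ∀ o : ℤ, AvT o f ε n x = ∫ t in ε..R', Ac o (V4 w) t / t := fun o => rfl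
  have eA1 := eA 1
  have eA2 := eA (-1)
  push_cast at eA1 eA2
  rw [← eA1, ← eA2] at hc
  have d1 : II w (3 * ε) / ε = 3 * (II w (3 * ε) / (3 * ε)) := by field_simp
  have d2 : II w (3 * R') / R' = 3 * (II w (3 * R') / (3 * R')) := by field_simp
  rw [d1, d2] at hc
  rw [d2] at hlast
  unfold TR
  rw [← hwdef, ← hsplit]
  have a1 := abs_le.1 hc
  have a2 := abs_le.1 hlast
  have b1 := neg_abs_le (AvT 1 f ε n x)
  have b2 := le_abs_self (AvT 1 f ε n x)
  have b3 := neg_abs_le (AvT (-1) f ε n x)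
  have b4 := le_abs_self (AvT (-1) f ε n x)
  rw [abs_le]
  constructor <;> linarith [a1.1, a1.2, a2.1, a2.2]

theorem TR_pt' {f : Fin 4 → ℝ → ℝ} {x : ℝ} (hw : Continuous (wx f x)) {ε R : ℝ} (hε : 0 < ε) {n : ℕ}
    (h1 : 2 ^ n * ε ≤ R) (h2 : R ≤ 2 * (2 ^ n * ε)) {r : ℝ} (hr0 : 0 < r) (hr1 : r ≤ 1) :
    ‖TR f ε R x‖ₑ ^ r ≤ 24 * ‖AvT 1 f ε n x‖ₑ ^ r + 24 * ‖AvT (-1) f ε n x‖ₑ ^ r +
      90000 * ENNReal.ofReal (II (wx f x) (3 * ε) / (3 * ε)) ^ r +
      90003 * ENNReal.ofReal (II (wx f x) (3 * (2 ^ n * ε)) / (3 * (2 ^ n * ε))) ^ r := by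
  have h := TR_pt hw hε h1 h2
  have i1 : 0 ≤ II (wx f x) (3 * ε) / (3 * ε) := div_nonneg (II_nonneg _ (by positivity)) (by positivity)
  have i2 : 0 ≤ II (wx f x) (3 * (2 ^ n * ε)) / (3 * (2 ^ n * ε)) :=
    div_nonneg (II_nonneg _ (by positivity)) (by positivity)
  have h3 : ‖TR f ε R x‖ₑ ≤ ENNReal.ofReal 24 * ‖AvT 1 f ε n x‖ₑ +
      ENNReal.ofReal 24 * ‖AvT (-1) f ε n x‖ₑ +
      ENNReal.ofReal 90000 * ENNReal.ofReal (II (wx f x) (3 * ε) / (3 * ε)) +
      ENNReal.ofReal 90003 * ENNReal.ofReal (II (wx f x) (3 * (2 ^ n * ε)) / (3 * (2 ^ n * ε))) := by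
    rw [← ofReal_norm, ← ofReal_norm, ← ofReal_norm, Real.norm_eq_abs, Real.norm_eq_abs,
      Real.norm_eq_abs, ← ENNReal.ofReal_mul (by norm_num), ← ENNReal.ofReal_mul (by norm_num),
      ← ENNReal.ofReal_mul (by norm_num), ← ENNReal.ofReal_mul (by norm_num),
      ← ENNReal.ofReal_add (by positivity) (by positivity),
      ← ENNReal.ofReal_add (by positivity) (by positivity),
      ← ENNReal.ofReal_add (by positivity) (by positivity)]
    exact ENNReal.ofReal_le_ofReal h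
  have c : ∀ (k : ℝ) (a : ℝ≥0∞), 1 ≤ k → (ENNReal.ofReal k * a) ^ r ≤ ENNReal.ofReal k * a ^ r := by
    intro k a hk
    rw [ENNReal.mul_rpow_of_nonneg _ _ hr0.le]
    refine mul_le_mul_left ?_ _
    rw [ENNReal.ofReal_rpow_of_nonneg (by linarith) hr0.le]
    refine ENNReal.ofReal_le_ofReal ?_
    calc k ^ r ≤ k ^ (1 : ℝ) := Real.rpow_le_rpow_of_exponent_le hk hr1
      _ = k := Real.rpow_one k
  refine (ENNReal.rpow_le_rpow h3 hr0.le).trans ?_
  refine (ENNReal.rpow_add_le_add_rpow _ _ hr0.le hr1).trans (add_le_add ?_ ?_)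
  · refine (ENNReal.rpow_add_le_add_rpow _ _ hr0.le hr1).trans (add_le_add ?_ ?_)
    · refine (ENNReal.rpow_add_le_add_rpow _ _ hr0.le hr1).trans (add_le_add ?_ ?_)
      · simpa using c 24 ‖AvT 1 f ε n x‖ₑ (by norm_num)
      · simpa using c 24 ‖AvT (-1) f ε n x‖ₑ (by norm_num)
    · simpa using c 90000 _ (by norm_num)
  · simpa using c 90003 _ (by norm_num)

/-- the truncated integral against the maximal functions -/
theorem TR_MM {q : ℝ} (hq : 2 ≤ q) {f G : Fin 4 → ℝ → ℝ} {H₀ : ℝ} (hH₀ : 0 < H₀)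
    (hd : DomQ q f G H₀) (hf : ∀ j, Continuous (f j)) {n : ℕ} {P : ℝ} (hP : 0 ≤ P)
    (H : RootS q (n + 1) P) {ε R : ℝ} (hε : 0 < ε) (h1 : 2 ^ n * ε ≤ R) (h2 : R ≤ 2 * (2 ^ n * ε))
    {r : ℝ} (hr0 : 0 < r) (hr1 : r ≤ 1) :
    ∫⁻ x, ‖TR f ε R x‖ₑ ^ r ≤ (48 * (ENNReal.ofReal (P ^ r) *
      ENNReal.ofReal (2 ^ r / (1 - (2 : ℝ) ^ (-r))) ^ 3) + 61741029) *
      ∫⁻ x, MM (G 1) x ^ (r / q) * MM (G 2) x ^ (r / q) * MM (G 3) x ^ (r / q) := by
  have hwc : ∀ x, Continuous (wx f x) := fun x => by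
    unfold wx
    have h1 := hf 1
    have h2 := hf 2
    have h3 := hf 3
    fun_prop
  have hq0 : 0 < q := by linarith
  obtain ⟨m1, b1⟩ := lim_bound hq0 hH₀ hd hf hP H (Or.inl rfl : (1 : ℤ) = 1 ∨ (1 : ℤ) = -1) hε hr0 hr1
  obtain ⟨m2, b2⟩ := lim_bound hq0 hH₀ hd hf hP H (Or.inr rfl : (-1 : ℤ) = 1 ∨ (-1 : ℤ) = -1) hε hr0 hr1
  have b3 := single hq hd hH₀.le hf (by positivity : 0 < 3 * ε) hr0 hr1
  have b4 := single hq hd hH₀.le hf (by positivity : 0 < 3 * (2 ^ n * ε)) hr0 hr1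
  have m3 := II_meas hf (by positivity : 0 < 3 * ε)
  have m4 := II_meas hf (by positivity : 0 < 3 * (2 ^ n * ε))
  refine (lintegral_mono fun x => TR_pt' (hwc x) hε h1 h2 hr0 hr1).trans ?_
  have n1 : Measurable fun x => 24 * ‖AvT 1 f ε n x‖ₑ ^ r := (m1.enorm.pow_const _).const_mul _
  have n2 : Measurable fun x => 24 * ‖AvT (-1) f ε n x‖ₑ ^ r := (m2.enorm.pow_const _).const_mul _
  have n3 : Measurable fun x => 90000 * ENNReal.ofReal (II (wx f x) (3 * ε) / (3 * ε)) ^ r :=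
    (m3.pow_const _).const_mul _
  have n12 : Measurable fun x => 24 * ‖AvT 1 f ε n x‖ₑ ^ r + 24 * ‖AvT (-1) f ε n x‖ₑ ^ r :=
    n1.add n2
  have n123 : Measurable fun x => 24 * ‖AvT 1 f ε n x‖ₑ ^ r + 24 * ‖AvT (-1) f ε n x‖ₑ ^ r +
      90000 * ENNReal.ofReal (II (wx f x) (3 * ε) / (3 * ε)) ^ r := n12.add n3
  rw [lintegral_add_left n123, lintegral_add_left n12,
    lintegral_add_left n1, lintegral_const_mul _ (m1.enorm.pow_const _),
    lintegral_const_mul _ (m2.enorm.pow_const _), lintegral_const_mul _ (m3.pow_const _),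
    lintegral_const_mul _ (m4.pow_const _)]
  set N := ∫⁻ x, MM (G 1) x ^ (r / q) * MM (G 2) x ^ (r / q) * MM (G 3) x ^ (r / q) with hN
  set c := ENNReal.ofReal (2 ^ r / (1 - (2 : ℝ) ^ (-r))) with hc
  set p := ENNReal.ofReal (P ^ r) with hp
  calc _ ≤ 24 * (p * (c ^ 3 * N)) + 24 * (p * (c ^ 3 * N)) + 90000 * (343 * N) + 90003 * (343 * N) := by
        gcongr
    _ = (48 * (p * c ^ 3) + 61741029) * N := by ring

end

end Vale.Agent.P141.H530
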