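import Vale.Agent.P141.H530.RealC

/-!
# P141, exponents `r < 1`: the bound for real continuous functions with compact support
-/

namespace Vale.Agent.P141.H530

open MeasureTheory Filter Topology
open scoped ENNReal NNReal
open Vale.Agent.P141.PL.H620

noncomputable section

/-- the norm -/
def Nm (p : ℝ) (f : ℝ → ℝ) : ℝ≥0∞ := (∫⁻ x, ‖f x‖ₑ ^ p) ^ (1 / p)

/-- the weight -/
def hw (x : ℝ) : ℝ := (1 + x ^ 2)⁻¹

theorem hw_cont : Continuous hw := by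
  unfold hw
  exact Continuous.inv₀ (by fun_prop) fun x => by positivity

theorem Nm_hw {p : ℝ} (hp : 1 ≤ p) : Nm p hw ≠ ∞ := by
  unfold Nm
  refine ENNReal.rpow_ne_top_of_nonneg (by positivity) ?_
  have h1 : ∀ x, ‖hw x‖ₑ ^ p ≤ ‖hw x‖ₑ := by
    intro x
    have h2 : ‖hw x‖ₑ ≤ 1 := by
      rw [← ofReal_norm, Real.norm_eq_abs]
      unfold hw
      rw [abs_of_pos (by positivity)]
      refine ENNReal.ofReal_le_one.2 ?_
      exact inv_le_one_of_one_le₀ (by nlinarith [sq_nonneg x])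
    calc ‖hw x‖ₑ ^ p ≤ ‖hw x‖ₑ ^ (1 : ℝ) := ENNReal.rpow_le_rpow_of_exponent_ge h2 hp
      _ = ‖hw x‖ₑ := ENNReal.rpow_one _
  exact ((lintegral_mono h1).trans_lt integrable_inv_one_add_sq.hasFiniteIntegral).ne

theorem Nm_eq {p : ℝ} (hp : 0 < p) (f : ℝ → ℝ) : Nm p f = eLpNorm f (ENNReal.ofReal p) volume := by
  rw [eLpNorm_eq_lintegral_rpow_enorm_toReal (by simpa using hp) ENNReal.ofReal_ne_top,
    ENNReal.toReal_ofReal hp.le]
  rfl

theorem Gd_norm {q p δ : ℝ} (hq : 0 < q) (hp : 1 ≤ p) (hδ : 0 < δ) {f : ℝ → ℝ} (hf : Continuous f) :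
    (∫⁻ x, ENNReal.ofReal (Gd q δ f x ^ (p / q))) ^ (1 / p) ≤ Nm p f + ENNReal.ofReal δ * Nm p hw := by
  have hp0 : 0 < p := by linarith
  have e1 : ∀ x, ENNReal.ofReal (Gd q δ f x ^ (p / q)) =
      ((fun x => ‖f x‖ₑ) + fun x => ENNReal.ofReal δ * ‖hw x‖ₑ) x ^ p := by
    intro x
    have hb := base_pos (f := f) hδ x
    unfold Gd
    rw [← Real.rpow_mul hb.le, mul_div_cancel₀ _ hq.ne', Pi.add_apply, ← ofReal_norm, ← ofReal_norm,
      Real.norm_eq_abs, Real.norm_eq_abs, ← ENNReal.ofReal_mul hδ.le,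
      ← ENNReal.ofReal_add (abs_nonneg _) (by positivity),
      ENNReal.ofReal_rpow_of_nonneg (by positivity) hp0.le]
    unfold hw
    rw [abs_of_pos (by positivity : 0 < (1 + x ^ 2)⁻¹)]
  simp only [e1]
  refine (ENNReal.lintegral_Lp_add_le hf.measurable.enorm.aemeasurable
    (hw_cont.measurable.enorm.const_mul _).aemeasurable hp).trans ?_
  refine add_le_add le_rfl (le_of_eq ?_)
  simp only [ENNReal.mul_rpow_of_nonneg _ _ hp0.le]
  rw [lintegral_const_mul _ (hw_cont.measurable.enorm.pow_const _),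
    ENNReal.mul_rpow_of_nonneg _ _ (by positivity), ← ENNReal.rpow_mul, mul_one_div_cancel hp0.ne',
    ENNReal.rpow_one]
  rfl

/-- the limit `δ → 0` -/
theorem lim_delta {A C F1 F2 F3 K1 K2 K3 : ℝ≥0∞} (hC : C ≠ ∞) (hF1 : F1 ≠ ∞) (hF2 : F2 ≠ ∞)
    (hF3 : F3 ≠ ∞) (hK1 : K1 ≠ ∞) (hK2 : K2 ≠ ∞) (hK3 : K3 ≠ ∞) {r : ℝ} (hr : 0 < r)
    (h : ∀ δ : ℝ, 0 < δ → A ≤ C * ((F1 + ENNReal.ofReal δ * K1) ^ r *
      (F2 + ENNReal.ofReal δ * K2) ^ r * (F3 + ENNReal.ofReal δ * K3) ^ r)) :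
    A ≤ C * (F1 ^ r * F2 ^ r * F3 ^ r) := by
  lift C to ℝ≥0 using hC
  lift F1 to ℝ≥0 using hF1
  lift F2 to ℝ≥0 using hF2
  lift F3 to ℝ≥0 using hF3
  lift K1 to ℝ≥0 using hK1
  lift K2 to ℝ≥0 using hK2
  lift K3 to ℝ≥0 using hK3
  set ψ : ℝ → ℝ≥0 := fun δ => C * ((F1 + δ.toNNReal * K1) ^ r * (F2 + δ.toNNReal * K2) ^ r *
    (F3 + δ.toNNReal * K3) ^ r) with hψ
  have hψc : Continuous ψ := by
    have k := NNReal.continuous_rpow_const (y := r) hr.le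
    have c : ∀ F K : ℝ≥0, Continuous fun δ : ℝ => (F + δ.toNNReal * K) ^ r := fun F K =>
      k.comp (continuous_const.add (continuous_real_toNNReal.mul continuous_const))
    exact continuous_const.mul (((c F1 K1).mul (c F2 K2)).mul (c F3 K3))
  have h1 : ∀ δ : ℝ, 0 < δ → A ≤ (ψ δ : ℝ≥0∞) := by
    intro δ hδ
    refine (h δ hδ).trans (le_of_eq ?_)
    simp only [hψ, ENNReal.ofReal]
    push_cast [ENNReal.coe_rpow_of_nonneg _ hr.le]
    rfl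
  have h2 : Tendsto (fun δ : ℝ => (ψ δ : ℝ≥0∞)) (𝓝[>] 0) (𝓝 (ψ 0 : ℝ≥0∞)) :=
    ((ENNReal.continuous_coe.comp hψc).tendsto 0).mono_left nhdsWithin_le_nhds
  have h3 : A ≤ (ψ 0 : ℝ≥0∞) := ge_of_tendsto h2 (by
    filter_upwards [self_mem_nhdsWithin] with δ hδ using h1 δ hδ)
  refine h3.trans (le_of_eq ?_)
  simp only [hψ, Real.toNNReal_zero, zero_mul, add_zero]
  push_cast [ENNReal.coe_rpow_of_nonneg _ hr.le]
  rfl

/-- Hoelder for the maximal functions -/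
theorem MM_hold {q r p1 p2 p3 : ℝ} (hq : 0 < q) (h1 : 0 < p1) (h2 : 0 < p2) (h3 : 0 < p3)
    (hr0 : 0 < r) (hr : r / p1 + r / p2 + r / p3 = 1) {M1 M2 M3 : ℝ → ℝ≥0∞} (m1 : Measurable M1)
    (m2 : Measurable M2) (m3 : Measurable M3) :
    ∫⁻ x, M1 x ^ (r / q) * M2 x ^ (r / q) * M3 x ^ (r / q) ≤
      (∫⁻ x, M1 x ^ (p1 / q)) ^ (r / p1) * (∫⁻ x, M2 x ^ (p2 / q)) ^ (r / p2) *
        (∫⁻ x, M3 x ^ (p3 / q)) ^ (r / p3) := by
  have h := ENNReal.lintegral_prod_norm_pow_le (μ := volume) (Finset.univ : Finset (Fin 3))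
    (f := ![fun x => M1 x ^ (p1 / q), fun x => M2 x ^ (p2 / q), fun x => M3 x ^ (p3 / q)])
    (p := ![r / p1, r / p2, r / p3])
    (fun i _ => by
      fin_cases i
      · exact (m1.pow_const _).aemeasurable
      · exact (m2.pow_const _).aemeasurable
      · exact (m3.pow_const _).aemeasurable)
    (by simpa [Fin.sum_univ_three] using hr)
    (fun i _ => by
      fin_cases i
      · show 0 ≤ r / p1; positivity
      · show 0 ≤ r / p2; positivity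
      · show 0 ≤ r / p3; positivity)
  simp only [Fin.prod_univ_three, Matrix.cons_val_zero, Matrix.cons_val_one, Matrix.cons_val] at h
  have e : ∀ (p : ℝ) (a : ℝ≥0∞), 0 < p → (a ^ (p / q)) ^ (r / p) = a ^ (r / q) := by
    intro p a hp
    rw [← ENNReal.rpow_mul]
    congr 1
    field_simp
  simpa only [e p1 _ h1, e p2 _ h2, e p3 _ h3] using h

theorem MM_norm {q r p δ : ℝ} (hq : 1 ≤ q) (hp : q < p) (hr0 : 0 < r) (hδ : 0 < δ) {f : ℝ → ℝ}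
    (hf : Continuous f) (hs : HasCompactSupport f) :
    (∫⁻ x, MM (Gd q δ f) x ^ (p / q)) ^ (r / p) ≤
      ENNReal.ofReal (p / q * (8 * 2 ^ (p / q - 1) / (p / q - 1))) ^ (r / p) *
        (Nm p f + ENNReal.ofReal δ * Nm p hw) ^ r := by
  have hq0 : 0 < q := by linarith
  have hp0 : 0 < p := by linarith
  obtain ⟨b, hb⟩ := Gd_bd hf hs hq hδ
  have h1 := strong (q := p / q) ((one_lt_div hq0).2 hp) (Gd_cont hf hq).measurable
    (Gd_int hf hs hq hδ) (fun x => Real.rpow_nonneg (base_pos hδ x).le _) hb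
  refine (ENNReal.rpow_le_rpow h1 (by positivity)).trans ?_
  rw [ENNReal.mul_rpow_of_nonneg _ _ (by positivity)]
  refine mul_le_mul_right ?_ _
  have e : r / p = 1 / p * r := by ring
  rw [e, ENNReal.rpow_mul]
  exact ENNReal.rpow_le_rpow (Gd_norm hq0 (by linarith) hδ hf) hr0.le

/-- **the bound for real continuous functions with compact support** -/
theorem real_main {q r p1 p2 p3 : ℝ} (hq : 2 ≤ q) (h1 : q < p1) (h2 : q < p2) (h3 : q < p3)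
    (hr0 : 0 < r) (hr1 : r ≤ 1) (hr : r / p1 + r / p2 + r / p3 = 1) :
    ∃ C : ℝ≥0∞, C ≠ ∞ ∧ ∀ (n : ℕ) (P : ℝ), 0 ≤ P → RootS q (n + 1) P →
      ∀ f : Fin 4 → ℝ → ℝ, (∀ j, Continuous (f j)) → (∀ j, HasCompactSupport (f j)) →
      ∀ ε R : ℝ, 0 < ε → 2 ^ n * ε ≤ R → R ≤ 2 * (2 ^ n * ε) →
      ∫⁻ x, ‖TR f ε R x‖ₑ ^ r ≤ C * ENNReal.ofReal ((1 + P) ^ r) *
        (Nm p1 (f 1) ^ r * Nm p2 (f 2) ^ r * Nm p3 (f 3) ^ r) := by
  have hq0 : 0 < q := by linarith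
  have k1 : 0 < p1 := by linarith
  have k2 : 0 < p2 := by linarith
  have k3 : 0 < p3 := by linarith
  set c := ENNReal.ofReal (2 ^ r / (1 - (2 : ℝ) ^ (-r))) with hc
  set c1 := ENNReal.ofReal (p1 / q * (8 * 2 ^ (p1 / q - 1) / (p1 / q - 1))) ^ (r / p1) with hc1
  set c2 := ENNReal.ofReal (p2 / q * (8 * 2 ^ (p2 / q - 1) / (p2 / q - 1))) ^ (r / p2) with hc2
  set c3 := ENNReal.ofReal (p3 / q * (8 * 2 ^ (p3 / q - 1) / (p3 / q - 1))) ^ (r / p3) with hc3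
  have f1 : c1 ≠ ∞ := ENNReal.rpow_ne_top_of_nonneg (by positivity) ENNReal.ofReal_ne_top
  have f2 : c2 ≠ ∞ := ENNReal.rpow_ne_top_of_nonneg (by positivity) ENNReal.ofReal_ne_top
  have f3 : c3 ≠ ∞ := ENNReal.rpow_ne_top_of_nonneg (by positivity) ENNReal.ofReal_ne_top
  have f0 : 48 * c ^ 3 + 61741029 ≠ ∞ := by
    refine ENNReal.add_ne_top.2 ⟨ENNReal.mul_ne_top (by norm_num)
      (ENNReal.pow_ne_top ENNReal.ofReal_ne_top), by norm_num⟩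
  have fC : (48 * c ^ 3 + 61741029) * (c1 * c2 * c3) ≠ ∞ :=
    ENNReal.mul_ne_top f0 (ENNReal.mul_ne_top (ENNReal.mul_ne_top f1 f2) f3)
  refine ⟨(48 * c ^ 3 + 61741029) * (c1 * c2 * c3), fC, ?_⟩
  intro n P hP H f hf hs ε R hε hR1 hR2
  have nf : ∀ (p : ℝ) (j : Fin 4), 0 < p → Nm p (f j) ≠ ∞ := by
    intro p j hp
    rw [Nm_eq hp]
    exact ((hf j).memLp_of_hasCompactSupport (hs j)).eLpNorm_ne_top
  have hP1 : P ^ r ≤ (1 + P) ^ r := Real.rpow_le_rpow hP (by linarith) hr0.le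
  have hP2 : 1 ≤ (1 + P) ^ r := Real.one_le_rpow (by linarith) hr0.le
  refine lim_delta (r := r) (K1 := Nm p1 hw) (K2 := Nm p2 hw) (K3 := Nm p3 hw)
    (ENNReal.mul_ne_top fC ENNReal.ofReal_ne_top) (nf p1 1 k1) (nf p2 2 k2) (nf p3 3 k3)
    (Nm_hw (by linarith)) (Nm_hw (by linarith)) (Nm_hw (by linarith)) hr0 fun δ hδ => ?_
  obtain ⟨H₀, hH₀, hd⟩ := domQ_of hf hs (by linarith : (1 : ℝ) ≤ q) hδ
  have b1 := TR_MM hq hH₀ hd hf hP H hε hR1 hR2 hr0 hr1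
  have b2 := MM_hold hq0 k1 k2 k3 hr0 hr (MM_meas (hd.gi 1)) (MM_meas (hd.gi 2)) (MM_meas (hd.gi 3))
  have n1 := MM_norm (r := r) (p := p1) (by linarith : (1 : ℝ) ≤ q) h1 hr0 hδ (hf 1) (hs 1)
  have n2 := MM_norm (r := r) (p := p2) (by linarith : (1 : ℝ) ≤ q) h2 hr0 hδ (hf 2) (hs 2)
  have n3 := MM_norm (r := r) (p := p3) (by linarith : (1 : ℝ) ≤ q) h3 hr0 hδ (hf 3) (hs 3)
  rw [← hc1] at n1
  rw [← hc2] at n2
  rw [← hc3] at n3
  have b3 := b2.trans (mul_le_mul' (mul_le_mul' n1 n2) n3)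
  have b0 : 48 * (ENNReal.ofReal (P ^ r) * c ^ 3) + 61741029 ≤
      (48 * c ^ 3 + 61741029) * ENNReal.ofReal ((1 + P) ^ r) := by
    have e1 : ENNReal.ofReal (P ^ r) ≤ ENNReal.ofReal ((1 + P) ^ r) := ENNReal.ofReal_le_ofReal hP1
    have e2 : (1 : ℝ≥0∞) ≤ ENNReal.ofReal ((1 + P) ^ r) := ENNReal.one_le_ofReal.2 hP2
    calc 48 * (ENNReal.ofReal (P ^ r) * c ^ 3) + 61741029
        ≤ 48 * (ENNReal.ofReal ((1 + P) ^ r) * c ^ 3) + 61741029 * ENNReal.ofReal ((1 + P) ^ r) := by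
          refine add_le_add (mul_le_mul_right (mul_le_mul_left e1 _) _) ?_
          calc (61741029 : ℝ≥0∞) = 61741029 * 1 := (mul_one _).symm
            _ ≤ _ := mul_le_mul_right e2 _
      _ = _ := by ring
  refine b1.trans ((mul_le_mul' b0 b3).trans (le_of_eq ?_))
  ring

end

end Vale.Agent.P141.H530
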