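import Vale.Agent.P141.H530.Core
import Vale.Agent.P141.PL.H95.All
import Vale.Agent.P141.PL.H990.Fin

/-!
# P141, exponents `r < 1`: `RootS`, the root estimate above a lowest scale
-/

namespace Vale.Agent.P141.H530

open Finset
open Vale.Agent.P141.PL.H571 (W av av_nonneg card_W mem_cell card_cell single_scale sq_le_young
  mem_W RootTh)
open Vale.Agent.P141.PL.H620 (loc1 nn HH sg pts uu mo)
open Vale.Agent.P141.PL.H855 (wN Bel ediv_pow_add)
open Vale.Agent.P141.H337 (RootQ)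

noncomputable section

theorem core {q p : ℝ} (hq : 0 < q) (hqp : q < p) (hp : 2 ≤ p) : ∃ C : ℝ, 0 < C ∧
    ∀ (n : ℕ) (P : ℝ), 0 ≤ P → RootQ q n P → ∀ (s : ℕ) (g : Fin 4 → ℤ → ℝ),
      (∀ j, (Function.support (g j)).Finite) → ∀ o : ℤ, (o = 1 ∨ o = -1) → ∀ K ≤ n, ∀ V : ℤ,
      ∀ 𝒩 : Finset (ℕ × ℤ), (∀ N ∈ 𝒩, 1 ≤ N.1 ∧ N.1 ≤ K ∧ N.2 / 2 ^ (K - N.1) = V) →
      (∀ N ∈ 𝒩, ∀ k', N.1 ≤ k' → k' ≤ K → (k', N.2 / 2 ^ (k' - N.1)) ∈ 𝒩) →
      (∀ N ∈ 𝒩, ∀ j, ∑ y ∈ Ico (2 ^ (s + N.1) * (N.2 - 20)) (2 ^ (s + N.1) * (N.2 + 20)),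
        |g j y| ^ p ≤ 2 ^ (s + N.1 + 6)) →
      ∑ N ∈ 𝒩, |wN o g (s + N.1, N.2)| ≤ C * P * 2 ^ (s + K) := by
  obtain ⟨Cj, hCj, hjn⟩ := jn hq hqp hp
  refine ⟨32 * (896 ^ 2 * Cj), by positivity, ?_⟩
  intro n P hP hroot s g hg o ho K hK V 𝒩 hmem hcl hwin
  set A : ℕ → ℤ → Prop := fun k v => (k, v) ∈ 𝒩 with hA
  set M : ℤ → Fin 4 → ℤ → ℝ := fun x j c => RA q (fun y => g j (2 ^ s * y + c)) A K 0 x with hM
  set E : ℝ := 896 * 2 ^ s with hE
  have h1 : ∑ N ∈ 𝒩, |wN o g (s + N.1, N.2)| ≤ ((8 : ℝ) ^ s)⁻¹ * ∑ z ∈ pts s,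
      ∑ N ∈ 𝒩, |wN o (sub s z g) N| := by
    rw [sum_comm, mul_sum]
    refine sum_le_sum fun N hN => ?_
    rw [wN_split (hmem N hN).1, abs_mul, abs_of_pos (by positivity : (0 : ℝ) < ((8 : ℝ) ^ s)⁻¹)]
    exact mul_le_mul_of_nonneg_left (abs_sum_le_sum_abs _ _) (by positivity)
  have h2 : ∀ z ∈ pts s, ∑ N ∈ 𝒩, |wN o (sub s z g) N| ≤
      32 * P * ∑ x ∈ Ico (2 ^ K * V) (2 ^ K * (V + 1)), ∏ j, M x j (cz z j) := fun z _ =>
    stopA hq hP hroot (sub_supp hg) ho hK hmem hcl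
  have h3 : ∑ z ∈ pts s, ∑ N ∈ 𝒩, |wN o (sub s z g) N| ≤
      32 * P * ∑ x ∈ Ico (2 ^ K * V) (2 ^ K * (V + 1)),
        (4 ^ s * ((1 / 4) * ∑ j, (∑ c ∈ Cs s, M x j c ^ 2) ^ 2)) := by
    refine (sum_le_sum h2).trans ?_
    rw [← mul_sum, sum_comm]
    refine mul_le_mul_of_nonneg_left (sum_le_sum fun x _ => ?_) (by positivity)
    exact cs_samples s fun j c => RA_nonneg _ _ _ _ _ _
  have hcard : ((Cs s).card : ℝ) ≤ E := by
    unfold Cs
    rw [Int.card_Icc]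
    have h4 : (6 * 2 ^ s + 1 - -(6 * 2 ^ s) : ℤ).toNat = 12 * 2 ^ s + 1 := by
      have : (6 * 2 ^ s + 1 - -(6 * 2 ^ s) : ℤ) = ((12 * 2 ^ s + 1 : ℕ) : ℤ) := by
        push_cast; ring
      rw [this, Int.toNat_natCast]
    rw [h4]
    push_cast
    have : (1 : ℝ) ≤ 2 ^ s := one_le_pow₀ (by norm_num)
    rw [hE]
    linarith
  have h4 : ∀ j : Fin 4, ∑ x ∈ Ico (2 ^ K * V) (2 ^ K * (V + 1)), (∑ c ∈ Cs s, M x j c ^ 2) ^ 2 ≤
      Cj * E ^ 2 * 2 ^ K := by
    intro j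
    refine hjn (Cs s) (fun c y => g j (2 ^ s * y + c)) A K V E hcard
      (fun k v hN => (hmem _ hN).2) (fun k v k' hN h5 h6 => hcl _ hN k' h5 h6) fun k v hN => ?_
    have h5 := res_sum (G := fun y => |g j y| ^ p) (fun y => Real.rpow_nonneg (abs_nonneg _) _) s
      (hmem _ hN).1 v
    refine h5.trans ((mul_le_mul_of_nonneg_left (hwin _ hN j) (by norm_num)).trans (le_of_eq ?_))
    simp only [hE]
    rw [pow_add, pow_add]
    ring
  have h5 : ∑ x ∈ Ico (2 ^ K * V) (2 ^ K * (V + 1)),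
      (4 ^ s * ((1 / 4) * ∑ j, (∑ c ∈ Cs s, M x j c ^ 2) ^ 2)) ≤ 4 ^ s * (Cj * E ^ 2 * 2 ^ K) := by
    rw [← mul_sum, ← mul_sum, sum_comm]
    refine mul_le_mul_of_nonneg_left ?_ (by positivity)
    have h6 := sum_le_sum fun j (_ : j ∈ (univ : Finset (Fin 4))) => h4 j
    rw [sum_const, card_univ, Fintype.card_fin, nsmul_eq_mul] at h6
    push_cast at h6
    linarith
  refine h1.trans ((mul_le_mul_of_nonneg_left (h3.trans
    (mul_le_mul_of_nonneg_left h5 (by positivity))) (by positivity)).trans (le_of_eq ?_))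
  rw [hE, pow_add, mul_pow]
  have e8 : (8 : ℝ) ^ s = 2 ^ s * 4 ^ s := by rw [← mul_pow]; norm_num
  have e4 : ((2 : ℝ) ^ s) ^ 2 = 2 ^ s * 2 ^ s := sq _
  rw [e8, e4]
  field_simp

/-- the root estimate for the nodes of scale `> s`; the constant counts the scales above `s` -/
def RootS (q : ℝ) (n : ℕ) (P : ℝ) : Prop :=
  ∀ (s : ℕ) (f : Fin 4 → ℤ → ℝ), (∀ j, (Function.support (f j)).Finite) → ∀ o : ℤ,
    (o = 1 ∨ o = -1) → ∀ K ≤ s + n, ∀ V : ℤ, ∀ 𝒩 : Finset (ℕ × ℤ),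
    (∀ N ∈ 𝒩, s + 1 ≤ N.1 ∧ N.1 ≤ K ∧ N.2 / 2 ^ (K - N.1) = V) →
    (∀ N ∈ 𝒩, ∀ k', N.1 ≤ k' → k' ≤ K → (k', N.2 / 2 ^ (k' - N.1)) ∈ 𝒩) →
    (∀ N ∈ 𝒩, ∀ j, ∑ y ∈ W N.1 N.2, |f j y| ^ q ≤ 2 ^ (N.1 + 5)) →
    ∑ N ∈ 𝒩, |wN o f N| ≤ P * 2 ^ K

theorem rootS_of_rootQ {q p : ℝ} (hq : 0 < q) (hqp : q < p) (hp : 2 < p) : ∃ C : ℝ, 0 < C ∧
    ∀ (n : ℕ) (P : ℝ), 0 ≤ P → RootQ q n P → RootS p n (C * P + 2 ^ 10) := by
  classical
  obtain ⟨C, hC, H⟩ := core hq hqp hp.le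
  refine ⟨C, hC, fun n P hP hroot s g hg o ho K hK V 𝒩 hmem hcl hwin => ?_⟩
  have hp0 : 0 < p := by linarith
  -- the root
  have htop : ∑ N ∈ 𝒩.filter (fun N => ¬ N.1 < K), |wN o g N| ≤ 2 ^ 10 * 2 ^ K := by
    have h1 : 𝒩.filter (fun N => ¬ N.1 < K) ⊆ {(K, V)} := by
      intro N hN
      obtain ⟨h2, h3⟩ := mem_filter.1 hN
      obtain ⟨_, h4, h5⟩ := hmem N h2
      have h6 : N.1 = K := by omega
      rw [h6, Nat.sub_self, pow_zero, Int.ediv_one] at h5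
      rw [mem_singleton]
      exact Prod.ext h6 h5
    by_cases hKV : (K, V) ∈ 𝒩
    · refine (sum_le_sum_of_subset_of_nonneg h1 fun _ _ _ => abs_nonneg _).trans ?_
      rw [sum_singleton, abs_wN]
      have h2 := single_scale (k := K) (v := V) ho g (fun _ => 1) (by
        intro j
        rw [mul_one]
        have h1 : ∑ y ∈ W K V, |g j y| ^ 2 ≤ ∑ y ∈ W K V, ((1 - 2 / p) + 2 / p * |g j y| ^ p) :=
          sum_le_sum fun y _ => sq_le_young hp (abs_nonneg _)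
        refine h1.trans ?_
        rw [sum_add_distrib, sum_const, card_W, ← mul_sum, nsmul_eq_mul]
        have h2 := mul_le_mul_of_nonneg_left (hwin _ hKV j) (by positivity : 0 ≤ 2 / p)
        push_cast
        nlinarith)
      rw [Real.sqrt_one, prod_const_one, mul_one] at h2
      exact h2
    · have h3 : 𝒩.filter (fun N => ¬ N.1 < K) = ∅ := by
        rw [eq_empty_iff_forall_notMem]
        intro N hN
        have h4 := mem_singleton.1 (h1 hN)
        rw [h4] at hN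
        exact hKV (mem_filter.1 hN).1
      rw [h3, sum_empty]
      positivity
  -- the children
  have hch : ∀ i : ℤ, ∑ N ∈ 𝒩.filter (fun N => N.1 < K ∧ N.2 / 2 ^ (K - 1 - N.1) = i),
      |wN o g N| ≤ C * P * 2 ^ K / 2 := by
    intro i
    set 𝒜 := 𝒩.filter (fun N => N.1 < K ∧ N.2 / 2 ^ (K - 1 - N.1) = i) with h𝒜
    rcases 𝒜.eq_empty_or_nonempty with h0 | ⟨N0, hN0⟩
    · rw [h0, sum_empty]
      positivity
    have hsK : s + 1 ≤ K - 1 := by
      obtain ⟨h1, h2, _⟩ := mem_filter.1 hN0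
      have := (hmem _ h1).1
      omega
    set ℬ : Finset (ℕ × ℤ) := 𝒜.image fun N => (N.1 - s, N.2) with hℬ
    have hinj : Set.InjOn (fun N : ℕ × ℤ => (N.1 - s, N.2)) 𝒜 := by
      intro N hN N' hN' h
      have h1 := (hmem _ (mem_filter.1 hN).1).1
      have h2 := (hmem _ (mem_filter.1 hN').1).1
      simp only [Prod.mk.injEq] at h
      exact Prod.ext (by omega) h.2
    have hmB : ∀ N, N ∈ ℬ ↔ 1 ≤ N.1 ∧ (s + N.1, N.2) ∈ 𝒜 := by
      intro N
      rw [hℬ, mem_image]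
      constructor
      · rintro ⟨N', hN', rfl⟩
        have h1 := (hmem _ (mem_filter.1 hN').1).1
        refine ⟨by simp only; omega, ?_⟩
        simp only
        have h2 : s + (N'.1 - s) = N'.1 := by omega
        rw [h2]
        exact hN'
      · rintro ⟨h1, h2⟩
        refine ⟨_, h2, ?_⟩
        simp only
        exact Prod.ext (by simp) rfl
    have h1 : ∑ N ∈ 𝒜, |wN o g N| = ∑ N ∈ ℬ, |wN o g (s + N.1, N.2)| := by
      rw [hℬ, sum_image hinj]
      refine sum_congr rfl fun N hN => ?_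
      have h1 := (hmem _ (mem_filter.1 hN).1).1
      have h2 : s + (N.1 - s) = N.1 := by omega
      simp only [h2]
    rw [h1]
    have h2 := H n P hP hroot s g hg o ho (K - 1 - s) (by omega) i ℬ (fun N hN => by
        obtain ⟨h3, h4⟩ := (hmB N).1 hN
        obtain ⟨h5, h6, h7⟩ := mem_filter.1 h4
        simp only at h6 h7
        refine ⟨h3, by omega, ?_⟩
        rw [← h7]
        congr 2
        omega)
      (fun N hN k' h5 h6 => by
        obtain ⟨h3, h4⟩ := (hmB N).1 hN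
        obtain ⟨h7, h8, h9⟩ := mem_filter.1 h4
        simp only at h8 h9
        refine (hmB _).2 ⟨h3.trans h5, mem_filter.2 ⟨?_, ?_, ?_⟩⟩
        · have h10 := hcl _ h7 (s + k') (by simp only; omega) (by omega)
          simp only at h10
          have h11 : s + k' - (s + N.1) = k' - N.1 := by omega
          rw [h11] at h10
          exact h10
        · simp only
          omega
        · simp only
          rw [← ediv_pow_add, ← h9]
          congr 2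
          omega)
      (fun N hN j => by
        obtain ⟨h3, h4⟩ := (hmB N).1 hN
        obtain ⟨h7, h8, h9⟩ := mem_filter.1 h4
        simp only at h8
        have h10 := hcl _ h7 (s + N.1 + 1) (by simp only; omega) (by omega)
        have h11 : s + N.1 + 1 - (s + N.1) = 1 := by omega
        simp only [h11, pow_one] at h10
        have h12 := hwin _ h10 j
        simp only at h12
        refine (sum_le_sum_of_subset_of_nonneg (fun y hy => ?_)
          fun y _ _ => Real.rpow_nonneg (abs_nonneg _) _).trans h12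
        rw [mem_Ico] at hy
        rw [mem_W, pow_succ]
        have h13 : (0 : ℤ) < 2 ^ (s + N.1) := by positivity
        generalize (2 : ℤ) ^ (s + N.1) = t at *
        have h14 : 2 * (N.2 / 2) ≤ N.2 := Int.mul_ediv_self_le (by norm_num)
        have h15 : N.2 < 2 * (N.2 / 2) + 2 := Int.lt_mul_ediv_self_add (by norm_num)
        constructor
        · nlinarith
        · nlinarith)
    refine h2.trans (le_of_eq ?_)
    have h3 : (2 : ℝ) ^ K = 2 ^ (s + (K - 1 - s)) * 2 := by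
      rw [← pow_succ]
      congr 1
      omega
    rw [h3]
    ring
  have hsplit : ∑ N ∈ 𝒩, |wN o g N| ≤ ∑ N ∈ 𝒩.filter (fun N => ¬ N.1 < K), |wN o g N| +
      (∑ N ∈ 𝒩.filter (fun N => N.1 < K ∧ N.2 / 2 ^ (K - 1 - N.1) = 2 * V), |wN o g N| +
      ∑ N ∈ 𝒩.filter (fun N => N.1 < K ∧ N.2 / 2 ^ (K - 1 - N.1) = 2 * V + 1), |wN o g N|) := by
    rw [sum_filter, sum_filter, sum_filter, ← sum_add_distrib, ← sum_add_distrib]
    refine sum_le_sum fun N hN => ?_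
    obtain ⟨h1, h2, h3⟩ := hmem N hN
    have h0 := abs_nonneg (wN o g N)
    by_cases h4 : N.1 < K
    · have h5 : N.2 / 2 ^ (K - 1 - N.1) = 2 * V ∨ N.2 / 2 ^ (K - 1 - N.1) = 2 * V + 1 := by
        have h6 : N.2 / 2 ^ (K - N.1) = N.2 / 2 ^ (K - 1 - N.1) / 2 := by
          have : K - N.1 = K - 1 - N.1 + 1 := by omega
          rw [this, ediv_pow_add, pow_one]
        rw [h6] at h3
        omega
      rcases h5 with h5 | h5
      · simp only [h4, h5, not_true_eq_false, if_false, true_and, if_true]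
        split_ifs <;> linarith
      · simp only [h4, h5, not_true_eq_false, if_false, true_and, if_true]
        split_ifs <;> linarith
    · simp only [h4, not_false_eq_true, if_true, false_and, if_false]
      linarith
  have h1 := hch (2 * V)
  have h2 := hch (2 * V + 1)
  nlinarith

/-- **`RootS`, unconditional, polylogarithmic in the number of scales** -/
theorem rootS : ∃ m : ℕ, ∀ q : ℝ, 2 < q → ∃ C : ℝ, 0 ≤ C ∧ ∀ n : ℕ, 1 ≤ n →
    RootS q n (C * (1 + Real.log (1 + n)) ^ m) := by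
  obtain ⟨m, hR⟩ := PL.H95.rootTh_of_stCost PL.H990.stCost
  refine ⟨m, fun p hp => ?_⟩
  set q : ℝ := (2 + p) / 2 with hq
  have hq2 : 2 < q := by rw [hq]; linarith
  have hqp : q < p := by rw [hq]; linarith
  obtain ⟨C₁, hC₁, hroot⟩ := rootS_of_rootQ (by linarith : 0 < q) hqp hp
  obtain ⟨c, hc⟩ := exists_nat_ge (2 / (q - 2))
  obtain ⟨C, hC, hR⟩ := hR c
  refine ⟨C₁ * (C + 2 ^ 12) + 2 ^ 10, by positivity, fun n hn => ?_⟩
  have hn1 : (1 : ℝ) ≤ n := by exact_mod_cast hn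
  have hn0 : (0 : ℝ) < n := by linarith
  have hL1 : 1 ≤ 1 + Real.log (1 + (n : ℝ)) := by
    have h7 : 0 ≤ Real.log (1 + (n : ℝ)) := Real.log_nonneg (by linarith)
    linarith
  have hLm : 1 ≤ (1 + Real.log (1 + (n : ℝ))) ^ m := one_le_pow₀ hL1
  have h1 := rootQ_of_th hq2 (H := (n : ℝ) ^ c) (by positivity) (hR n hn)
  have h2 := hroot n _ (by
    have := Real.rpow_nonneg (by positivity : 0 ≤ (n : ℝ) ^ c) (-(q - 2) / 2)
    positivity) h1
  intro s f hf o ho K hK V 𝒩 a1 a2 a3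
  refine (h2 s f hf o ho K hK V 𝒩 a1 a2 a3).trans ?_
  refine mul_le_mul_of_nonneg_right ?_ (by positivity)
  have h3 : (n : ℝ) * ((n : ℝ) ^ c) ^ (-(q - 2) / 2) ≤ 1 := by
    rw [← Real.rpow_natCast, ← Real.rpow_mul hn0.le]
    have h3 : (c : ℝ) * (-(q - 2) / 2) ≤ -1 := by
      have h4 : 2 ≤ (c : ℝ) * (q - 2) := by
        rwa [div_le_iff₀ (by linarith)] at hc
      linarith
    calc (n : ℝ) * (n : ℝ) ^ ((c : ℝ) * (-(q - 2) / 2)) ≤ (n : ℝ) * (n : ℝ) ^ (-1 : ℝ) := by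
          refine mul_le_mul_of_nonneg_left ?_ hn0.le
          exact Real.rpow_le_rpow_of_exponent_le hn1 h3
      _ = 1 := by rw [Real.rpow_neg_one, mul_inv_cancel₀ hn0.ne']
  have h4 : C * (1 + Real.log (1 + (n : ℝ))) ^ m + 2 ^ 12 * n * ((n : ℝ) ^ c) ^ (-(q - 2) / 2) ≤
      (C + 2 ^ 12) * (1 + Real.log (1 + (n : ℝ))) ^ m := by
    nlinarith
  have h5 := mul_le_mul_of_nonneg_left h4 hC₁.le
  nlinarith

end

end Vale.Agent.P141.H530
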