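import Vale.Agent.P141.H530.LevelQ
import Vale.Agent.P141.H530.CalP

/-!
# P141, exponents `r < 1`: single scale averages
-/

namespace Vale.Agent.P141.H530

open MeasureTheory Filter Topology
open scoped ENNReal

noncomputable section

theorem sq_le_pow {q b t : ℝ} (hq : 2 ≤ q) (hb : 0 < b) (ht : 0 ≤ t) :
    t ^ 2 ≤ b ^ 2 + b ^ (2 - q) * t ^ q := by
  rcases le_or_gt t b with h | h
  · have h1 : t ^ 2 ≤ b ^ 2 := pow_le_pow_left₀ ht h 2
    have h2 : 0 ≤ b ^ (2 - q) * t ^ q := mul_nonneg (Real.rpow_nonneg hb.le _) (Real.rpow_nonneg ht _)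
    linarith
  · have ht0 : 0 < t := hb.trans h
    have h1 : t ^ 2 = t ^ (2 - q) * t ^ q := by
      rw [← Real.rpow_add ht0, sub_add_cancel, Real.rpow_two]
    have h2 : t ^ (2 - q) ≤ b ^ (2 - q) := Real.rpow_le_rpow_of_nonpos hb h.le (by linarith)
    have h3 := mul_le_mul_of_nonneg_right h2 (Real.rpow_nonneg ht q)
    have h4 : 0 ≤ b ^ 2 := by positivity
    rw [h1]
    linarith

/-- the square integral over `J` -/
theorem sqJ {q : ℝ} (hq : 2 ≤ q) {g G : ℝ → ℝ} (hG : Integrable G)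
    (hG0 : ∀ x, 0 ≤ G x) (hGg : ∀ x, |g x| ^ q ≤ G x) {ρ : ℝ} (hρ : 0 < ρ) {a x' : ℝ}
    (h1 : a ≤ x') (h2 : x' ≤ a + ρ) {b : ℝ} (hb : 0 < b)
    (hbM : MM G x' ≤ ENNReal.ofReal (b ^ q)) :
    ∫⁻ x in Set.Icc (a - 3 * ρ) (a + 4 * ρ), ‖g x‖ₑ ^ (2 : ℝ) ≤ ENNReal.ofReal (49 * ρ * b ^ 2) := by
  have hp : ∀ x, ‖g x‖ₑ ^ (2 : ℝ) ≤ ENNReal.ofReal (b ^ 2) +
      ENNReal.ofReal (b ^ (2 - q)) * ENNReal.ofReal (G x) := by
    intro x
    rw [← ENNReal.ofReal_mul (Real.rpow_nonneg hb.le _),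
      ← ENNReal.ofReal_add (by positivity) (mul_nonneg (Real.rpow_nonneg hb.le _) (hG0 x)),
      ← ofReal_norm, ENNReal.ofReal_rpow_of_nonneg (norm_nonneg _) (by norm_num),
      Real.norm_eq_abs]
    refine ENNReal.ofReal_le_ofReal ?_
    rw [Real.rpow_two]
    have h3 := sq_le_pow hq hb (abs_nonneg (g x))
    have h4 := mul_le_mul_of_nonneg_left (hGg x) (Real.rpow_nonneg hb.le (2 - q))
    linarith
  have hmv : mv G ρ x' ≤ b ^ q := by
    have h3 : ENNReal.ofReal (mv G ρ x') ≤ ENNReal.ofReal (b ^ q) :=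
      (mv_le_MM G hρ (by simp; positivity)).trans hbM
    exact (ENNReal.ofReal_le_ofReal_iff (Real.rpow_nonneg hb.le q)).1 h3
  have hGJ : ∫⁻ x in Set.Icc (a - 3 * ρ) (a + 4 * ρ), ENNReal.ofReal (G x) ≤
      ENNReal.ofReal (32 * ρ * b ^ q) := by
    have h3 : ∫⁻ x in Set.Icc (a - 3 * ρ) (a + 4 * ρ), ENNReal.ofReal (G x) ≤
        ∫⁻ x in Metric.ball x' (16 * ρ), ENNReal.ofReal (G x) := by
      refine lintegral_mono_set fun x hx => ?_
      rw [Metric.mem_ball, Real.dist_eq, abs_lt]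
      constructor <;> linarith [hx.1, hx.2]
    refine h3.trans ?_
    rw [← mv_eq_lintegral hG hG0 hρ]
    exact ENNReal.ofReal_le_ofReal (mul_le_mul_of_nonneg_left hmv (by positivity))
  refine (lintegral_mono hp).trans ?_
  rw [lintegral_add_left measurable_const, lintegral_const_mul' _ _ ENNReal.ofReal_ne_top,
    setLIntegral_const, Real.volume_Icc]
  refine (add_le_add le_rfl (mul_le_mul_right hGJ _)).trans ?_
  rw [← ENNReal.ofReal_mul (by positivity), ← ENNReal.ofReal_mul (Real.rpow_nonneg hb.le _),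
    ← ENNReal.ofReal_add (by nlinarith [sq_nonneg b]) (mul_nonneg (Real.rpow_nonneg hb.le _)
      (mul_nonneg (by positivity) (Real.rpow_nonneg hb.le _)))]
  refine ENNReal.ofReal_le_ofReal ?_
  have h5 : b ^ (2 - q) * (32 * ρ * b ^ q) = 32 * ρ * b ^ 2 := by
    have : b ^ (2 - q) * b ^ q = b ^ 2 := by
      rw [← Real.rpow_add hb, sub_add_cancel, Real.rpow_two]
    calc b ^ (2 - q) * (32 * ρ * b ^ q) = 32 * ρ * (b ^ (2 - q) * b ^ q) := by ring
      _ = _ := by rw [this]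
  rw [h5]
  have h6 : 0 ≤ ρ * b ^ 2 := by positivity
  nlinarith

/-- the trilinear form of a single scale, by Cauchy and Schwarz -/
theorem trilin {e : Fin 4 → ℝ → ℝ≥0∞} (he : ∀ j, Measurable (e j)) {ρ : ℝ} (hρ : 0 < ρ) (a : ℝ) :
    ∫⁻ x in Set.Ioc a (a + ρ), ∫⁻ u in Set.Ioc (-ρ) ρ, e 1 (x - u) * e 2 (x - 2 * u) * e 3 (x - 3 * u)
    ≤ (ENNReal.ofReal ρ * ∫⁻ x in Set.Icc (a - 3 * ρ) (a + 4 * ρ), e 1 x ^ (2 : ℝ)) ^ (1 / 2 : ℝ) *
      ((∫⁻ x in Set.Icc (a - 3 * ρ) (a + 4 * ρ), e 2 x ^ (2 : ℝ)) *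
        ∫⁻ x in Set.Icc (a - 3 * ρ) (a + 4 * ρ), e 3 x ^ (2 : ℝ)) ^ (1 / 2 : ℝ) := by
  set J := Set.Icc (a - 3 * ρ) (a + 4 * ρ) with hJ
  have hJm : MeasurableSet J := measurableSet_Icc
  set E : Fin 4 → ℝ → ℝ≥0∞ := fun j => J.indicator (e j) with hE
  have hEm : ∀ j, Measurable (E j) := fun j => (he j).indicator hJm
  have hEi : ∀ j, ∫⁻ x, E j x ^ (2 : ℝ) = ∫⁻ x in J, e j x ^ (2 : ℝ) := by
    intro j
    rw [← lintegral_indicator hJm]
    refine lintegral_congr fun x => ?_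
    by_cases hx : x ∈ J
    · simp only [hE, Set.indicator_of_mem hx]
    · simp only [hE, Set.indicator_of_notMem hx]
      exact ENNReal.zero_rpow_of_pos (by norm_num)
  have h1 : ∫⁻ x in Set.Ioc a (a + ρ), ∫⁻ u in Set.Ioc (-ρ) ρ,
      e 1 (x - u) * e 2 (x - 2 * u) * e 3 (x - 3 * u) =
      ∫⁻ x in Set.Ioc a (a + ρ), ∫⁻ u in Set.Ioc (-ρ) ρ,
        E 1 (x - u) * (E 2 (x - 2 * u) * E 3 (x - 3 * u)) := by
    refine setLIntegral_congr_fun measurableSet_Ioc fun x hx => ?_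
    refine setLIntegral_congr_fun measurableSet_Ioc fun u hu => ?_
    have k1 : x - u ∈ J := ⟨by linarith [hx.1, hu.2], by linarith [hx.2, hu.1]⟩
    have k2 : x - 2 * u ∈ J := ⟨by linarith [hx.1, hu.2], by linarith [hx.2, hu.1]⟩
    have k3 : x - 3 * u ∈ J := ⟨by linarith [hx.1, hu.2], by linarith [hx.2, hu.1]⟩
    simp only [hE, Set.indicator_of_mem k1, Set.indicator_of_mem k2, Set.indicator_of_mem k3]
    ring
  rw [h1]
  set μ := (volume.restrict (Set.Ioc a (a + ρ))).prod (volume.restrict (Set.Ioc (-ρ) ρ)) with hμ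
  have m1 : Measurable fun p : ℝ × ℝ => E 1 (p.1 - p.2) := (hEm 1).comp (by fun_prop)
  have m2 : Measurable fun p : ℝ × ℝ => E 2 (p.1 - 2 * p.2) := (hEm 2).comp (by fun_prop)
  have m3 : Measurable fun p : ℝ × ℝ => E 3 (p.1 - 3 * p.2) := (hEm 3).comp (by fun_prop)
  have m23 : Measurable fun p : ℝ × ℝ => E 2 (p.1 - 2 * p.2) * E 3 (p.1 - 3 * p.2) := m2.mul m3
  have m123 : Measurable fun p : ℝ × ℝ => E 1 (p.1 - p.2) *
      (E 2 (p.1 - 2 * p.2) * E 3 (p.1 - 3 * p.2)) := m1.mul m23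
  have m23' : Measurable fun p : ℝ × ℝ => (E 2 (p.1 - 2 * p.2) * E 3 (p.1 - 3 * p.2)) ^ (2 : ℝ) :=
    m23.pow_const _
  have h2 := ENNReal.lintegral_mul_le_Lp_mul_Lq μ (p := 2) (q := 2) Real.HolderConjugate.two_two
    m1.aemeasurable m23.aemeasurable
  have h3 : ∫⁻ p : ℝ × ℝ, E 1 (p.1 - p.2) * (E 2 (p.1 - 2 * p.2) * E 3 (p.1 - 3 * p.2)) ∂μ =
      ∫⁻ x in Set.Ioc a (a + ρ), ∫⁻ u in Set.Ioc (-ρ) ρ,
        E 1 (x - u) * (E 2 (x - 2 * u) * E 3 (x - 3 * u)) := by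
    rw [hμ, lintegral_prod _ m123.aemeasurable]
  have h4 : ∫⁻ p, (E 1 (p.1 - p.2)) ^ (2 : ℝ) ∂μ ≤ ENNReal.ofReal ρ * ∫⁻ x in J, e 1 x ^ (2 : ℝ) := by
    rw [hμ, lintegral_prod _ (m1.pow_const _).aemeasurable]
    calc ∫⁻ x in Set.Ioc a (a + ρ), ∫⁻ u in Set.Ioc (-ρ) ρ, E 1 (x - u) ^ (2 : ℝ)
        ≤ ∫⁻ x in Set.Ioc a (a + ρ), ∫⁻ u, E 1 u ^ (2 : ℝ) := by
          refine lintegral_mono fun x => (setLIntegral_le_lintegral _ _).trans (le_of_eq ?_)
          exact lintegral_sub_left_eq_self (fun u => E 1 u ^ (2 : ℝ)) x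
      _ = _ := by
          rw [setLIntegral_const, Real.volume_Ioc, hEi, mul_comm]
          congr 2
          ring
  have h5 : ∫⁻ p, (E 2 (p.1 - 2 * p.2) * E 3 (p.1 - 3 * p.2)) ^ (2 : ℝ) ∂μ ≤
      (∫⁻ x in J, e 2 x ^ (2 : ℝ)) * ∫⁻ x in J, e 3 x ^ (2 : ℝ) := by
    rw [hμ, lintegral_prod _ m23'.aemeasurable]
    calc ∫⁻ x in Set.Ioc a (a + ρ), ∫⁻ u in Set.Ioc (-ρ) ρ,
          (E 2 (x - 2 * u) * E 3 (x - 3 * u)) ^ (2 : ℝ)
        ≤ ∫⁻ x, ∫⁻ u, (E 2 (x - 2 * u) * E 3 (x - 3 * u)) ^ (2 : ℝ) :=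
          (setLIntegral_le_lintegral _ _).trans (lintegral_mono fun x =>
            setLIntegral_le_lintegral _ _)
      _ = ∫⁻ u, ∫⁻ x, (E 2 (x - 2 * u) * E 3 (x - 3 * u)) ^ (2 : ℝ) := by
          rw [lintegral_lintegral_swap]
          exact m23'.aemeasurable
      _ = ∫⁻ u, ∫⁻ s, (E 2 s * E 3 (s - u)) ^ (2 : ℝ) := by
          refine lintegral_congr fun u => ?_
          have := lintegral_sub_right_eq_self (fun s => (E 2 s * E 3 (s - u)) ^ (2 : ℝ)) (2 * u)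
            (μ := volume)
          rw [← this]
          refine lintegral_congr fun x => ?_
          congr 3
          ring
      _ = ∫⁻ s, ∫⁻ u, (E 2 s * E 3 (s - u)) ^ (2 : ℝ) := by
          rw [lintegral_lintegral_swap]
          have k1 : Measurable fun p : ℝ × ℝ => E 2 p.2 := (hEm 2).comp (by fun_prop)
          have k2 : Measurable fun p : ℝ × ℝ => E 3 (p.2 - p.1) := (hEm 3).comp (by fun_prop)
          exact ((k1.mul k2).pow_const _).aemeasurable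
      _ = ∫⁻ s, E 2 s ^ (2 : ℝ) * ∫⁻ u, E 3 u ^ (2 : ℝ) := by
          refine lintegral_congr fun s => ?_
          have k3 : Measurable fun u : ℝ => E 3 (s - u) ^ (2 : ℝ) :=
            ((hEm 3).comp (by fun_prop)).pow_const _
          rw [← lintegral_sub_left_eq_self (fun u => E 3 u ^ (2 : ℝ)) s, ← lintegral_const_mul _ k3]
          refine lintegral_congr fun u => ?_
          exact ENNReal.mul_rpow_of_nonneg _ _ (by norm_num)
      _ = _ := by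
          rw [lintegral_mul_const _ ((hEm 2).pow_const _), hEi, hEi]
  rw [← h3]
  refine h2.trans ?_
  exact mul_le_mul' (ENNReal.rpow_le_rpow h4 (by norm_num)) (ENNReal.rpow_le_rpow h5 (by norm_num))

theorem ofReal_II {f : Fin 4 → ℝ → ℝ} {x : ℝ} (hw : Continuous (wx f x)) {ρ : ℝ} (hρ : 0 < ρ) :
    ENNReal.ofReal (II (wx f x) ρ / ρ) = (ENNReal.ofReal ρ)⁻¹ *
      ∫⁻ u in Set.Ioc (-ρ) ρ, ‖f 1 (x - u)‖ₑ * ‖f 2 (x - 2 * u)‖ₑ * ‖f 3 (x - 3 * u)‖ₑ := by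
  rw [div_eq_inv_mul, ENNReal.ofReal_mul (by positivity), ENNReal.ofReal_inv_of_pos hρ]
  congr 1
  unfold II
  rw [intervalIntegral.integral_of_le (by linarith), ofReal_integral_eq_lintegral_ofReal
    ((hw.abs.integrableOn_Icc (a := -ρ) (b := ρ)).mono_set Set.Ioc_subset_Icc_self)
    (ae_of_all _ fun _ => abs_nonneg _)]
  refine lintegral_congr fun u => ?_
  rw [← Real.norm_eq_abs, ofReal_norm]
  unfold wx
  rw [enorm_mul, enorm_mul]

theorem II_meas {f : Fin 4 → ℝ → ℝ} (hf : ∀ j, Continuous (f j)) {ρ : ℝ} (hρ : 0 < ρ) :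
    Measurable fun x => ENNReal.ofReal (II (wx f x) ρ / ρ) := by
  have hwc : ∀ x, Continuous (wx f x) := fun x => by
    unfold wx
    have h1 := hf 1
    have h2 := hf 2
    have h3 := hf 3
    fun_prop
  simp only [fun x => ofReal_II (hwc x) hρ]
  refine Measurable.const_mul ?_ _
  have m : Measurable fun p : ℝ × ℝ =>
      ‖f 1 (p.1 - p.2)‖ₑ * ‖f 2 (p.1 - 2 * p.2)‖ₑ * ‖f 3 (p.1 - 3 * p.2)‖ₑ := by
    have h1 : Continuous fun p : ℝ × ℝ => f 1 (p.1 - p.2) := (hf 1).comp (by fun_prop)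
    have h2 : Continuous fun p : ℝ × ℝ => f 2 (p.1 - 2 * p.2) := (hf 2).comp (by fun_prop)
    have h3 : Continuous fun p : ℝ × ℝ => f 3 (p.1 - 3 * p.2) := (hf 3).comp (by fun_prop)
    exact (h1.measurable.enorm.mul h2.measurable.enorm).mul h3.measurable.enorm
  exact m.lintegral_prod_right'

/-- **single scale averages** -/
theorem single {q : ℝ} (hq : 2 ≤ q) {f G : Fin 4 → ℝ → ℝ} {H : ℝ} (hd : DomQ q f G H) (hH : 0 ≤ H)
    (hf : ∀ j, Continuous (f j)) {ρ : ℝ} (hρ : 0 < ρ) {r : ℝ} (hr0 : 0 < r) (hr1 : r ≤ 1) :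
    ∫⁻ x, ENNReal.ofReal (II (wx f x) ρ / ρ) ^ r ≤
      343 * ∫⁻ x, MM (G 1) x ^ (r / q) * MM (G 2) x ^ (r / q) * MM (G 3) x ^ (r / q) := by
  have hq0 : 0 < q := by linarith
  have hwc : ∀ x, Continuous (wx f x) := fun x => by
    unfold wx
    have h1 := hf 1
    have h2 := hf 2
    have h3 := hf 3
    fun_prop
  set φ : ℝ → ℝ≥0∞ := fun x => ENNReal.ofReal (II (wx f x) ρ / ρ) with hφ
  have hφm : Measurable φ := II_meas hf hρ
  set N : ℝ → ℝ≥0∞ := fun x =>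
    MM (G 1) x ^ (r / q) * MM (G 2) x ^ (r / q) * MM (G 3) x ^ (r / q) with hN
  have hNm : Measurable N := ((((MM_meas (hd.gi 1)).pow_const _).mul
    ((MM_meas (hd.gi 2)).pow_const _)).mul ((MM_meas (hd.gi 3)).pow_const _))
  have hρ0 : ENNReal.ofReal ρ ≠ 0 := by simpa using hρ
  -- one interval, one point
  have key : ∀ a x' : ℝ, x' ∈ Set.Ioc a (a + ρ) →
      ∫⁻ x in Set.Ioc a (a + ρ), φ x ^ r ≤ 343 * ENNReal.ofReal ρ * N x' := by
    intro a x' hx'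
    obtain ⟨bb, hbb⟩ := hd.gb
    have hT : ∀ j, ∃ b : ℝ, 0 < b ∧ MM (G j) x' = ENNReal.ofReal (b ^ q) := by
      intro j
      have h1 : MM (G j) x' ≠ ∞ := ((MM_le (hd.gi j) (hbb j) x').trans_lt ENNReal.ofReal_lt_top).ne
      have h2 : 0 < MM (G j) x' := (hd.gp j 1 x' one_pos).trans_le
        (Bm_le_MM (G j) one_pos le_rfl (by linarith))
      have h3 : 0 < (MM (G j) x').toReal := ENNReal.toReal_pos h2.ne' h1
      refine ⟨(MM (G j) x').toReal ^ (1 / q), Real.rpow_pos_of_pos h3 _, ?_⟩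
      rw [← Real.rpow_mul h3.le, one_div_mul_cancel hq0.ne', Real.rpow_one, ENNReal.ofReal_toReal h1]
    choose b hb hbT using hT
    have hJ : ∀ j, ∫⁻ x in Set.Icc (a - 3 * ρ) (a + 4 * ρ), ‖f j x‖ₑ ^ (2 : ℝ) ≤
        ENNReal.ofReal (49 * ρ * b j ^ 2) := fun j =>
      sqJ hq (hd.gi j) (hd.g0 j) (fun x => hd.dom j x x (by simpa using hH)) hρ hx'.1.le hx'.2
        (hb j) (hbT j).le
    have h1 := trilin (e := fun j x => ‖f j x‖ₑ) (fun j => (hd.fm j).enorm) hρ a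
    have h2 : ∫⁻ x in Set.Ioc a (a + ρ), φ x ≤ ENNReal.ofReal (343 * ρ * (b 1 * b 2 * b 3)) := by
      have e1 : ∫⁻ x in Set.Ioc a (a + ρ), φ x = (ENNReal.ofReal ρ)⁻¹ *
          ∫⁻ x in Set.Ioc a (a + ρ), ∫⁻ u in Set.Ioc (-ρ) ρ,
            ‖f 1 (x - u)‖ₑ * ‖f 2 (x - 2 * u)‖ₑ * ‖f 3 (x - 3 * u)‖ₑ := by
        simp only [hφ, fun x => ofReal_II (hwc x) hρ]
        rw [lintegral_const_mul' _ _ (by simpa using hρ0)]
      rw [e1]
      have h3 : (ENNReal.ofReal ρ * ∫⁻ x in Set.Icc (a - 3 * ρ) (a + 4 * ρ),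
          ‖f 1 x‖ₑ ^ (2 : ℝ)) ^ (1 / 2 : ℝ) ≤ ENNReal.ofReal (7 * ρ * b 1) := by
        refine (ENNReal.rpow_le_rpow (mul_le_mul_right (hJ 1) _) (by norm_num)).trans ?_
        rw [← ENNReal.ofReal_mul hρ.le, ENNReal.ofReal_rpow_of_nonneg
          (by have := hb 1; positivity) (by norm_num)]
        refine ENNReal.ofReal_le_ofReal (le_of_eq ?_)
        rw [← Real.sqrt_eq_rpow, show ρ * (49 * ρ * b 1 ^ 2) = (7 * ρ * b 1) ^ 2 by ring]
        exact Real.sqrt_sq (by have := hb 1; positivity)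
      have h4 : ((∫⁻ x in Set.Icc (a - 3 * ρ) (a + 4 * ρ), ‖f 2 x‖ₑ ^ (2 : ℝ)) *
          ∫⁻ x in Set.Icc (a - 3 * ρ) (a + 4 * ρ), ‖f 3 x‖ₑ ^ (2 : ℝ)) ^ (1 / 2 : ℝ) ≤
          ENNReal.ofReal (49 * ρ * (b 2 * b 3)) := by
        refine (ENNReal.rpow_le_rpow (mul_le_mul' (hJ 2) (hJ 3)) (by norm_num)).trans ?_
        have hb2 := hb 2
        have hb3 := hb 3
        rw [← ENNReal.ofReal_mul (by positivity), ENNReal.ofReal_rpow_of_nonneg
          (by positivity) (by norm_num)]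
        refine ENNReal.ofReal_le_ofReal (le_of_eq ?_)
        rw [← Real.sqrt_eq_rpow, show 49 * ρ * b 2 ^ 2 * (49 * ρ * b 3 ^ 2) =
          (49 * ρ * (b 2 * b 3)) ^ 2 by ring]
        exact Real.sqrt_sq (by positivity)
      refine (mul_le_mul_right (h1.trans (mul_le_mul' h3 h4)) _).trans ?_
      have hb1 := hb 1
      have hb2 := hb 2
      have hb3 := hb 3
      rw [← ENNReal.ofReal_inv_of_pos hρ, ← ENNReal.ofReal_mul (by positivity),
        ← ENNReal.ofReal_mul (by positivity)]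
      refine ENNReal.ofReal_le_ofReal (le_of_eq ?_)
      field_simp
      ring
    have hb1 := hb 1
    have hb2 := hb 2
    have hb3 := hb 3
    have hB : 0 < b 1 * b 2 * b 3 := by positivity
    refine (hold_set hr0.le hr1 hφm _).trans ?_
    rw [Real.volume_Ioc, add_sub_cancel_left]
    refine (mul_le_mul_left (ENNReal.rpow_le_rpow h2 hr0.le) _).trans ?_
    have hNx : N x' = ENNReal.ofReal ((b 1 * b 2 * b 3) ^ r) := by
      simp only [hN, hbT]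
      have e : ∀ j, ENNReal.ofReal (b j ^ q) ^ (r / q) = ENNReal.ofReal (b j ^ r) := by
        intro j
        rw [ENNReal.ofReal_rpow_of_nonneg (Real.rpow_nonneg (hb j).le _) (by positivity),
          ← Real.rpow_mul (hb j).le]
        congr 2
        field_simp
      rw [e, e, e, ← ENNReal.ofReal_mul (by positivity), ← ENNReal.ofReal_mul (by positivity),
        Real.mul_rpow (by positivity) hb3.le, Real.mul_rpow hb1.le hb2.le]
    rw [hNx, ENNReal.ofReal_rpow_of_nonneg (by positivity) hr0.le,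
      ENNReal.ofReal_rpow_of_nonneg hρ.le (by linarith), ← ENNReal.ofReal_mul (by positivity),
      show (343 : ℝ≥0∞) = ENNReal.ofReal 343 by norm_num, ← ENNReal.ofReal_mul (by norm_num),
      ← ENNReal.ofReal_mul (by positivity)]
    refine ENNReal.ofReal_le_ofReal ?_
    rw [Real.mul_rpow (by positivity) hB.le, Real.mul_rpow (by norm_num) hρ.le]
    have e2 : ρ ^ r * ρ ^ (1 - r) = ρ := by
      rw [← Real.rpow_add hρ, add_sub_cancel, Real.rpow_one]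
    have e3 : (343 : ℝ) ^ r ≤ 343 := by
      calc (343 : ℝ) ^ r ≤ 343 ^ (1 : ℝ) := Real.rpow_le_rpow_of_exponent_le (by norm_num) hr1
        _ = 343 := Real.rpow_one _
    calc (343 : ℝ) ^ r * ρ ^ r * (b 1 * b 2 * b 3) ^ r * ρ ^ (1 - r) =
        343 ^ r * (ρ ^ r * ρ ^ (1 - r)) * (b 1 * b 2 * b 3) ^ r := by ring
      _ = 343 ^ r * ρ * (b 1 * b 2 * b 3) ^ r := by rw [e2]
      _ ≤ 343 * ρ * (b 1 * b 2 * b 3) ^ r := by
        have : 0 ≤ (b 1 * b 2 * b 3) ^ r := by positivity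
        exact mul_le_mul_of_nonneg_right (mul_le_mul_of_nonneg_right e3 hρ.le) this
  -- one interval
  have key2 : ∀ a : ℝ, ∫⁻ x in Set.Ioc a (a + ρ), φ x ^ r ≤ 343 * ∫⁻ x in Set.Ioc a (a + ρ), N x := by
    intro a
    have h1 : ENNReal.ofReal ρ * ∫⁻ x in Set.Ioc a (a + ρ), φ x ^ r ≤
        ENNReal.ofReal ρ * (343 * ∫⁻ x in Set.Ioc a (a + ρ), N x) := by
      calc ENNReal.ofReal ρ * ∫⁻ x in Set.Ioc a (a + ρ), φ x ^ r
          = ∫⁻ _ in Set.Ioc a (a + ρ), ∫⁻ x in Set.Ioc a (a + ρ), φ x ^ r := by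
            rw [setLIntegral_const, Real.volume_Ioc, add_sub_cancel_left, mul_comm]
        _ ≤ ∫⁻ x' in Set.Ioc a (a + ρ), 343 * ENNReal.ofReal ρ * N x' :=
            setLIntegral_mono' measurableSet_Ioc fun x' hx' => key a x' hx'
        _ = _ := by
            rw [lintegral_const_mul _ hNm]
            ring
    exact (ENNReal.mul_le_mul_iff_right hρ0 ENNReal.ofReal_ne_top).1 h1
  have dec : ∀ ψ : ℝ → ℝ≥0∞, ∫⁻ x, ψ x = ∑' n : ℤ, ∫⁻ x in Set.Ioc (n • ρ) ((n + 1) • ρ), ψ x := by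
    intro ψ
    rw [← setLIntegral_univ ψ, ← iUnion_Ioc_zsmul hρ, lintegral_iUnion
      (fun n => measurableSet_Ioc) (Set.pairwise_disjoint_Ioc_zsmul ρ)]
  rw [dec, dec N, ← ENNReal.tsum_mul_left]
  refine ENNReal.tsum_le_tsum fun n => ?_
  have e : ((n + 1) • ρ : ℝ) = n • ρ + ρ := by rw [add_smul, one_smul]
  rw [e]
  exact key2 _

end

end Vale.Agent.P141.H530
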