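import Vale.Agent.P141.H530.LevelQ
import Vale.Agent.P141.H530.Sum

/-!
# P141, exponents `r < 1`: the sum over the levels, `∫ |F|^r ≤ C ∫ ∏ (M |f_j|^q)^(r/q)`
-/

namespace Vale.Agent.P141.H530

open Finset MeasureTheory
open scoped ENNReal
open Vale.Agent.P141.PL.H620 (HH sg pts uu mo)

noncomputable section

section
variable {ι : Type*} {q : ℝ} (hq : 0 < q) {f G : Fin 4 → ℝ → ℝ} {H₀ : ℝ} (hd : DomQ q f G H₀)
include hq hd

theorem level_l1Q {n₀ : ℕ} {P : ℝ} (hP : 0 ≤ P) (H : RootS q n₀ P) {o : ℤ} (ho : o = 1 ∨ o = -1)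
    (I : Finset ι) (c hm : ι → ℝ) (hh : ∀ i ∈ I, 0 < hm i) (hh2 : ∀ i ∈ I, hm i ≤ H₀) {k0 : ℕ}
    (hk0 : 1 ≤ k0) (K : ℕ) (hK : K < k0 + n₀) (l : ℤ × ℤ × ℤ) :
    ∫⁻ x, ‖FF f o I c hm k0 K (fun i => RlQ q G (hm i) l) x‖ₑ ≤
      ENNReal.ofReal ((∑ i ∈ I, |c i|) * P * ∏ j, lv l j) * volume (DlQ q G l) := by
  classical
  have h1 : ∀ i ∈ I, ∫⁻ x, ‖Fop f o (hm i) k0 K (RlQ q G (hm i) l) x‖ₑ ≤
      ENNReal.ofReal (P * ∏ j, lv l j) * volume (DlQ q G l) := fun i hi =>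
    l1_boundQ hq hP H ho hd.fm hd.fs (hh i hi) (lv_pos l) (lv_zero l) hk0 hK _
      (fun k => Rl_measQ hd (hm i) l k) (conv_ofQ q G (hm i) l) (win_ofQ hq hd (hh i hi) (hh2 i hi) l)
      (Dl_measQ hd l) fun k _ X hR x h1 h2 j hj => (hR j hj).1.trans_le
        (Bm_le_MM (G j) (by have := hh i hi; positivity) h1 (by
          have : 0 < hm i * 2 ^ k := by have := hh i hi; positivity
          linarith))
  have h2 : ∀ x, ‖FF f o I c hm k0 K (fun i => RlQ q G (hm i) l) x‖ₑ ≤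
      ∑ i ∈ I, ENNReal.ofReal |c i| * ‖Fop f o (hm i) k0 K (RlQ q G (hm i) l) x‖ₑ := by
    intro x
    unfold FF
    refine (enorm_sum_le _ _).trans (le_of_eq (sum_congr rfl fun i _ => ?_))
    rw [enorm_mul, Real.enorm_eq_ofReal_abs (c i)]
  refine (lintegral_mono h2).trans ?_
  rw [lintegral_finsetSum' _ fun i _ => ((Fop_meas hd.fm o (hm i) k0 K
    fun k => Rl_measQ hd (hm i) l k).enorm.const_mul _).aemeasurable]
  have h3 : ∀ i ∈ I, ∫⁻ x, ENNReal.ofReal |c i| * ‖Fop f o (hm i) k0 K (RlQ q G (hm i) l) x‖ₑ ≤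
      ENNReal.ofReal |c i| * (ENNReal.ofReal (P * ∏ j, lv l j) * volume (DlQ q G l)) := by
    intro i hi
    rw [lintegral_const_mul' _ _ ENNReal.ofReal_ne_top]
    exact mul_le_mul_right (h1 i hi) _
  refine (sum_le_sum h3).trans (le_of_eq ?_)
  rw [← sum_mul, ← ENNReal.ofReal_sum_of_nonneg fun _ _ => abs_nonneg _, ← mul_assoc,
    ← ENNReal.ofReal_mul (sum_nonneg fun _ _ => abs_nonneg _)]
  congr 2
  ring

theorem level_rpowQ {n₀ : ℕ} {P : ℝ} (hP : 0 ≤ P) (H : RootS q n₀ P) {o : ℤ} (ho : o = 1 ∨ o = -1)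
    (I : Finset ι) (c hm : ι → ℝ) (hh : ∀ i ∈ I, 0 < hm i) (hh2 : ∀ i ∈ I, hm i ≤ H₀) {k0 : ℕ}
    (hk0 : 1 ≤ k0) (K : ℕ) (hK : K < k0 + n₀) {r : ℝ} (hr0 : 0 < r) (hr1 : r ≤ 1) (l : ℤ × ℤ × ℤ) :
    ∫⁻ x, ‖FF f o I c hm k0 K (fun i => RlQ q G (hm i) l) x‖ₑ ^ r ≤
      ENNReal.ofReal (((∑ i ∈ I, |c i|) * P) ^ r * ∏ j, lv l j ^ r) * volume (DlQ q G l) := by
  classical
  set F : ℝ → ℝ := FF f o I c hm k0 K (fun i => RlQ q G (hm i) l) with hF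
  set V := volume (DlQ q G l) with hV
  have hFm : Measurable F := FF_meas hd.fm o I c hm k0 K fun i _ k => Rl_measQ hd (hm i) l k
  have hsupp : ∀ x, x ∉ DlQ q G l → F x = 0 := by
    intro x hx
    rw [hF]
    unfold FF
    refine sum_eq_zero fun i hi => ?_
    have h0 : Fop f o (hm i) k0 K (RlQ q G (hm i) l) x = 0 := by
      by_contra hne
      exact hx (supp_ofQ q f G o (hh i hi) k0 K l hne)
    rw [h0, mul_zero]
  have e1 : ∫⁻ x, ‖F x‖ₑ ^ r = ∫⁻ x in DlQ q G l, ‖F x‖ₑ ^ r := by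
    rw [← lintegral_indicator (Dl_measQ hd l)]
    refine lintegral_congr fun x => ?_
    by_cases hx : x ∈ DlQ q G l
    · rw [Set.indicator_of_mem hx]
    · rw [Set.indicator_of_notMem hx, hsupp x hx, enorm_zero, ENNReal.zero_rpow_of_pos hr0]
  have h1 : ∫⁻ x in DlQ q G l, ‖F x‖ₑ ≤
      ENNReal.ofReal ((∑ i ∈ I, |c i|) * P * ∏ j, lv l j) * V :=
    (setLIntegral_le_lintegral _ _).trans (level_l1Q hq hd hP H ho I c hm hh hh2 hk0 K hK l)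
  have h2 := hold_set hr0.le hr1 hFm.enorm (DlQ q G l)
  rw [e1]
  refine h2.trans ((mul_le_mul_left (ENNReal.rpow_le_rpow h1 hr0.le) _).trans ?_)
  have hA : 0 ≤ (∑ i ∈ I, |c i|) * P := mul_nonneg (sum_nonneg fun _ _ => abs_nonneg _) hP
  have hL : 0 ≤ ∏ j, lv l j := prod_nonneg fun j _ => (lv_pos l j).le
  rw [ENNReal.mul_rpow_of_nonneg _ _ hr0.le, ENNReal.ofReal_rpow_of_nonneg (mul_nonneg hA hL) hr0.le,
    Real.mul_rpow hA hL, ← Real.finsetProd_rpow _ _ fun j _ => (lv_pos l j).le, mul_assoc]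
  refine mul_le_mul_right (le_of_eq ?_) _
  rcases eq_or_ne V 0 with h0 | h0
  · rw [h0, ENNReal.zero_rpow_of_pos hr0, zero_mul]
  · rw [← ENNReal.rpow_add _ _ h0 (Dl_finQ hd l), add_sub_cancel, ENNReal.rpow_one]

/-- **the sum over the levels** -/
theorem level_sumQ {n₀ : ℕ} {P : ℝ} (hP : 0 ≤ P) (H : RootS q n₀ P) {o : ℤ} (ho : o = 1 ∨ o = -1)
    (I : Finset ι) (c hm : ι → ℝ) (hh : ∀ i ∈ I, 0 < hm i) (hh2 : ∀ i ∈ I, hm i ≤ H₀) {k0 : ℕ}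
    (hk0 : 1 ≤ k0) (K : ℕ) (hK : K < k0 + n₀) {r : ℝ} (hr0 : 0 < r) (hr1 : r ≤ 1) :
    ∫⁻ x, ‖FF f o I c hm k0 K (fun _ _ _ => True) x‖ₑ ^ r ≤
      ENNReal.ofReal (((∑ i ∈ I, |c i|) * P) ^ r) *
        (ENNReal.ofReal (2 ^ r / (1 - (2 : ℝ) ^ (-r))) ^ 3 *
      ∫⁻ x, MM (G 1) x ^ (r / q) * MM (G 2) x ^ (r / q) * MM (G 3) x ^ (r / q)) := by
  classical
  set A : ℝ := ((∑ i ∈ I, |c i|) * P) ^ r with hA
  have hA0 : 0 ≤ A := Real.rpow_nonneg (mul_nonneg (sum_nonneg fun _ _ => abs_nonneg _) hP) _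
  set Fl : ℤ × ℤ × ℤ → ℝ → ℝ := fun l => FF f o I c hm k0 K (fun i => RlQ q G (hm i) l) with hFl
  have hFlm : ∀ l, Measurable (Fl l) := fun l =>
    FF_meas hd.fm o I c hm k0 K fun i _ k => Rl_measQ hd (hm i) l k
  have h1 : ∀ x, ‖FF f o I c hm k0 K (fun _ _ _ => True) x‖ₑ ^ r ≤ ∑' l, ‖Fl l x‖ₑ ^ r := by
    intro x
    obtain ⟨S, hS⟩ := FF_splitQ hq hd o I c hm hh k0 K x
    rw [hS]
    refine (ENNReal.rpow_le_rpow (enorm_sum_le _ _) hr0.le).trans ?_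
    exact (rpow_sum_le _ _ hr0 hr1).trans (ENNReal.sum_le_tsum S)
  refine (lintegral_mono h1).trans ?_
  rw [lintegral_tsum fun l => ((hFlm l).enorm.pow_const r).aemeasurable]
  refine (ENNReal.tsum_le_tsum fun l => level_rpowQ hq hd hP H ho I c hm hh hh2 hk0 K hK hr0 hr1 l).trans ?_
  -- the sum of the measures
  set ψ : Fin 4 → ℤ → ℝ → ℝ≥0∞ := fun j m x =>
    if ENNReal.ofReal (((2 : ℝ) ^ m) ^ q / 2 ^ q) < MM (G j) x then ENNReal.ofReal (((2 : ℝ) ^ m) ^ r)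
      else 0 with hψ
  have hψm : ∀ j m, Measurable (ψ j m) := fun j m =>
    Measurable.ite (measurableSet_lt measurable_const (MM_meas (hd.gi j))) measurable_const
      measurable_const
  have h2 : ∀ l : ℤ × ℤ × ℤ, ENNReal.ofReal (A * ∏ j, lv l j ^ r) * volume (DlQ q G l) =
      ENNReal.ofReal A * ∫⁻ x, ψ 1 l.1 x * ψ 2 l.2.1 x * ψ 3 l.2.2 x := by
    intro l
    rw [ENNReal.ofReal_mul hA0, mul_assoc]
    congr 1
    rw [← lintegral_indicator_const (Dl_measQ hd l)]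
    refine lintegral_congr fun x => ?_
    have e3 : ∏ j, lv l j ^ r = ((2 : ℝ) ^ l.1) ^ r * ((2 : ℝ) ^ l.2.1) ^ r *
        ((2 : ℝ) ^ l.2.2) ^ r := by
      rw [Fin.prod_univ_four, lv_zero, Real.one_rpow, one_mul]
      rfl
    by_cases hx : x ∈ DlQ q G l
    · have h1 : ENNReal.ofReal (((2 : ℝ) ^ l.1) ^ q / 2 ^ q) < MM (G 1) x := hx 1 (by decide)
      have h2 : ENNReal.ofReal (((2 : ℝ) ^ l.2.1) ^ q / 2 ^ q) < MM (G 2) x := hx 2 (by decide)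
      have h3 : ENNReal.ofReal (((2 : ℝ) ^ l.2.2) ^ q / 2 ^ q) < MM (G 3) x := hx 3 (by decide)
      rw [Set.indicator_of_mem hx]
      simp only [hψ, if_pos h1, if_pos h2, if_pos h3]
      rw [e3, ENNReal.ofReal_mul (by positivity), ENNReal.ofReal_mul (by positivity)]
    · rw [Set.indicator_of_notMem hx]
      have h4 : ¬ (ENNReal.ofReal (((2 : ℝ) ^ l.1) ^ q / 2 ^ q) < MM (G 1) x ∧
          ENNReal.ofReal (((2 : ℝ) ^ l.2.1) ^ q / 2 ^ q) < MM (G 2) x ∧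
          ENNReal.ofReal (((2 : ℝ) ^ l.2.2) ^ q / 2 ^ q) < MM (G 3) x) := by
        rintro ⟨h1, h2, h3⟩
        apply hx
        intro j hj
        fin_cases j
        · exact absurd rfl hj
        · exact h1
        · exact h2
        · exact h3
      rw [not_and_or, not_and_or] at h4
      simp only [hψ]
      rcases h4 with h | h | h
      · rw [if_neg h, zero_mul, zero_mul]
      · rw [if_neg h, mul_zero, zero_mul]
      · rw [if_neg h, mul_zero]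
  refine (le_of_eq (tsum_congr h2)).trans ?_
  rw [ENNReal.tsum_mul_left]
  refine mul_le_mul_right ?_ _
  have hm3 : ∀ l : ℤ × ℤ × ℤ, AEMeasurable (fun x => ψ 1 l.1 x * ψ 2 l.2.1 x * ψ 3 l.2.2 x) volume :=
    fun l => (((hψm 1 _).mul (hψm 2 _)).mul (hψm 3 _)).aemeasurable
  rw [← lintegral_tsum hm3, ← lintegral_const_mul']
  · refine lintegral_mono fun x => ?_
    have e4 : ∑' l : ℤ × ℤ × ℤ, ψ 1 l.1 x * ψ 2 l.2.1 x * ψ 3 l.2.2 x =
        (∑' m, ψ 1 m x) * ((∑' m, ψ 2 m x) * ∑' m, ψ 3 m x) := by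
      have h5 : ∑' p : ℤ × ℤ, ψ 2 p.1 x * ψ 3 p.2 x = (∑' m, ψ 2 m x) * ∑' m, ψ 3 m x := by
        rw [ENNReal.tsum_prod', ← ENNReal.tsum_mul_right]
        refine tsum_congr fun a => ?_
        rw [← ENNReal.tsum_mul_left]
      rw [ENNReal.tsum_prod', ← ENNReal.tsum_mul_right]
      refine tsum_congr fun a => ?_
      rw [← h5, ← ENNReal.tsum_mul_left]
      refine tsum_congr fun p => ?_
      rw [mul_assoc]
    rw [e4]
    refine (mul_le_mul' (geoQ hq hr0 _) (mul_le_mul' (geoQ hq hr0 _) (geoQ hq hr0 _))).trans (le_of_eq ?_)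
    ring
  · exact ENNReal.pow_ne_top ENNReal.ofReal_ne_top

end

end

end Vale.Agent.P141.H530
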