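import Vale.Agent.P141.H347.Boot2
import Vale.Agent.P141.PL.H571.Doob

/-!
# P141, exponents `r < 1`: the root estimate summed over the roots of a convex family of nodes
-/

namespace Vale.Agent.P141.H530

open Finset
open Vale.Agent.P141.PL.H571 (W mem_cell card_cell)
open Vale.Agent.P141.PL.H620 (loc1 nn HH sg pts uu mo tr)
open Vale.Agent.P141.PL.H855 (wN Bel ediv_pow_add)
open Vale.Agent.P141.H347 (Root2 Dat2)

noncomputable section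

/-- the dyadic interval of a node -/
def cell (N : ℕ × ℤ) : Finset ℤ := Ico (2 ^ N.1 * N.2) (2 ^ N.1 * (N.2 + 1))

/-- the ancestor of scale `k` -/
def anc (N : ℕ × ℤ) (k : ℕ) : ℕ × ℤ := (k, N.2 / 2 ^ (k - N.1))

theorem anc_self (N : ℕ × ℤ) : anc N N.1 = N := by
  simp [anc]

theorem anc_anc (N : ℕ × ℤ) {k l : ℕ} (h1 : N.1 ≤ k) (h2 : k ≤ l) : anc (anc N k) l = anc N l := by
  unfold anc
  simp only [Prod.mk.injEq, true_and]
  rw [← ediv_pow_add]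
  congr 2
  omega

theorem mem_cell' {N : ℕ × ℤ} {z : ℤ} : z ∈ cell N ↔ z / 2 ^ N.1 = N.2 := mem_cell

theorem anc_of_mem {N : ℕ × ℤ} {z : ℤ} (h : z ∈ cell N) {k : ℕ} (hk : N.1 ≤ k) :
    anc N k = (k, z / 2 ^ k) := by
  unfold anc
  rw [← mem_cell'.1 h, ← ediv_pow_add]
  congr 3
  omega

theorem wN_smul (c : Fin 4 → ℝ) (o : ℤ) (g : Fin 4 → ℤ → ℝ) (N : ℕ × ℤ) :
    wN o (fun j x => c j * g j x) N = (∏ j, c j) * wN o g N := by
  unfold wN loc1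
  have e : ∀ x : Fin 4 → ℕ, (∏ i, sg N.1 (x i)) * ∏ j, c j * g j (Vale.Agent.P141.PL.H620.ell j
      (Vale.Agent.P141.PL.H620.pt N.1 (nn o N.2 0 0) x)) = (∏ j, c j) *
      ((∏ i, sg N.1 (x i)) * ∏ j, g j (Vale.Agent.P141.PL.H620.ell j
      (Vale.Agent.P141.PL.H620.pt N.1 (nn o N.2 0 0) x))) := by
    intro x
    rw [prod_mul_distrib]
    ring
  simp only [e]
  rw [← mul_sum]
  ring

/-- the roots of a family -/
def roots (𝒩 : Finset (ℕ × ℤ)) : Finset (ℕ × ℤ) := by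
  classical exact 𝒩.filter fun N => ∀ k, N.1 < k → anc N k ∉ 𝒩

theorem mem_roots {𝒩 : Finset (ℕ × ℤ)} {N : ℕ × ℤ} :
    N ∈ roots 𝒩 ↔ N ∈ 𝒩 ∧ ∀ k, N.1 < k → anc N k ∉ 𝒩 := by
  unfold roots; simp only [mem_filter]

theorem exists_root {𝒩 : Finset (ℕ × ℤ)} {N : ℕ × ℤ} (hN : N ∈ 𝒩) :
    ∃ ρ ∈ roots 𝒩, N.1 ≤ ρ.1 ∧ anc N ρ.1 = ρ := by
  classical
  obtain ⟨ρ, hρ, hmax⟩ := exists_max_image (𝒩.filter fun M => N.1 ≤ M.1 ∧ anc N M.1 = M)
    (fun M => M.1) ⟨N, mem_filter.2 ⟨hN, le_rfl, anc_self N⟩⟩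
  obtain ⟨h1, h2, h3⟩ := mem_filter.1 hρ
  refine ⟨ρ, mem_roots.2 ⟨h1, fun k hk hmem => ?_⟩, h2, h3⟩
  have h4 : anc ρ k = anc N k := by
    conv_lhs => rw [← h3]
    exact anc_anc N h2 hk.le
  rw [h4] at hmem
  have h5 := hmax (anc N k) (mem_filter.2 ⟨hmem, h2.trans hk.le, rfl⟩)
  exact absurd h5 (not_le.2 hk)

theorem roots_disj {𝒩 : Finset (ℕ × ℤ)} :
    Set.PairwiseDisjoint (↑(roots 𝒩)) cell := by
  have key : ∀ ρ ∈ roots 𝒩, ∀ ρ' ∈ roots 𝒩, ρ.1 ≤ ρ'.1 → ∀ z, z ∈ cell ρ → z ∈ cell ρ' →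
      ρ = ρ' := by
    intro ρ hρ ρ' hρ' hle z h1 h2
    have h3 := anc_of_mem h1 hle
    have h4 : ρ' = (ρ'.1, z / 2 ^ ρ'.1) := by
      rw [mem_cell'.1 h2]
    rcases hle.eq_or_lt with h | h
    · rw [← h, anc_self] at h3
      rw [h3, h4, ← h]
    · refine absurd (mem_roots.1 hρ').1 ?_
      rw [h4, ← h3]
      exact (mem_roots.1 hρ).2 _ h
  intro ρ hρ ρ' hρ' hne
  rw [Function.onFun, disjoint_left]
  intro z h1 h2
  apply hne
  rcases le_total ρ.1 ρ'.1 with h | h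
  · exact key ρ hρ ρ' hρ' h z h1 h2
  · exact (key ρ' hρ' ρ hρ h z h2 h1).symm

/-- **the root estimate on a convex family of nodes** -/
theorem tree {P : ℝ} (hP : 0 ≤ P) (H : ∀ n, Root2 n P) {o : ℤ} (ho : o = 1 ∨ o = -1)
    {g : Fin 4 → ℤ → ℝ} (hg : ∀ j, (Function.support (g j)).Finite) {l : Fin 4 → ℝ}
    (hl : ∀ j, 0 < l j) (𝒩 : Finset (ℕ × ℤ)) (h1 : ∀ N ∈ 𝒩, 1 ≤ N.1)
    (conv : ∀ N ∈ 𝒩, ∀ k k' : ℕ, N.1 ≤ k → k ≤ k' → anc N k' ∈ 𝒩 → anc N k ∈ 𝒩)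
    (win : ∀ N ∈ 𝒩, ∀ j, ∑ y ∈ W N.1 N.2, |g j y| ^ 2 ≤ 2 ^ (N.1 + 5) * l j ^ 2) :
    ∑ N ∈ 𝒩, |wN o g N| ≤ P * (∏ j, l j) * ((𝒩.biUnion cell).card : ℝ) := by
  classical
  have hL : 0 < ∏ j, l j := prod_pos fun j _ => hl j
  -- one root
  have hone : ∀ ρ ∈ roots 𝒩, ∑ N ∈ 𝒩.filter (fun N => Bel N ρ), |wN o g N| ≤
      P * (∏ j, l j) * 2 ^ ρ.1 := by
    intro ρ hρ
    have hρ1 := (mem_roots.1 hρ).1
    set g' : Fin 4 → ℤ → ℝ := fun j x => (l j)⁻¹ * g j x with hg'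
    have hd : Dat2 ρ.1 g' o ρ.1 ρ.2 (𝒩.filter fun N => Bel N ρ) := by
      refine ⟨fun j => (hg j).subset fun x hx => ?_, ho, le_rfl, fun N hN => ?_,
        fun N hN k' h2 h3 => ?_, fun N hN j => ?_⟩
      · intro h0
        exact hx (by simp only [hg', h0, mul_zero])
      · obtain ⟨h2, h3⟩ := mem_filter.1 hN
        exact ⟨h1 N h2, h3.1, h3.2⟩
      · obtain ⟨h4, h5⟩ := mem_filter.1 hN
        have h6 : anc N ρ.1 = ρ := by
          unfold anc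
          rw [h5.2]
        refine mem_filter.2 ⟨conv N h4 k' ρ.1 h2 h3 (by rw [h6]; exact hρ1), h3, ?_⟩
        show N.2 / 2 ^ (k' - N.1) / 2 ^ (ρ.1 - k') = ρ.2
        rw [← ediv_pow_add, ← h5.2]
        congr 2
        omega
      · have h2 := win N (mem_filter.1 hN).1 j
        have e : ∀ y, |g' j y| ^ 2 = (l j ^ 2)⁻¹ * |g j y| ^ 2 := by
          intro y
          simp only [hg']
          rw [abs_mul, abs_of_pos (inv_pos.2 (hl j)), mul_pow, inv_pow]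
        simp only [e]
        rw [← mul_sum, inv_mul_le_iff₀ (pow_pos (hl j) 2)]
        linarith
    have h2 := H ρ.1 g' o ρ.1 ρ.2 _ hd
    have h3 : ∀ N, |wN o g' N| = (∏ j, l j)⁻¹ * |wN o g N| := by
      intro N
      rw [hg', wN_smul, abs_mul, prod_inv_distrib, abs_of_pos (inv_pos.2 hL)]
    simp only [h3] at h2
    rw [← mul_sum, inv_mul_le_iff₀ hL] at h2
    linarith
  have hsum : ∑ N ∈ 𝒩, |wN o g N| ≤ ∑ ρ ∈ roots 𝒩, ∑ N ∈ 𝒩.filter (fun N => Bel N ρ),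
      |wN o g N| := by
    have h2 : ∀ N ∈ 𝒩, |wN o g N| ≤ ∑ ρ ∈ roots 𝒩, (if Bel N ρ then |wN o g N| else 0) := by
      intro N hN
      obtain ⟨ρ, hρ, h3, h4⟩ := exists_root hN
      have h5 : Bel N ρ := ⟨h3, by rw [← h4]; rfl⟩
      refine le_trans (le_of_eq ?_) (single_le_sum (f := fun ρ => if Bel N ρ then |wN o g N|
        else 0) (fun ρ _ => by split_ifs <;> simp) hρ)
      simp only [if_pos h5]
    refine (sum_le_sum h2).trans ?_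
    rw [sum_comm]
    refine sum_le_sum fun ρ _ => le_of_eq ?_
    rw [sum_filter]
  refine hsum.trans ((sum_le_sum hone).trans ?_)
  rw [← mul_sum]
  refine mul_le_mul_of_nonneg_left ?_ (by positivity)
  have h3 : ∑ ρ ∈ roots 𝒩, (2 : ℝ) ^ ρ.1 = (((roots 𝒩).biUnion cell).card : ℝ) := by
    rw [card_biUnion fun x hx y hy hne => roots_disj hx hy hne]
    push_cast
    refine sum_congr rfl fun ρ _ => ?_
    unfold cell
    rw [card_cell]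
    push_cast
    rfl
  rw [h3]
  exact_mod_cast card_le_card (biUnion_subset_biUnion_of_subset_left cell fun N hN =>
    (mem_roots.1 hN).1)

end

end Vale.Agent.P141.H530
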