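import Vale.Agent.P141.H530.RootS

/-!
# P141, exponents `r < 1`: the root estimate summed over the roots of a convex family of nodes
-/

namespace Vale.Agent.P141.H530

open Finset
open Vale.Agent.P141.PL.H571 (W mem_cell card_cell)
open Vale.Agent.P141.PL.H620 (loc1 nn HH sg pts uu mo tr)
open Vale.Agent.P141.PL.H855 (wN Bel ediv_pow_add)

noncomputable section

/-- **the root estimate on a convex family of nodes** -/
theorem treeQ {q : ℝ} (hq : 0 < q) {n : ℕ} {P : ℝ} (hP : 0 ≤ P) (H : RootS q n P) {o : ℤ} (ho : o = 1 ∨ o = -1)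
    {g : Fin 4 → ℤ → ℝ} (hg : ∀ j, (Function.support (g j)).Finite) {l : Fin 4 → ℝ}
    (hl : ∀ j, 0 < l j) (𝒩 : Finset (ℕ × ℤ)) (s : ℕ)
    (h1 : ∀ N ∈ 𝒩, s + 1 ≤ N.1 ∧ N.1 ≤ s + n)
    (conv : ∀ N ∈ 𝒩, ∀ k k' : ℕ, N.1 ≤ k → k ≤ k' → anc N k' ∈ 𝒩 → anc N k ∈ 𝒩)
    (win : ∀ N ∈ 𝒩, ∀ j, ∑ y ∈ W N.1 N.2, |g j y| ^ q ≤ 2 ^ (N.1 + 5) * l j ^ q) :
    ∑ N ∈ 𝒩, |wN o g N| ≤ P * (∏ j, l j) * ((𝒩.biUnion cell).card : ℝ) := by
  classical
  have hL : 0 < ∏ j, l j := prod_pos fun j _ => hl j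
  -- one root
  have hone : ∀ ρ ∈ roots 𝒩, ∑ N ∈ 𝒩.filter (fun N => Bel N ρ), |wN o g N| ≤
      P * (∏ j, l j) * 2 ^ ρ.1 := by
    intro ρ hρ
    have hρ1 := (mem_roots.1 hρ).1
    set g' : Fin 4 → ℤ → ℝ := fun j x => (l j)⁻¹ * g j x with hg'
    have h2 := H s g' (fun j => (hg j).subset fun x hx => by
        intro h0
        exact hx (by simp only [hg', h0, mul_zero])) o ho ρ.1 (h1 ρ hρ1).2 ρ.2
      (𝒩.filter fun N => Bel N ρ)
      (fun N hN => by
        obtain ⟨h2, h3⟩ := mem_filter.1 hN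
        exact ⟨(h1 N h2).1, h3.1, h3.2⟩)
      (fun N hN k' h2 h3 => by
        obtain ⟨h4, h5⟩ := mem_filter.1 hN
        have h6 : anc N ρ.1 = ρ := by
          unfold anc
          rw [h5.2]
        refine mem_filter.2 ⟨conv N h4 k' ρ.1 h2 h3 (by rw [h6]; exact hρ1), h3, ?_⟩
        show N.2 / 2 ^ (k' - N.1) / 2 ^ (ρ.1 - k') = ρ.2
        rw [← ediv_pow_add, ← h5.2]
        congr 2
        omega)
      (fun N hN j => by
        have h2 := win N (mem_filter.1 hN).1 j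
        have hlq : 0 < l j ^ q := Real.rpow_pos_of_pos (hl j) q
        have e : ∀ y, |g' j y| ^ q = (l j ^ q)⁻¹ * |g j y| ^ q := by
          intro y
          simp only [hg']
          rw [abs_mul, abs_of_pos (inv_pos.2 (hl j)), Real.mul_rpow (inv_pos.2 (hl j)).le
            (abs_nonneg _), Real.inv_rpow (hl j).le]
        simp only [e]
        rw [← mul_sum, inv_mul_le_iff₀ hlq]
        linarith)
    have h3 : ∀ N, |wN o g' N| = (∏ j, l j)⁻¹ * |wN o g N| := by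
      intro N
      rw [hg', wN_smul, abs_mul, prod_inv_distrib, abs_of_pos (inv_pos.2 hL)]
    simp only [h3] at h2
    rw [← mul_sum, inv_mul_le_iff₀ hL] at h2
    linarith
  have hsum : ∑ N ∈ 𝒩, |wN o g N| ≤ ∑ ρ ∈ roots 𝒩, ∑ N ∈ 𝒩.filter (fun N => Bel N ρ),
      |wN o g N| := by
    have h2 : ∀ N ∈ 𝒩, |wN o g N| ≤ ∑ ρ ∈ roots 𝒩, (if Bel N ρ then |wN o g N| else 0) := by
      intro N hN
      obtain ⟨ρ, hρ, h3, h4⟩ := exists_root hN
      have h5 : Bel N ρ := ⟨h3, by rw [← h4]; rfl⟩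
      refine le_trans (le_of_eq ?_) (single_le_sum (f := fun ρ => if Bel N ρ then |wN o g N|
        else 0) (fun ρ _ => by split_ifs <;> simp) hρ)
      simp only [if_pos h5]
    refine (sum_le_sum h2).trans ?_
    rw [sum_comm]
    refine sum_le_sum fun ρ _ => le_of_eq ?_
    rw [sum_filter]
  refine hsum.trans ((sum_le_sum hone).trans ?_)
  rw [← mul_sum]
  refine mul_le_mul_of_nonneg_left ?_ (by positivity)
  have h3 : ∑ ρ ∈ roots 𝒩, (2 : ℝ) ^ ρ.1 = (((roots 𝒩).biUnion cell).card : ℝ) := by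
    rw [card_biUnion fun x hx y hy hne => roots_disj hx hy hne]
    push_cast
    refine sum_congr rfl fun ρ _ => ?_
    unfold cell
    rw [card_cell]
    push_cast
    rfl
  rw [h3]
  exact_mod_cast card_le_card (biUnion_subset_biUnion_of_subset_left cell fun N hN =>
    (mem_roots.1 hN).1)

end

end Vale.Agent.P141.H530
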